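import Mathlib

/-! Homogeneous simultaneous Dirichlet approximation and the choice of the coordinates. -/

set_option autoImplicit false

namespace Crest.Agent.R75.TA

open Finset ArithmeticFunction

lemma simul_dirichlet (d Q : ℕ) (hQ : 1 ≤ Q) (x : Fin d → ℝ) (hx : ∀ i, 0 ≤ x i) :
    ∃ k : ℕ, 1 ≤ k ∧ k ≤ Q ^ d ∧ ∃ a : Fin d → ℕ, ∀ i, |k * x i - a i| ≤ 1 / Q ∧
      (x i = 0 → a i = 0) := by
  have hQ' : (0 : ℝ) < Q := by exact_mod_cast hQ
  have hlt : ∀ y : ℝ, ⌊(Q : ℝ) * Int.fract y⌋₊ < Q := by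
    intro y
    rw [Nat.floor_lt (mul_nonneg hQ'.le (Int.fract_nonneg y))]
    have := Int.fract_lt_one y
    nlinarith
  let F : Fin (Q ^ d + 1) → (Fin d → Fin Q) := fun k i =>
    ⟨⌊(Q : ℝ) * Int.fract (((k : ℕ) : ℝ) * x i)⌋₊, hlt _⟩
  obtain ⟨k, k', hne, hF⟩ := Fintype.exists_ne_map_eq_of_card_lt F (by simp)
  wlog hlt' : (k : ℕ) < k' generalizing k k'
  · exact this k' k hne.symm hF.symm (by
      have : (k : ℕ) ≠ k' := fun h => hne (Fin.ext h)
      omega)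
  have hmono : ∀ i, ⌊((k : ℕ) : ℝ) * x i⌋ ≤ ⌊((k' : ℕ) : ℝ) * x i⌋ := by
    intro i
    refine Int.floor_le_floor ?_
    have : ((k : ℕ) : ℝ) ≤ (k' : ℕ) := by exact_mod_cast hlt'.le
    have := hx i
    gcongr
  refine ⟨k' - k, by omega, by have := k'.2; omega,
    fun i => (⌊((k' : ℕ) : ℝ) * x i⌋ - ⌊((k : ℕ) : ℝ) * x i⌋).toNat, fun i => ⟨?_, fun h => ?_⟩⟩
  · have h1 : ⌊(Q : ℝ) * Int.fract (((k : ℕ) : ℝ) * x i)⌋₊ =
        ⌊(Q : ℝ) * Int.fract (((k' : ℕ) : ℝ) * x i)⌋₊ := congrArg Fin.val (congrFun hF i)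
    set y := ((k : ℕ) : ℝ) * x i with hy
    set y' := ((k' : ℕ) : ℝ) * x i with hy'
    have h2 := Nat.floor_le (mul_nonneg hQ'.le (Int.fract_nonneg y))
    have h3 := Nat.lt_floor_add_one ((Q : ℝ) * Int.fract y)
    have h4 := Nat.floor_le (mul_nonneg hQ'.le (Int.fract_nonneg y'))
    have h5 := Nat.lt_floor_add_one ((Q : ℝ) * Int.fract y')
    rw [h1] at h2 h3
    have h6 : (((⌊y'⌋ - ⌊y⌋).toNat : ℕ) : ℝ) = (⌊y'⌋ : ℝ) - ⌊y⌋ := by
      have : (((⌊y'⌋ - ⌊y⌋).toNat : ℕ) : ℤ) = ⌊y'⌋ - ⌊y⌋ := Int.toNat_of_nonneg (sub_nonneg.2 (hmono i))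
      exact_mod_cast congrArg (fun z : ℤ => (z : ℝ)) this
    have h7 : (((k' : ℕ) - (k : ℕ) : ℕ) : ℝ) * x i - ((⌊y'⌋ : ℝ) - ⌊y⌋) =
        Int.fract y' - Int.fract y := by
      rw [Nat.cast_sub hlt'.le, Int.fract, Int.fract, hy, hy']; ring
    rw [h6, h7, le_div_iff₀ hQ', ← abs_of_pos hQ', ← abs_mul, abs_le]
    constructor <;> nlinarith
  · simp [h]

theorem exists_coords (n0 : ℕ) (η lam : ℝ) (hη : 0 < η) (hη1 : η ≤ 1)
    (hlam : 2 * ((n0 : ℝ) + 1) ^ 2 ≤ lam) :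
    ∃ (τ : Type) (_ : Fintype τ) (rr : τ → ℕ) (a1 : ℕ), (∀ f, 1 ≤ rr f ∧ rr f ≤ n0 + 1) ∧
      (Fintype.card τ : ℝ) ≤ 6 * (lam / η + 1) ^ (n0 + 1) ∧
      ∀ n : ℕ, 1 ≤ n → n ≤ n0 →
        |(((Finset.univ.filter fun f => rr f ∣ n).card : ℝ) - a1) * lam -
          (Fintype.card τ + 3) * Real.log n| ≤ (n0 + 1) * η := by
  have hn0 : (0 : ℝ) ≤ n0 := Nat.cast_nonneg _
  have hlam0 : 0 < lam := by nlinarith
  set Q := ⌈lam / η⌉₊ with hQ
  have hQ1 : 1 ≤ Q := Nat.one_le_iff_ne_zero.2 (Nat.ceil_pos.2 (by positivity)).ne'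
  have hQ2 : lam / η ≤ Q := Nat.le_ceil _
  have hQ3 : (Q : ℝ) ≤ lam / η + 1 := (Nat.ceil_lt_add_one (by positivity)).le
  have hQ' : (0 : ℝ) < Q := by exact_mod_cast hQ1
  obtain ⟨k, hk1, hk2, a, ha⟩ := simul_dirichlet (n0 + 1) Q hQ1
    (fun r => 6 * vonMangoldt (r : ℕ) / lam)
    (fun r => by have := vonMangoldt_nonneg (n := (r : ℕ)); positivity)
  have hk' : (1 : ℝ) ≤ k := by exact_mod_cast hk1
  have hb : ∀ r : Fin (n0 + 1), |(a r : ℝ) * lam - 6 * k * vonMangoldt (r : ℕ)| ≤ η := by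
    intro r
    have h1 := (ha r).1
    have h2 : (a r : ℝ) * lam - 6 * k * vonMangoldt (r : ℕ) =
        -((k * (6 * vonMangoldt (r : ℕ) / lam) - a r) * lam) := by field_simp; ring
    rw [h2, abs_neg, abs_mul, abs_of_pos hlam0]
    calc _ ≤ 1 / Q * lam := by gcongr
      _ ≤ η := by
        rw [div_le_iff₀ hη] at hQ2
        rw [div_mul_eq_mul_div, one_mul, div_le_iff₀ hQ']; linarith
  have hsum : ∑ r, a r + 3 ≤ 6 * k := by
    have h1 : ∀ r : Fin (n0 + 1), (a r : ℝ) * lam ≤ 6 * k * (n0 + 1) := by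
      intro r
      have h2 := (abs_le.1 (hb r)).2
      have h3 : vonMangoldt (r : ℕ) ≤ n0 := by
        refine vonMangoldt_le_log.trans ((Real.log_le_self (Nat.cast_nonneg _)).trans ?_)
        exact_mod_cast Nat.lt_succ_iff.1 r.2
      nlinarith
    have h2 : (∑ r, (a r : ℝ)) * lam ≤ 6 * k * (n0 + 1) ^ 2 := by
      rw [Finset.sum_mul]
      refine (Finset.sum_le_sum fun r _ => h1 r).trans (le_of_eq ?_)
      simp; ring
    have h3 : ∑ r, (a r : ℝ) ≤ 3 * k := by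
      by_contra h
      push Not at h
      have : 3 * k * lam < (∑ r, (a r : ℝ)) * lam := by gcongr
      nlinarith
    have h4 : ∑ r, a r ≤ 3 * k := by exact_mod_cast h3
    omega
  obtain ⟨a1, ha1⟩ := Nat.exists_eq_add_of_le hsum
  have hcard : Fintype.card (((r : Fin (n0 + 1)) × Fin (a r)) ⊕ Fin a1) + 3 = 6 * k := by
    simp only [Fintype.card_sum, Fintype.card_sigma, Fintype.card_fin]; omega
  refine ⟨((r : Fin (n0 + 1)) × Fin (a r)) ⊕ Fin a1, inferInstance,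
    Sum.elim (fun f => (f.1 : ℕ)) (fun _ => 1), a1, ?_, ?_, ?_⟩
  · rintro (⟨r, f⟩ | f)
    · simp only [Sum.elim_inl]
      refine ⟨?_, r.2.le⟩
      by_contra h
      have h1 : (r : ℕ) = 0 := by omega
      have h2 := (ha r).2 (by simp [h1])
      have := f.2
      omega
    · simp
  · have h1 : (Fintype.card (((r : Fin (n0 + 1)) × Fin (a r)) ⊕ Fin a1) : ℝ) ≤ 6 * k := by
      exact_mod_cast (by omega)
    refine h1.trans ?_
    have h2 : (k : ℝ) ≤ (Q : ℝ) ^ (n0 + 1) := by exact_mod_cast hk2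
    gcongr
    exact h2.trans (by gcongr)
  · intro n hn1 hn2
    have h1 : (Finset.univ.filter fun f : ((r : Fin (n0 + 1)) × Fin (a r)) ⊕ Fin a1 =>
        Sum.elim (fun f => (f.1 : ℕ)) (fun _ => 1) f ∣ n).card =
        ∑ r : Fin (n0 + 1), (if (r : ℕ) ∣ n then a r else 0) + a1 := by
      rw [Finset.card_filter, Fintype.sum_sum_type, Fintype.sum_sigma]
      simp only [Sum.elim_inl, Sum.elim_inr, one_dvd, if_true, sum_const, card_univ,
        Fintype.card_fin, smul_eq_mul, mul_one]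
      congr 1
      refine Finset.sum_congr rfl fun r _ => ?_
      split_ifs <;> simp
    have h2 : (Fintype.card (((r : Fin (n0 + 1)) × Fin (a r)) ⊕ Fin a1) : ℝ) + 3 = 6 * k := by
      exact_mod_cast hcard
    have h3 : Real.log n = ∑ r : Fin (n0 + 1), if (r : ℕ) ∣ n then vonMangoldt (r : ℕ) else 0 := by
      rw [← vonMangoldt_sum, Fin.sum_univ_eq_sum_range
        (fun r => if r ∣ n then vonMangoldt r else 0) (n0 + 1), ← Finset.sum_filter]
      refine Finset.sum_congr ?_ fun _ _ => rfl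
      ext r
      simp only [Nat.mem_divisors, mem_filter, mem_range]
      constructor
      · rintro ⟨h, -⟩
        exact ⟨by have := Nat.le_of_dvd hn1 h; omega, h⟩
      · rintro ⟨-, h⟩
        exact ⟨h, by omega⟩
    rw [h1, h2, h3]
    push_cast
    rw [add_sub_cancel_right, Finset.sum_mul, Finset.mul_sum, ← Finset.sum_sub_distrib]
    refine (Finset.abs_sum_le_sum_abs _ _).trans ?_
    refine (Finset.sum_le_sum (g := fun _ => η) fun r _ => ?_).trans (le_of_eq (by simp))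
    split_ifs
    · exact hb r
    · simpa using hη.le

end Crest.Agent.R75.TA
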