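import Crest.Agent.R75.ASign

/-! A trigonometric polynomial close to the square wave whose coefficients have modulus exactly
`4 / (π n)`. -/

set_option autoImplicit false

namespace Crest.Agent.R75.TA

open Finset Complex Filter Topology
open scoped Real

lemma abs_re_arctan_le {z : ℂ} (hz : ‖z‖ < 1) : |(Complex.arctan z).re| ≤ π / 4 := by
  have h1 : (Complex.arctan z).re = arg ((1 + z * I) / (1 - z * I)) / 2 := by
    rw [Complex.arctan, ← Complex.log_im]
    simp [mul_re]; ring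
  have h2 : |arg ((1 + z * I) / (1 - z * I))| ≤ π / 2 := by
    rw [abs_arg_le_pi_div_two_iff, div_re]
    have h3 : z.re ^ 2 + z.im ^ 2 ≤ 1 := by
      have := Complex.sq_norm z
      rw [normSq_apply] at this
      nlinarith [norm_nonneg z]
    rw [← add_div]
    refine div_nonneg ?_ (normSq_nonneg _)
    simp
    nlinarith
  rw [h1, abs_div, abs_two]
  linarith

lemma hasSum_odd_sq : HasSum (fun k : ℕ => (1 : ℝ) / ((2 * k + 1 : ℕ) : ℝ) ^ 2) (π ^ 2 / 8) := by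
  have h := hasSum_zeta_two
  have he : HasSum (fun k : ℕ => (1 : ℝ) / ((2 * k : ℕ) : ℝ) ^ 2) (π ^ 2 / 24) := by
    have := h.mul_left (1 / 4)
    have e1 : (fun k : ℕ => (1 : ℝ) / ((2 * k : ℕ) : ℝ) ^ 2) =
        fun i : ℕ => 1 / 4 * (1 / (i : ℝ) ^ 2) := by
      ext k; push_cast; rw [mul_pow, div_mul_div_comm]; norm_num
    rw [e1, show π ^ 2 / 24 = 1 / 4 * (π ^ 2 / 6) by ring]
    exact this
  have ho : Summable (fun k : ℕ => (1 : ℝ) / ((2 * k + 1 : ℕ) : ℝ) ^ 2) :=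
    h.summable.comp_injective (i := fun k : ℕ => 2 * k + 1) (fun a b hab => by
      simp only at hab; omega)
  have h2 := HasSum.even_add_odd (f := fun n : ℕ => (1 : ℝ) / (n : ℝ) ^ 2) he ho.hasSum
  have h3 := h.unique h2
  have h4 : ∑' k : ℕ, (1 : ℝ) / ((2 * k + 1 : ℕ) : ℝ) ^ 2 = π ^ 2 / 8 := by linarith
  rw [← h4]; exact ho.hasSum

lemma tendsto_phi_err :
    Tendsto (fun T : ℕ => (4 / (T : ℝ) * (1 + 3 * Real.log T)) * (8 + 3 * Real.log T))
      atTop (𝓝 0) := by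
  have h0 := Real.tendsto_pow_log_div_mul_add_atTop 1 0 0 one_ne_zero
  have h1 := Real.tendsto_pow_log_div_mul_add_atTop 1 0 1 one_ne_zero
  have h2 := Real.tendsto_pow_log_div_mul_add_atTop 1 0 2 one_ne_zero
  have h3 := (((h0.const_mul 32).add (h1.const_mul 108)).add (h2.const_mul 36)).comp
    tendsto_natCast_atTop_atTop (α := ℕ)
  simp only [mul_zero, add_zero] at h3
  convert h3 using 2 with T
  simp only [Function.comp]
  ring

/-- the Abel mean of the square wave, truncated -/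
lemma abel_trunc (T : ℕ) (hT : 1 ≤ T) (θ : ℝ) :
    |(∑ k ∈ range (T ^ 3), (-1 : ℂ) ^ k * (((1 - 1 / T : ℝ) : ℂ) * cexp (θ * I)) ^ (2 * k + 1) /
      ((2 * k + 1 : ℕ) : ℂ)).re| ≤ π / 4 + 1 / T := by
  have hT' : (1 : ℝ) ≤ T := by exact_mod_cast hT
  set r : ℝ := 1 - 1 / T with hr
  have hr0 : 0 ≤ r := by rw [hr, sub_nonneg, div_le_one (by linarith)]; exact hT'
  have hr1 : r < 1 := by rw [hr]; have : (0 : ℝ) < 1 / T := by positivity
                         linarith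
  set z : ℂ := (r : ℂ) * cexp (θ * I) with hz
  have hzn : ‖z‖ = r := by
    rw [hz, norm_mul, norm_exp_ofReal_mul_I, mul_one, Complex.norm_real, Real.norm_of_nonneg hr0]
  have hs := Complex.hasSum_arctan (z := z) (by rw [hzn]; exact hr1)
  have h1 := norm_sub_le_of_geometric_bound_of_hasSum (C := 1) hr1 (fun n => by
    rw [norm_div, norm_mul, norm_pow, norm_neg, norm_one, one_pow, one_mul, norm_pow, hzn, one_mul,
      Complex.norm_natCast]
    have h2 : (1 : ℝ) ≤ ((2 * n + 1 : ℕ) : ℝ) := by exact_mod_cast (by omega : 1 ≤ 2 * n + 1)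
    calc r ^ (2 * n + 1) / ((2 * n + 1 : ℕ) : ℝ) ≤ r ^ (2 * n + 1) := div_le_self (by positivity) h2
      _ ≤ r ^ n := pow_le_pow_of_le_one hr0 hr1.le (by omega)) hs (T ^ 3)
  have h2 : 1 * r ^ (T ^ 3) / (1 - r) ≤ 1 / T := by
    have h3 : r ≤ Real.exp (-(1 / T)) := by
      have := Real.add_one_le_exp (-(1 / (T : ℝ))); linarith
    have h4 : r ^ (T ^ 3) ≤ Real.exp (-((T : ℝ) ^ 2)) := by
      calc r ^ (T ^ 3) ≤ Real.exp (-(1 / T)) ^ (T ^ 3) := by gcongr
        _ = _ := by rw [← Real.exp_nat_mul]; congr 1; push_cast; field_simp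
    have h5 : Real.exp (-((T : ℝ) ^ 2)) ≤ 1 / (T : ℝ) ^ 2 := by
      rw [Real.exp_neg, one_div]
      refine inv_anti₀ (by positivity) ?_
      have := Real.add_one_le_exp ((T : ℝ) ^ 2); linarith
    have h6 : 1 - r = 1 / T := by rw [hr]; ring
    rw [h6, one_mul, div_le_iff₀ (by positivity)]
    calc _ ≤ 1 / (T : ℝ) ^ 2 := h4.trans h5
      _ = _ := by field_simp
  have h3 := abs_re_arctan_le (z := z) (by rw [hzn]; exact hr1)
  set S := ∑ k ∈ range (T ^ 3), (-1 : ℂ) ^ k * z ^ (2 * k + 1) / ((2 * k + 1 : ℕ) : ℂ) with hS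
  have h4 : |(S - Complex.arctan z).re| ≤ 1 / T := (abs_re_le_norm _).trans (h1.trans h2)
  rw [sub_re] at h4
  have h5 := abs_add_le (S.re - (Complex.arctan z).re) (Complex.arctan z).re
  rw [sub_add_cancel] at h5
  linarith

theorem exists_phi (ε : ℝ) (hε : 0 < ε) : ∃ (n0 : ℕ) (O : Finset ℕ) (α : ℕ → ℂ),
    (∀ n ∈ O, 1 ≤ n ∧ n ≤ n0) ∧ (∀ n ∈ O, ‖α n‖ = 4 / (π * n)) ∧
    1 - ε ≤ ∑ n ∈ O, 8 / (π ^ 2 * (n : ℝ) ^ 2) ∧
    ∀ θ : ℝ, |(∑ n ∈ O, α n * cexp ((n * θ : ℝ) * I)).re| ≤ 1 + ε := by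
  have hπ := Real.pi_pos
  have hπ3 := Real.pi_gt_three
  have e1 : ∀ᶠ T : ℕ in atTop,
      (4 / (T : ℝ) * (1 + 3 * Real.log T)) * (8 + 3 * Real.log T) ≤ (ε / 12) ^ 2 :=
    tendsto_phi_err.eventually (ge_mem_nhds (by positivity))
  have e2 : ∀ᶠ T : ℕ in atTop, π ^ 2 / 8 * (1 - ε) ≤
      ∑ k ∈ range (T ^ 3), (1 : ℝ) / ((2 * k + 1 : ℕ) : ℝ) ^ 2 := by
    have h1 := hasSum_odd_sq.tendsto_sum_nat.comp (tendsto_pow_atTop (α := ℕ) (n := 3) (by norm_num))
    exact h1.eventually (le_mem_nhds (by nlinarith [sq_pos_of_pos hπ]))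
  have e3 : ∀ᶠ T : ℕ in atTop, 4 / ε ≤ (T : ℝ) :=
    tendsto_natCast_atTop_atTop.eventually (eventually_ge_atTop _)
  obtain ⟨T, ⟨⟨h1, h2⟩, h3⟩, hT⟩ := (((e1.and e2).and e3).and (eventually_ge_atTop 1)).exists
  have hT' : (1 : ℝ) ≤ T := by exact_mod_cast hT
  have hlog : 0 ≤ Real.log T := Real.log_nonneg hT'
  set r : ℝ := 1 - 1 / T with hr
  have hr0 : 0 ≤ r := by rw [hr, sub_nonneg, div_le_one (by linarith)]; exact hT'
  have hr1 : r ≤ 1 := by rw [hr]; have : (0 : ℝ) < 1 / T := by positivity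
                         linarith
  set S : Finset ℤ := (range (T ^ 3)).image (fun k : ℕ => ((2 * k + 1 : ℕ) : ℤ)) with hS
  have hinj : ∀ a ∈ range (T ^ 3), ∀ b ∈ range (T ^ 3),
      ((2 * a + 1 : ℕ) : ℤ) = ((2 * b + 1 : ℕ) : ℤ) → a = b := fun a _ b _ h => by omega
  set a : ℤ → ℂ := fun m => ((4 / π : ℝ) : ℂ) * ((-1) ^ (m.toNat / 2) * (r : ℂ) ^ m.toNat / m)
    with ha
  have ha' : ∀ k : ℕ, a ((2 * k + 1 : ℕ) : ℤ) =
      ((4 / π : ℝ) : ℂ) * ((-1) ^ k * (r : ℂ) ^ (2 * k + 1) / ((2 * k + 1 : ℕ) : ℂ)) := by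
    intro k
    simp only [ha, Int.toNat_natCast, Int.cast_natCast]
    rw [show (2 * k + 1) / 2 = k by omega]
  have hna : ∀ k : ℕ, ‖a ((2 * k + 1 : ℕ) : ℤ)‖ = 4 / (π * ((2 * k + 1 : ℕ) : ℝ)) * r ^ (2 * k + 1) := by
    intro k
    rw [ha', norm_mul, norm_div, norm_mul, norm_pow, norm_neg, norm_one, one_pow, one_mul, norm_pow,
      Complex.norm_real, Complex.norm_real, Complex.norm_natCast, Real.norm_of_nonneg hr0,
      Real.norm_of_nonneg (by positivity)]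
    field_simp
  obtain ⟨γ, hγ, hsup⟩ := fill_trig S a (fun m => 4 / (π * m)) (2 * T ^ 3) (by
      intro m hm
      obtain ⟨k, hk, rfl⟩ := Finset.mem_image.1 hm
      have := Finset.mem_range.1 hk
      rw [abs_of_nonneg (by positivity)]
      exact_mod_cast (by omega : 2 * k + 1 ≤ 2 * T ^ 3)) (by
      intro m hm
      obtain ⟨k, hk, rfl⟩ := Finset.mem_image.1 hm
      rw [hna, Int.cast_natCast]
      exact mul_le_of_le_one_right (by positivity) (pow_le_one₀ hr0 hr1))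
    (4 / (T : ℝ) * (1 + 3 * Real.log T)) (8 + 3 * Real.log T) (by positivity) (by
      rw [hS, Finset.sum_image hinj]
      have h4 : ∀ k ∈ range (T ^ 3), (4 / (π * (((2 * k + 1 : ℕ) : ℤ) : ℝ))) ^ 2 -
          ‖a ((2 * k + 1 : ℕ) : ℤ)‖ ^ 2 ≤ 4 / (T : ℝ) * (((k + 1 : ℕ) : ℝ))⁻¹ := by
        intro k _
        rw [hna, Int.cast_natCast]
        set n : ℕ := 2 * k + 1 with hn
        have hn0 : (1 : ℝ) ≤ n := by exact_mod_cast (by omega : 1 ≤ n)
        have hkn : ((k + 1 : ℕ) : ℝ) ≤ n := by exact_mod_cast (by omega : k + 1 ≤ n)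
        have h5 : 1 - (2 * n : ℕ) * (1 / (T : ℝ)) ≤ r ^ (2 * n) := by
          have := one_add_mul_le_pow (a := -(1 / (T : ℝ))) (by
            have : 1 / (T : ℝ) ≤ 1 := by rw [div_le_one (by linarith)]; exact hT'
            linarith) (2 * n)
          rw [hr, sub_eq_add_neg, sub_eq_add_neg, ← mul_neg]; exact this
        have h6 : (4 / (π * n)) ^ 2 ≤ 2 / (n : ℝ) ^ 2 := by
          rw [div_pow, mul_pow, div_le_div_iff₀ (by positivity) (by positivity)]
          have : 8 ≤ π ^ 2 := by nlinarith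
          nlinarith [sq_nonneg (n : ℝ)]
        calc (4 / (π * n)) ^ 2 - (4 / (π * n) * r ^ n) ^ 2
            = (4 / (π * n)) ^ 2 * (1 - r ^ (2 * n)) := by rw [mul_pow, ← pow_mul, mul_comm n 2]; ring
          _ ≤ 2 / (n : ℝ) ^ 2 * ((2 * n : ℕ) * (1 / (T : ℝ))) := by
              refine mul_le_mul h6 (by linarith) ?_ (by positivity)
              have := pow_le_one₀ (n := 2 * n) hr0 hr1
              linarith
          _ = 4 / (T : ℝ) * (n : ℝ)⁻¹ := by push_cast; field_simp; norm_num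
          _ ≤ _ := by gcongr
      refine (Finset.sum_le_sum h4).trans ?_
      rw [← Finset.mul_sum]
      gcongr
      have h7 := harmonic_le_one_add_log (T ^ 3)
      rw [harmonic] at h7
      push_cast at h7 ⊢
      rw [Real.log_pow] at h7
      exact_mod_cast h7) (by
      have h4 : (400 : ℝ) * (((2 * T ^ 3 : ℕ) : ℝ) + 1) ≤ Real.exp 8 * (T : ℝ) ^ 3 := by
        have h5 : (1200 : ℝ) ≤ Real.exp 8 := by
          have h6 := Real.exp_one_gt_d9
          have : Real.exp 8 = Real.exp 1 ^ 8 := by rw [← Real.exp_nat_mul]; norm_num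
          rw [this]
          calc (1200 : ℝ) ≤ 2.7 ^ 8 := by norm_num
            _ ≤ _ := by gcongr; linarith
        have h7 : (1 : ℝ) ≤ (T : ℝ) ^ 3 := one_le_pow₀ hT'
        push_cast; nlinarith
      refine (Real.log_le_log (by positivity) h4).trans (le_of_eq ?_)
      rw [Real.log_mul (by positivity) (by positivity), Real.log_exp, Real.log_pow]; norm_num)
  refine ⟨2 * T ^ 3, (range (T ^ 3)).image (fun k => 2 * k + 1), fun n => γ n, ?_, ?_, ?_, ?_⟩
  · intro n hn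
    obtain ⟨k, hk, rfl⟩ := Finset.mem_image.1 hn
    have := Finset.mem_range.1 hk
    omega
  · intro n hn
    obtain ⟨k, hk, rfl⟩ := Finset.mem_image.1 hn
    rw [hγ _ (Finset.mem_image_of_mem _ hk), Int.cast_natCast]
  · rw [Finset.sum_image (fun a _ b _ h => by omega)]
    have : ∑ k ∈ range (T ^ 3), 8 / (π ^ 2 * ((2 * k + 1 : ℕ) : ℝ) ^ 2) =
        8 / π ^ 2 * ∑ k ∈ range (T ^ 3), (1 : ℝ) / ((2 * k + 1 : ℕ) : ℝ) ^ 2 := by
      rw [Finset.mul_sum]; refine Finset.sum_congr rfl fun k _ => ?_; field_simp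
    rw [this]
    calc 1 - ε = 8 / π ^ 2 * (π ^ 2 / 8 * (1 - ε)) := by field_simp
      _ ≤ _ := by gcongr
  · intro θ
    have h4 := hsup θ
    have h5 : 6 * √(4 / (T : ℝ) * (1 + 3 * Real.log T) * (8 + 3 * Real.log T)) ≤ ε / 2 := by
      have := Real.sqrt_le_sqrt h1
      rw [Real.sqrt_sq (by positivity)] at this
      linarith
    rw [hS, Finset.sum_image hinj, Finset.sum_image hinj] at h4
    rw [Finset.sum_image (fun a _ b _ h => by omega)]
    have h6 : ∑ k ∈ range (T ^ 3), a ((2 * k + 1 : ℕ) : ℤ) *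
        cexp (((((2 * k + 1 : ℕ) : ℤ) : ℝ) * θ : ℝ) * I) = ((4 / π : ℝ) : ℂ) *
        ∑ k ∈ range (T ^ 3), (-1 : ℂ) ^ k * ((r : ℂ) * cexp (θ * I)) ^ (2 * k + 1) /
          ((2 * k + 1 : ℕ) : ℂ) := by
      rw [Finset.mul_sum]
      refine Finset.sum_congr rfl fun k _ => ?_
      rw [ha', mul_pow, ← Complex.exp_nat_mul]
      have : cexp (((((2 * k + 1 : ℕ) : ℤ) : ℝ) * θ : ℝ) * I) =
          cexp (((2 * k + 1 : ℕ) : ℂ) * (θ * I)) := by congr 1; push_cast; ring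
      rw [this]; ring
    rw [h6] at h4
    have h7 := abel_trunc T hT θ
    rw [← hr] at h7
    set P := ∑ k ∈ range (T ^ 3), (-1 : ℂ) ^ k * ((r : ℂ) * cexp (θ * I)) ^ (2 * k + 1) /
          ((2 * k + 1 : ℕ) : ℂ) with hP
    simp only [Int.cast_natCast] at h4
    set Q := ∑ k ∈ range (T ^ 3), γ ((2 * k + 1 : ℕ) : ℤ) *
      cexp ((((2 * k + 1 : ℕ) : ℝ) * θ : ℝ) * I) with hQ
    have h8 : |(Q - ((4 / π : ℝ) : ℂ) * P).re| ≤ ε / 2 := (abs_re_le_norm _).trans (h4.trans h5)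
    rw [sub_re, re_ofReal_mul] at h8
    have h9 : |4 / π * P.re| ≤ 1 + ε / 2 := by
      rw [abs_mul, abs_of_pos (by positivity)]
      have h10 : 4 / π * (1 / (T : ℝ)) ≤ ε / 2 := by
        have h11 : 1 / (T : ℝ) ≤ ε / 4 := by
          rw [div_le_iff₀ (by linarith)]
          rw [div_le_iff₀ hε] at h3
          linarith
        have h12 : 4 / π ≤ 2 := by rw [div_le_iff₀ hπ]; linarith
        calc _ ≤ 2 * (ε / 4) := by gcongr
          _ = _ := by ring
      calc _ ≤ 4 / π * (π / 4 + 1 / T) := by gcongr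
        _ = 1 + 4 / π * (1 / (T : ℝ)) := by field_simp
        _ ≤ _ := by linarith
    have h13 := abs_add_le (Q.re - 4 / π * P.re) (4 / π * P.re)
    rw [sub_add_cancel] at h13
    linarith

end Crest.Agent.R75.TA
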