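import Crest.Agent.R75.ACoord
import Crest.Agent.R75.APhi
import Crest.Agent.R75.ADir

/-! Part A of row 75: the torus lemma. -/

set_option autoImplicit false

namespace Crest.Agent.R75.TA

open Finset Complex Filter Topology
open scoped Real

lemma norm_prod_sub_prod {τ : Type*} (s : Finset τ) (x y : τ → ℂ) (e : ℝ) (he : 0 ≤ e)
    (hy : ∀ f, ‖y f‖ ≤ 1) (hxy : ∀ f, ‖x f - y f‖ ≤ e) :
    ‖∏ f ∈ s, x f - ∏ f ∈ s, y f‖ ≤ (1 + e) ^ s.card - 1 := by
  classical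
  induction s using Finset.induction_on with
  | empty => simp
  | insert a s ha ih =>
    rw [Finset.prod_insert ha, Finset.prod_insert ha, Finset.card_insert_of_notMem ha]
    have h1 : ‖∏ f ∈ s, y f‖ ≤ 1 := by
      rw [norm_prod]; exact Finset.prod_le_one (fun _ _ => norm_nonneg _) fun f _ => hy f
    have h2 : ‖x a‖ ≤ 1 + e := by
      have := norm_add_le (y a) (x a - y a)
      rw [add_sub_cancel] at this
      linarith [hy a, hxy a]
    have h3 : x a * ∏ f ∈ s, x f - y a * ∏ f ∈ s, y f =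
        x a * (∏ f ∈ s, x f - ∏ f ∈ s, y f) + (x a - y a) * ∏ f ∈ s, y f := by ring
    rw [h3]
    refine (norm_add_le _ _).trans ?_
    rw [norm_mul, norm_mul]
    have h4 : ‖x a‖ * ‖∏ f ∈ s, x f - ∏ f ∈ s, y f‖ ≤ (1 + e) * ((1 + e) ^ s.card - 1) :=
      mul_le_mul h2 ih (norm_nonneg _) (by linarith)
    have h5 : ‖x a - y a‖ * ‖∏ f ∈ s, y f‖ ≤ e * 1 :=
      mul_le_mul (hxy a) h1 (norm_nonneg _) he
    rw [pow_succ]; linarith

lemma one_add_pow_le (e : ℝ) (he : 0 ≤ e) (K : ℕ) (h : K * e ≤ 1) :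
    (1 + e) ^ K - 1 ≤ 2 * (K * e) := by
  have h1 : (1 + e) ^ K ≤ Real.exp (K * e) := by
    rw [Real.exp_nat_mul]
    gcongr
    linarith [Real.add_one_le_exp e]
  have h0 : 0 ≤ K * e := by positivity
  have h2 := Real.abs_exp_sub_one_le (x := K * e) (by rwa [abs_of_nonneg h0])
  rw [abs_of_nonneg h0] at h2
  linarith [le_abs_self (Real.exp (K * e) - 1)]

lemma tendsto_err (η : ℝ) (hη : 0 < η) (N : ℕ) :
    Tendsto (fun ℓ : ℕ => 6 * (Real.log ℓ / η + 1) ^ N * (100 * Real.log ℓ / √√ℓ)) atTop (𝓝 0) := by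
  have h1 := ((Real.tendsto_pow_log_div_mul_add_atTop 1 0 (N + 1) one_ne_zero).comp
    (Real.tendsto_sqrt_atTop.comp (Real.tendsto_sqrt_atTop.comp
      (tendsto_natCast_atTop_atTop (R := ℝ))))).const_mul (600 * (1 / η + 1) ^ N * 4 ^ (N + 1))
  rw [mul_zero] at h1
  refine squeeze_zero' ?_ ?_ h1
  · filter_upwards [eventually_ge_atTop 1] with ℓ hℓ
    have : 0 ≤ Real.log ℓ := Real.log_nonneg (by exact_mod_cast hℓ)
    positivity
  · filter_upwards [eventually_ge_atTop 3] with ℓ hℓ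
    have hℓ' : (3 : ℝ) ≤ ℓ := by exact_mod_cast hℓ
    have hlog : 1 ≤ Real.log ℓ := by
      rw [Real.le_log_iff_exp_le (by linarith)]
      have := Real.exp_one_lt_d9; linarith
    have h2 : Real.log √√(ℓ : ℝ) = Real.log ℓ / 4 := by
      rw [Real.log_sqrt (Real.sqrt_nonneg _), Real.log_sqrt (by linarith)]; ring
    simp only [Function.comp, h2, one_mul, add_zero]
    have h3 : Real.log ℓ / η + 1 ≤ (1 / η + 1) * Real.log ℓ := by
      rw [add_mul, one_mul, one_div, inv_mul_eq_div]; linarith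
    calc 6 * (Real.log ℓ / η + 1) ^ N * (100 * Real.log ℓ / √√ℓ)
        ≤ 6 * ((1 / η + 1) * Real.log ℓ) ^ N * (100 * Real.log ℓ / √√ℓ) := by gcongr
      _ = _ := by
          rw [mul_pow, div_pow, pow_succ, pow_succ]; field_simp; ring

lemma modulus_facts (c0 lam η : ℝ) (K cnt a1 n : ℕ) (hc0 : 0 < c0) (hn : 1 ≤ n)
    (h : |((cnt : ℝ) - a1) * lam - (K + 3) * Real.log n| ≤ η) (x : ℝ) (hx : 0 ≤ x)
    (hx2 : x ^ 2 = c0 * Real.exp lam ^ cnt / (n : ℝ) ^ (K + 2)) :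
    (1 - η) * √(c0 * Real.exp lam ^ a1 * Real.exp η * n) ≤ x ∧
      x ≤ √(c0 * Real.exp lam ^ a1 * Real.exp η * n) := by
  have hn' : (0 : ℝ) < n := by exact_mod_cast hn
  obtain ⟨h1, h2⟩ := abs_le.1 h
  have e1 : x ^ 2 = c0 * Real.exp lam ^ a1 * n *
      Real.exp (((cnt : ℝ) - a1) * lam - (K + 3) * Real.log n) := by
    have : ((K : ℝ) + 3) * Real.log n = ((K + 3 : ℕ) : ℝ) * Real.log n := by push_cast; ring
    rw [hx2, Real.exp_sub, sub_mul, Real.exp_sub, this, Real.exp_nat_mul, Real.exp_nat_mul,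
      Real.exp_nat_mul, Real.exp_log hn']
    field_simp; ring
  constructor
  · have h3 : Real.exp (-η) * √(c0 * Real.exp lam ^ a1 * Real.exp η * n) ≤ x := by
      refine (pow_le_pow_iff_left₀ (by positivity) hx two_ne_zero).1 ?_
      rw [mul_pow, Real.sq_sqrt (by positivity), e1]
      have : Real.exp (-η) ^ 2 * (c0 * Real.exp lam ^ a1 * Real.exp η * n) =
          c0 * Real.exp lam ^ a1 * n * Real.exp (-η) := by
        rw [Real.exp_neg]; field_simp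
      rw [this]; gcongr
    refine le_trans ?_ h3
    gcongr
    linarith [Real.add_one_le_exp (-η)]
  · refine Real.le_sqrt_of_sq_le ?_
    rw [e1, mul_right_comm _ (Real.exp η)]
    gcongr

theorem torus_lemma' (δ : ℝ) (hδ : 0 < δ) (hδ1 : δ ≤ 1 / 10) :
    ∃ (τ : Type) (_ : Fintype τ) (ι : Type) (_ : Fintype ι) (n : ι → ℕ) (m : ι → τ → ℤ)
      (z : ι → ℂ) (c : ℝ), 0 < c ∧ (∀ b, 1 ≤ n b) ∧
      (∀ b b', b ≠ b' → ∃ i, (n b' : ℤ) * m b i ≠ n b * m b' i) ∧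
      (∀ b, (1 - δ) * √(c * n b) ≤ ‖z b‖ ∧ ‖z b‖ ≤ √(c * n b)) ∧
      1 - 2 * δ ≤ 2 * c * ∑ b, (n b : ℝ) ∧
      ∀ (θ : ℝ) (v : τ → ℝ),
        |∑ b, 2 * (z b * cexp (((n b * θ + ∑ i, m b i * v i : ℝ) : ℂ) * I)).re| ≤ 1 + 2 * δ := by
  classical
  have hπ := Real.pi_pos
  obtain ⟨n0, O, α, hO, hα, hE, hΦ⟩ := exists_phi δ hδ
  have hn0 : (0 : ℝ) < n0 + 1 := by positivity
  have hn0' : (1 : ℝ) ≤ n0 + 1 := by have : (0 : ℝ) ≤ n0 := Nat.cast_nonneg _; linarith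
  obtain ⟨a, ha⟩ : ∃ a : ℝ, a = ∑ n ∈ O, ‖α n‖ := ⟨_, rfl⟩
  have ha0 : 0 ≤ a := ha ▸ Finset.sum_nonneg fun _ _ => norm_nonneg _
  obtain ⟨η, hη⟩ : ∃ η : ℝ, η = δ / (n0 + 1) ^ 2 := ⟨_, rfl⟩
  have hη0 : 0 < η := by rw [hη]; positivity
  have hη' : (n0 + 1) * η = δ / (n0 + 1) := by rw [hη]; field_simp
  have hη2 : (n0 + 1) * η ≤ δ := hη' ▸ div_le_self hδ.le hn0'
  have hη1 : η ≤ 1 := by nlinarith
  have e1 := coord_lemma n0
  have e2 := (tendsto_err η hη0 (n0 + 1)).eventually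
    (ge_mem_nhds (show (0 : ℝ) < δ / (2 * (a + 1)) by positivity))
  have e3 : ∀ᶠ ℓ : ℕ in atTop, 2 * ((n0 : ℝ) + 1) ^ 2 ≤ Real.log ℓ :=
    (Real.tendsto_log_atTop.comp tendsto_natCast_atTop_atTop).eventually (eventually_ge_atTop _)
  obtain ⟨ℓ, ⟨hp, hmod⟩, ⟨⟨h1, h2⟩, h3⟩, h4⟩ :=
    ((Nat.frequently_atTop_modEq_one (Nat.factorial_ne_zero (n0 + 1))).and_eventually
      (((e1.and e2).and e3).and (eventually_gt_atTop n0))).exists
  clear e1 e2 e3
  have hℓ0 : (0 : ℝ) < ℓ := by exact_mod_cast hp.pos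
  obtain ⟨τ, _, rr, a1, hrr, hK, hD⟩ := exists_coords n0 η (Real.log ℓ) hη0 hη1 h3
  have hlog : 0 ≤ Real.log ℓ := le_trans (by positivity) h3
  obtain ⟨err, herr⟩ : ∃ err : ℝ, err = 100 * Real.log ℓ / √√ℓ := ⟨_, rfl⟩
  have herr0 : 0 ≤ err := by rw [herr]; positivity
  rw [← herr] at h1 h2
  have hδa : δ / (2 * (a + 1)) ≤ δ := div_le_self hδ.le (by linarith)
  have hKe : Fintype.card τ * err ≤ δ / (2 * (a + 1)) :=
    le_trans (mul_le_mul_of_nonneg_right hK herr0) h2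
  have herr1 : err ≤ 1 := by
    have h5 : (1 : ℝ) ≤ (Real.log ℓ / η + 1) ^ (n0 + 1) :=
      one_le_pow₀ (by have : 0 ≤ Real.log ℓ / η := by positivity
                      linarith)
    nlinarith
  have hdvd : ∀ f, rr f ∣ ℓ - 1 := fun f =>
    (Nat.dvd_factorial (hrr f).1 (hrr f).2).trans
      ((Nat.modEq_iff_dvd' hp.one_le).1 hmod.symm)
  choose B A h hB hA hS using fun f => h1 hp (rr f) (hdvd f)
  choose! S γ hS1 hS2 hS3 hS4 using hS
  let T : Finset (Σ _ : ℕ, τ → ℤ) := O.sigma fun n => Fintype.piFinset fun f => S f n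
  let zz : (Σ _ : ℕ, τ → ℤ) → ℂ := fun b => α b.1 / 2 * ∏ f, γ f b.1 (b.2 f)
  have hT : ∀ b ∈ T, b.1 ∈ O ∧ ∀ f, b.2 f ∈ S f b.1 := fun b hb => by
    simpa only [T, Finset.mem_sigma, Fintype.mem_piFinset] using hb
  have hz2 : ∀ b ∈ T, ‖zz b‖ ^ 2 = 4 / (π ^ 2 * (b.1 : ℝ) ^ 2) *
      ∏ f, (B f * (if rr f ∣ b.1 then (ℓ : ℝ) else 1) / b.1) := by
    intro b hb
    obtain ⟨hb1, hb2⟩ := hT b hb
    obtain ⟨hb3, hb4⟩ := hO _ hb1
    simp only [zz]
    rw [norm_mul, mul_pow, norm_prod, ← Finset.prod_pow, norm_div, hα _ hb1,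
      Finset.prod_congr rfl fun f _ => hS2 f _ hb3 hb4 _ (hb2 f)]
    congr 1
    have : (0 : ℝ) < b.1 := by exact_mod_cast hb3
    rw [Complex.norm_ofNat]; field_simp; norm_num
  have hB0 : 0 < 4 / π ^ 2 * ∏ f, B f := mul_pos (by positivity) (Finset.prod_pos fun f _ => hB f)
  have hmodz : ∀ b ∈ T, (1 - (n0 + 1) * η) * √((4 / π ^ 2 * ∏ f, B f) *
      Real.exp (Real.log ℓ) ^ a1 * Real.exp ((n0 + 1) * η) * b.1) ≤ ‖zz b‖ ∧
      ‖zz b‖ ≤ √((4 / π ^ 2 * ∏ f, B f) *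
      Real.exp (Real.log ℓ) ^ a1 * Real.exp ((n0 + 1) * η) * b.1) := by
    intro b hb
    obtain ⟨hb3, hb4⟩ := hO _ (hT b hb).1
    refine modulus_facts _ _ _ _ _ _ _ hB0 hb3 (hD _ hb3 hb4) _ (norm_nonneg _) ?_
    rw [hz2 b hb, Finset.prod_div_distrib, Finset.prod_mul_distrib, Finset.prod_ite,
      Finset.prod_const, Finset.prod_const_one, Finset.prod_const, Finset.card_univ,
      Real.exp_log hℓ0]
    have : (0 : ℝ) < b.1 := by exact_mod_cast hb3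
    field_simp; ring
  obtain ⟨c, hc⟩ : ∃ c : ℝ, c = (4 / π ^ 2 * ∏ f, B f) *
      Real.exp (Real.log ℓ) ^ a1 * Real.exp ((n0 + 1) * η) := ⟨_, rfl⟩
  have hc0 : 0 < c := by rw [hc]; positivity
  rw [← hc] at hmodz
  refine ⟨τ, inferInstance, T, inferInstance, fun b => b.1.1, fun b => b.1.2, fun b => zz b.1, c,
    hc0, fun b => (hO _ (hT _ b.2).1).1, ?_, fun b => ⟨le_trans ?_ (hmodz _ b.2).1,
      (hmodz _ b.2).2⟩, ?_, ?_⟩
  · -- independence
    have key : ∀ b ∈ T, ∀ b' ∈ T, ∀ f, rr f ∣ b'.1 → ¬ rr f ∣ b.1 →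
        (b'.1 : ℤ) * b.2 f ≠ b.1 * b'.2 f := by
      intro b hb b' hb' f hf hf' heq
      obtain ⟨hb1, hb2⟩ := hT b hb
      obtain ⟨hb1', hb2'⟩ := hT b' hb'
      obtain ⟨hb3, hb4⟩ := hO _ hb1
      obtain ⟨hb3', hb4'⟩ := hO _ hb1'
      have k1 := (hS1 f _ hb3' hb4' _ (hb2' f)).2 hf
      have k2 : (ℓ : ℤ) ∣ (b'.1 : ℤ) * b.2 f := heq ▸ Dvd.dvd.mul_left k1 _
      rcases (Nat.prime_iff_prime_int.1 hp).dvd_or_dvd k2 with k3 | k3
      · have := Nat.le_of_dvd hb3' (Int.natCast_dvd_natCast.1 k3); omega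
      · exact hf' ((hS1 f _ hb3 hb4 _ (hb2 f)).1 k3)
    rintro ⟨⟨n, m⟩, hb⟩ ⟨⟨n', m'⟩, hb'⟩ hne
    obtain ⟨hb3, hb4⟩ := hO _ (hT _ hb).1
    obtain ⟨hb3', hb4'⟩ := hO _ (hT _ hb').1
    simp only at hb3 hb4 hb3' hb4' ⊢
    by_cases hnn : n = n'
    · subst hnn
      have : m ≠ m' := by rintro rfl; exact hne rfl
      obtain ⟨f, hf⟩ := Function.ne_iff.1 this
      exact ⟨f, fun h => hf (mul_left_cancel₀ (by omega) h)⟩
    · by_contra hcon
      push Not at hcon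
      have k1 : ∀ f, rr f ∣ n ↔ rr f ∣ n' := fun f =>
        ⟨fun hf => by
          by_contra hf'
          exact key _ hb' _ hb f hf hf' (hcon f).symm,
        fun hf => by
          by_contra hf'
          exact key _ hb _ hb' f hf hf' (hcon f)⟩
      have k2 := abs_le.1 (hD n hb3 hb4)
      have k3 := abs_le.1 (hD n' hb3' hb4')
      simp only [k1] at k2
      have k4 : ∀ x y : ℕ, 1 ≤ x → x < y → y ≤ n0 →
          1 / ((n0 : ℝ) + 1) ≤ Real.log y - Real.log x := by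
        intro x y hx hxy hy
        have hx' : (0 : ℝ) < x := by exact_mod_cast hx
        have hxy' : (x : ℝ) + 1 ≤ y := by exact_mod_cast hxy
        have hy' : (y : ℝ) ≤ n0 := by exact_mod_cast hy
        have hy0 : (0 : ℝ) < y := by linarith
        rw [← Real.log_div hy0.ne' hx'.ne']
        refine le_trans ?_ (Real.one_sub_inv_le_log_of_pos (by positivity))
        rw [inv_div, one_sub_div hy0.ne', div_le_div_iff₀ hn0 hy0]
        nlinarith
      have k5 : δ / (n0 + 1) ≤ 1 / 10 * (1 / ((n0 : ℝ) + 1)) := by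
        rw [mul_one_div]; gcongr
      have k6 : (0 : ℝ) < 1 / ((n0 : ℝ) + 1) := by positivity
      have k7 : (0 : ℝ) ≤ Fintype.card τ := Nat.cast_nonneg _
      rw [hη'] at k2 k3
      rcases lt_or_gt_of_ne hnn with hlt | hlt
      · have := k4 n n' hb3 hlt hb4'
        nlinarith [k2.1, k3.2]
      · have := k4 n' n hb3' hlt hb4
        nlinarith [k2.2, k3.1]
  · gcongr
  · -- energy
    have k1 : 2 * ∑ b ∈ T, ‖zz b‖ ^ 2 ≤ 2 * c * ∑ b : T, (b.1.1 : ℝ) := by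
      rw [Finset.sum_coe_sort T (fun b => (b.1 : ℝ)), mul_assoc, Finset.mul_sum _ _ c]
      gcongr with b hb
      have := (hmodz b hb).2
      rwa [Real.le_sqrt (norm_nonneg _) (by positivity)] at this
    refine le_trans ?_ k1
    rw [Finset.sum_congr rfl hz2, Finset.sum_sigma, Finset.mul_sum]
    have k2 : ∀ n ∈ O, 8 / (π ^ 2 * (n : ℝ) ^ 2) * (1 - δ) ≤
        2 * ∑ _s ∈ Fintype.piFinset fun f => S f n, 4 / (π ^ 2 * (n : ℝ) ^ 2) *
          ∏ f, (B f * (if rr f ∣ n then (ℓ : ℝ) else 1) / n) := by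
      intro n hn
      obtain ⟨hb3, hb4⟩ := hO _ hn
      rw [Finset.sum_const, Fintype.card_piFinset, nsmul_eq_mul]
      push_cast
      have k3 : 1 - δ ≤ (∏ f, ((S f n).card : ℝ)) *
          ∏ f, (B f * (if rr f ∣ n then (ℓ : ℝ) else 1) / n) := by
        rw [← Finset.prod_mul_distrib]
        refine le_trans ?_ (Finset.prod_le_prod (f := fun _ => 1 - err)
          (fun _ _ => by linarith) fun f _ => hS3 f n hb3 hb4)
        rw [Finset.prod_const, Finset.card_univ]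
        have := one_add_mul_le_pow (a := -err) (by linarith) (Fintype.card τ)
        rw [sub_eq_add_neg 1 err]; linarith
      calc _ ≤ 8 / (π ^ 2 * (n : ℝ) ^ 2) * ((∏ f, ((S f n).card : ℝ)) *
          ∏ f, (B f * (if rr f ∣ n then (ℓ : ℝ) else 1) / n)) := by gcongr
        _ = _ := by ring
    refine le_trans ?_ (Finset.sum_le_sum k2)
    rw [← Finset.sum_mul]
    nlinarith
  · -- sup bound
    intro θ v
    have k1 : ∑ b : T, 2 * (zz b.1 * cexp (((b.1.1 * θ + ∑ i, b.1.2 i * v i : ℝ) : ℂ) * I)).re =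
        (∑ n ∈ O, α n * cexp ((n * θ : ℝ) * I) *
          ∏ f, ∑ x ∈ S f n, γ f n x * cexp ((x * v f : ℝ) * I)).re := by
      rw [Finset.sum_coe_sort T (fun b =>
        2 * (zz b * cexp (((b.1 * θ + ∑ i, b.2 i * v i : ℝ) : ℂ) * I)).re), Finset.sum_sigma,
        re_sum]
      refine Finset.sum_congr rfl fun n _ => ?_
      rw [Finset.prod_univ_sum, Finset.mul_sum, re_sum]
      refine Finset.sum_congr rfl fun x _ => ?_
      rw [← re_ofReal_mul]
      congr 1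
      simp only [zz]
      rw [Finset.prod_mul_distrib, ← Complex.exp_sum, ofReal_add, add_mul, Complex.exp_add,
        ofReal_sum, Finset.sum_mul]
      push_cast; ring
    rw [k1]
    have k2 : ∑ n ∈ O, α n * cexp ((n * θ : ℝ) * I) *
        ∏ f, ((A f (v f) : ℂ) * cexp ((n * h f (v f) : ℝ) * I)) = ((∏ f, A f (v f) : ℝ) : ℂ) *
        ∑ n ∈ O, α n * cexp ((n * (θ + ∑ f, h f (v f)) : ℝ) * I) := by
      rw [Finset.mul_sum]
      refine Finset.sum_congr rfl fun n _ => ?_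
      rw [Finset.prod_mul_distrib, ← Complex.exp_sum, mul_add, ofReal_add, add_mul, Complex.exp_add,
        Finset.mul_sum, ofReal_sum, Finset.sum_mul]
      push_cast; ring
    have k3 : ‖∑ n ∈ O, α n * cexp ((n * θ : ℝ) * I) *
          ∏ f, ∑ x ∈ S f n, γ f n x * cexp ((x * v f : ℝ) * I) -
        ∑ n ∈ O, α n * cexp ((n * θ : ℝ) * I) *
          ∏ f, ((A f (v f) : ℂ) * cexp ((n * h f (v f) : ℝ) * I))‖ ≤ δ := by
      rw [← Finset.sum_sub_distrib]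
      refine (norm_sum_le _ _).trans ?_
      have k4 : ∀ n ∈ O, ‖α n * cexp ((n * θ : ℝ) * I) *
          ∏ f, ∑ x ∈ S f n, γ f n x * cexp ((x * v f : ℝ) * I) - α n * cexp ((n * θ : ℝ) * I) *
          ∏ f, ((A f (v f) : ℂ) * cexp ((n * h f (v f) : ℝ) * I))‖ ≤ ‖α n‖ * (δ / (a + 1)) := by
        intro n hn
        obtain ⟨hb3, hb4⟩ := hO _ hn
        rw [← mul_sub, norm_mul, norm_mul, norm_exp_ofReal_mul_I, mul_one]
        gcongr
        refine (norm_prod_sub_prod _ _ _ err herr0 (fun f => ?_) fun f => hS4 f n hb3 hb4 _).trans ?_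
        · rw [norm_mul, norm_exp_ofReal_mul_I, mul_one, Complex.norm_real,
            Real.norm_of_nonneg (hA f _).1]
          exact (hA f _).2
        · rw [Finset.card_univ]
          refine (one_add_pow_le err herr0 _ (by linarith)).trans ?_
          have : δ / (a + 1) = 2 * (δ / (2 * (a + 1))) := by field_simp
          linarith
      refine (Finset.sum_le_sum k4).trans ?_
      rw [← Finset.sum_mul, ← ha, ← mul_div_assoc, div_le_iff₀ (by linarith)]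
      nlinarith
    rw [k2] at k3
    have k5 := (abs_re_le_norm _).trans k3
    rw [sub_re, re_ofReal_mul] at k5
    have k6 := hΦ (θ + ∑ f, h f (v f))
    have k7 : 0 ≤ ∏ f, A f (v f) := Finset.prod_nonneg fun f _ => (hA f _).1
    have k8 : ∏ f, A f (v f) ≤ 1 := Finset.prod_le_one (fun f _ => (hA f _).1) fun f _ => (hA f _).2
    set P := (∑ n ∈ O, α n * cexp ((n * θ : ℝ) * I) *
          ∏ f, ∑ x ∈ S f n, γ f n x * cexp ((x * v f : ℝ) * I)).re
    set Q := (∑ n ∈ O, α n * cexp ((n * (θ + ∑ f, h f (v f)) : ℝ) * I)).re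
    have k9 : |(∏ f, A f (v f)) * Q| ≤ 1 + δ := by
      rw [abs_mul, abs_of_nonneg k7]
      exact (mul_le_of_le_one_left (abs_nonneg _) k8).trans k6
    have k10 := abs_add_le (P - (∏ f, A f (v f)) * Q) ((∏ f, A f (v f)) * Q)
    rw [sub_add_cancel] at k10
    linarith

end Crest.Agent.R75.TA

namespace Crest.Agent.R75

/-- **Torus lemma.** -/
theorem torus_lemma (ε : ℝ) (hε : 0 < ε) : ∃ (K : ℕ) (ι : Type) (_ : Fintype ι) (n : ι → ℕ)
    (m : ι → Fin K → ℤ) (z : ι → ℂ) (c : ℝ), 0 < c ∧ (∀ b, 1 ≤ n b) ∧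
    (∀ b b', b ≠ b' → ∃ i, (n b' : ℤ) * m b i ≠ n b * m b' i) ∧
    (∀ b, (1 - ε) * √(c * n b) ≤ ‖z b‖ ∧ ‖z b‖ ≤ √(c * n b)) ∧
    1 - ε ≤ 2 * c * ∑ b, (n b : ℝ) ∧
    ∀ (θ : ℝ) (v : Fin K → ℝ), |∑ b, 2 * (z b * Complex.exp
      (((n b * θ + ∑ i, m b i * v i : ℝ) : ℂ) * Complex.I)).re| ≤ 1 + ε := by
  have h1 : min (ε / 2) (1 / 10) ≤ ε / 2 := min_le_left _ _
  obtain ⟨τ, _, ι, _, n, m, z, c, hc, hn, hind, hz, hE, hsup⟩ :=
    TA.torus_lemma' (min (ε / 2) (1 / 10)) (by positivity) (min_le_right _ _)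
  let e := Fintype.equivFin τ
  refine ⟨Fintype.card τ, ι, inferInstance, n, fun b i => m b (e.symm i), z, c, hc, hn, ?_, ?_,
    by linarith, fun θ v => ?_⟩
  · intro b b' hb
    obtain ⟨f, hf⟩ := hind b b' hb
    exact ⟨e f, by simpa using hf⟩
  · intro b
    refine ⟨le_trans ?_ (hz b).1, (hz b).2⟩
    gcongr; linarith
  · have h2 := hsup θ (fun f => v (e f))
    have h3 : ∀ b, ∑ i, (m b (e.symm i) : ℝ) * v i = ∑ f, (m b f : ℝ) * v (e f) := by
      intro b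
      rw [← Equiv.sum_comp e]
      simp
    simp only [h3]
    linarith

end Crest.Agent.R75
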