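import Crest.Agent.Lib.Spencer.Grid

/-! Random signs (exponential moments) and the "fill" lemma: coefficients of a trigonometric
polynomial can be enlarged to prescribed moduli at a small cost in the sup norm. -/

set_option autoImplicit false

namespace Crest.Agent.R75.TA

open Finset Complex Crest.Agent.Spencer

/-- the real sign attached to a boolean -/
def sgn (b : Bool) : ℝ := if b then 1 else -1

lemma sum_exp_signs {ι : Type*} [Fintype ι] [DecidableEq ι] (a : ι → ℝ) :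
    ∑ χ : ι → Bool, Real.exp (∑ k, a k * sgn (χ k))
      ≤ 2 ^ Fintype.card ι * Real.exp ((∑ k, a k ^ 2) / 2) := by
  have h1 : ∀ χ : ι → Bool, Real.exp (∑ k, a k * sgn (χ k))
      = ∏ k, Real.exp (a k * sgn (χ k)) := fun χ => Real.exp_sum _ _
  simp_rw [h1]
  have h2 := Finset.prod_univ_sum (fun _ : ι => (Finset.univ : Finset Bool))
    (fun k b => Real.exp (a k * sgn b))
  rw [Fintype.piFinset_univ] at h2
  rw [← h2]
  have h3 : ∀ k, ∑ b : Bool, Real.exp (a k * sgn b) ≤ 2 * Real.exp (a k ^ 2 / 2) := by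
    intro k
    rw [Fintype.sum_bool]
    have h4 := Real.cosh_le_exp_half_sq (a k)
    rw [Real.cosh_eq] at h4
    simp only [sgn, if_true, mul_one, Bool.false_eq_true, if_false, mul_neg]
    linarith
  calc _ ≤ ∏ k : ι, 2 * Real.exp (a k ^ 2 / 2) :=
        Finset.prod_le_prod (fun k _ => by positivity) (fun k _ => h3 k)
    _ = _ := by
        rw [Finset.prod_mul_distrib, Finset.prod_const, Finset.card_univ, ← Real.exp_sum,
          Finset.sum_div]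

lemma exists_signs {ι κ : Type*} [Fintype ι] [DecidableEq ι] [Fintype κ] (a : κ → ι → ℝ)
    (E Λ : ℝ) (hE0 : 0 < E) (hΛ0 : 0 < Λ) (hE : ∀ i, ∑ k, a i k ^ 2 ≤ E)
    (hΛ : (Fintype.card κ : ℝ) ≤ Real.exp Λ) :
    ∃ χ : ι → Bool, ∀ i, ∑ k, a i k * sgn (χ k) ≤ 3 / 2 * √(E * Λ) := by
  set u : ℝ := √(Λ / E) with hu
  have hu0 : 0 < u := Real.sqrt_pos.2 (by positivity)
  have hu2 : u ^ 2 = Λ / E := Real.sq_sqrt (by positivity)
  have h1 : ∑ χ : ι → Bool, ∑ i, Real.exp (∑ k, (u * a i k) * sgn (χ k)) ≤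
      ∑ _χ : ι → Bool, Real.exp (3 / 2 * Λ) := by
    rw [Finset.sum_comm]
    have h2 : ∀ i, ∑ χ : ι → Bool, Real.exp (∑ k, (u * a i k) * sgn (χ k)) ≤
        2 ^ Fintype.card ι * Real.exp (Λ / 2) := by
      intro i
      refine (sum_exp_signs _).trans ?_
      gcongr
      simp_rw [mul_pow]
      rw [← Finset.mul_sum, hu2]
      calc Λ / E * ∑ k, a i k ^ 2 ≤ Λ / E * E := by gcongr; exact hE i
        _ = Λ := by field_simp
    calc _ ≤ ∑ _i : κ, 2 ^ Fintype.card ι * Real.exp (Λ / 2) := Finset.sum_le_sum fun i _ => h2 i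
      _ = (Fintype.card κ : ℝ) * (2 ^ Fintype.card ι * Real.exp (Λ / 2)) := by
          rw [Finset.sum_const, Finset.card_univ, nsmul_eq_mul]
      _ ≤ Real.exp Λ * (2 ^ Fintype.card ι * Real.exp (Λ / 2)) := by gcongr
      _ = _ := by
          rw [Finset.sum_const, Finset.card_univ, nsmul_eq_mul, Fintype.card_fun,
            Fintype.card_bool]
          have : Real.exp (3 / 2 * Λ) = Real.exp Λ * Real.exp (Λ / 2) := by
            rw [← Real.exp_add]; congr 1; ring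
          rw [this]; push_cast; ring
  obtain ⟨χ, -, hχ⟩ := Finset.exists_le_of_sum_le Finset.univ_nonempty h1
  refine ⟨χ, fun i => ?_⟩
  have h3 : Real.exp (∑ k, (u * a i k) * sgn (χ k)) ≤ Real.exp (3 / 2 * Λ) :=
    le_trans (Finset.single_le_sum (f := fun i => Real.exp (∑ k, (u * a i k) * sgn (χ k)))
      (fun i _ => (Real.exp_pos _).le) (Finset.mem_univ i)) hχ
  have h4 := Real.exp_le_exp.1 h3
  simp_rw [mul_assoc] at h4
  rw [← Finset.mul_sum] at h4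
  have h5 : u * √(E * Λ) = Λ := by
    rw [hu, ← Real.sqrt_mul (by positivity)]
    have : Λ / E * (E * Λ) = Λ ^ 2 := by field_simp
    rw [this, Real.sqrt_sq hΛ0.le]
  have h6 : u * ∑ k, a i k * sgn (χ k) ≤ u * (3 / 2 * √(E * Λ)) := by
    have : u * (3 / 2 * √(E * Λ)) = 3 / 2 * (u * √(E * Λ)) := by ring
    rw [this, h5]; exact h4
  exact le_of_mul_le_mul_left h6 hu0

lemma poly_form (T : Finset ℤ) (D : ℕ) (hD : ∀ m ∈ T, |m| ≤ D) (g : ℤ → ℂ) (z : ℂ) :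
    ∑ k : Fin (2 * D + 1), (∑ m ∈ T, if (m + D).toNat = (k : ℕ) then g m else 0) * z ^ (k : ℕ) =
      ∑ m ∈ T, g m * z ^ (m + D).toNat := by
  simp_rw [Finset.sum_mul]
  rw [Finset.sum_comm]
  refine Finset.sum_congr rfl fun m hm => ?_
  have h1 := abs_le.1 (hD m hm)
  have h2 : (m + D).toNat < 2 * D + 1 := by omega
  rw [Finset.sum_eq_single (⟨(m + D).toNat, h2⟩ : Fin (2 * D + 1))]
  · simp
  · intro k _ hk
    rw [if_neg, zero_mul]
    intro h; apply hk; ext; exact h.symm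
  · simp

theorem signs_trig (T : Finset ℤ) (d : ℤ → ℂ) (D : ℕ) (hD : ∀ m ∈ T, |m| ≤ D) (E Λ : ℝ)
    (hE0 : 0 < E) (hE : ∑ m ∈ T, ‖d m‖ ^ 2 ≤ E) (hΛ : Real.log (400 * (D + 1)) ≤ Λ) :
    ∃ e : ℤ → ℝ, (∀ m, e m = 1 ∨ e m = -1) ∧
      ∀ v : ℝ, ‖∑ m ∈ T, (e m : ℂ) * d m * cexp ((m * v : ℝ) * I)‖ ≤ 6 * √(E * Λ) := by
  have hD0 : (0 : ℝ) ≤ D := Nat.cast_nonneg D
  have hΛ0 : 0 < Λ := lt_of_lt_of_le (Real.log_pos (by linarith)) hΛ
  set N := 2 * D + 1 with hN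
  let w : Fin (40 * N + 1) → ℤ → ℂ := fun j m => d m * grid N j ^ (m + D).toNat
  have hw : ∀ j m, ‖w j m‖ = ‖d m‖ := by
    intro j m; simp only [w, norm_mul, norm_pow, norm_grid, one_pow, mul_one]
  let a : Fin (40 * N + 1) × Bool × Bool → T → ℝ := fun i m =>
    sgn i.2.1 * (if i.2.2 then (w i.1 m).re else (w i.1 m).im)
  obtain ⟨χ, hχ⟩ := exists_signs a E Λ hE0 hΛ0 (by
    intro i
    refine le_trans ?_ hE
    rw [← Finset.sum_coe_sort T]
    refine Finset.sum_le_sum fun m _ => ?_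
    have h1 : sgn i.2.1 ^ 2 = 1 := by unfold sgn; split_ifs <;> norm_num
    simp only [a, mul_pow, h1, one_mul]
    rw [← hw i.1 m]
    split_ifs
    · exact sq_le_sq' (abs_le.1 (abs_re_le_norm _)).1 (abs_le.1 (abs_re_le_norm _)).2
    · exact sq_le_sq' (abs_le.1 (abs_im_le_norm _)).1 (abs_le.1 (abs_im_le_norm _)).2) (by
    refine le_trans ?_ (Real.exp_le_exp.2 hΛ)
    rw [Real.exp_log (by positivity)]
    simp only [Fintype.card_prod, Fintype.card_fin, Fintype.card_bool, hN]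
    push_cast; linarith)
  let e : ℤ → ℝ := fun m => if h : m ∈ T then sgn (χ ⟨m, h⟩) else 1
  have he : ∀ m, e m = 1 ∨ e m = -1 := by
    intro m; simp only [e, sgn]; split_ifs <;> simp
  refine ⟨e, he, fun v => ?_⟩
  have hgrid : ∀ j, ‖∑ m ∈ T, ((e m : ℂ) * d m) * grid N j ^ (m + D).toNat‖ ≤ 3 * √(E * Λ) := by
    intro j
    have hre : (∑ m ∈ T, ((e m : ℂ) * d m) * grid N j ^ (m + D).toNat).re =
        ∑ m : T, (w j m).re * sgn (χ m) := by
      rw [re_sum, ← Finset.sum_coe_sort T]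
      refine Finset.sum_congr rfl fun m _ => ?_
      rw [mul_assoc, re_ofReal_mul]
      simp only [e, w, dif_pos m.2, mul_comm]
    have him : (∑ m ∈ T, ((e m : ℂ) * d m) * grid N j ^ (m + D).toNat).im =
        ∑ m : T, (w j m).im * sgn (χ m) := by
      rw [im_sum, ← Finset.sum_coe_sort T]
      refine Finset.sum_congr rfl fun m _ => ?_
      rw [mul_assoc, im_ofReal_mul]
      simp only [e, w, dif_pos m.2, mul_comm]
    have h1 := hχ (j, true, true)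
    have h2 := hχ (j, false, true)
    have h3 := hχ (j, true, false)
    have h4 := hχ (j, false, false)
    simp only [a, sgn, if_true, Bool.false_eq_true, if_false, one_mul, neg_mul,
      Finset.sum_neg_distrib] at h1 h2 h3 h4
    refine (norm_le_abs_re_add_abs_im _).trans ?_
    rw [hre, him]
    simp only [sgn]
    have h5 := abs_le.2 ⟨neg_le.1 h2, h1⟩
    have h6 := abs_le.2 ⟨neg_le.1 h4, h3⟩
    linarith
  have h7 := sup_le_grid N (fun k => ∑ m ∈ T, if (m + D).toNat = (k : ℕ) then (e m : ℂ) * d m else 0)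
    (3 * √(E * Λ)) (fun j => by rw [poly_form T D hD]; exact hgrid j) (cexp (v * I))
    (norm_exp_ofReal_mul_I v)
  rw [poly_form T D hD] at h7
  have h8 : ∑ m ∈ T, ((e m : ℂ) * d m) * cexp (v * I) ^ (m + D).toNat =
      cexp ((D * v : ℝ) * I) * ∑ m ∈ T, (e m : ℂ) * d m * cexp ((m * v : ℝ) * I) := by
    rw [Finset.mul_sum]
    refine Finset.sum_congr rfl fun m hm => ?_
    have h1 := abs_le.1 (hD m hm)
    have h2 : (((m + D).toNat : ℕ) : ℂ) = (m : ℂ) + D := by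
      have : (((m + D).toNat : ℕ) : ℤ) = m + D := by omega
      exact_mod_cast congrArg (fun x : ℤ => (x : ℂ)) this
    rw [← Complex.exp_nat_mul, h2, mul_left_comm (cexp _), ← Complex.exp_add]
    congr 2; push_cast; ring
  rw [h8, norm_mul, norm_exp_ofReal_mul_I, one_mul] at h7
  linarith

lemma exists_fill (a : ℂ) (ρ : ℝ) (h : ‖a‖ ≤ ρ) :
    ∃ d : ℂ, ‖d‖ ^ 2 = ρ ^ 2 - ‖a‖ ^ 2 ∧ ‖a + d‖ = ρ ∧ ‖a - d‖ = ρ := by
  have hρ : 0 ≤ ρ := (norm_nonneg _).trans h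
  have h1 : 0 ≤ ρ ^ 2 - ‖a‖ ^ 2 := by nlinarith [norm_nonneg a]
  set s : ℝ := √(ρ ^ 2 - ‖a‖ ^ 2) with hs
  have hs2 : s ^ 2 = ρ ^ 2 - ‖a‖ ^ 2 := Real.sq_sqrt h1
  have key : ∀ t : ℝ, t ^ 2 = s ^ 2 → ‖((‖a‖ : ℝ) : ℂ) + t * I‖ = ρ := by
    intro t ht
    rw [Complex.norm_add_mul_I, ht, hs2]
    have : ‖a‖ ^ 2 + (ρ ^ 2 - ‖a‖ ^ 2) = ρ ^ 2 := by ring
    rw [this, Real.sqrt_sq hρ]
  have ha := Complex.norm_mul_exp_arg_mul_I a
  refine ⟨s * I * cexp (arg a * I), ?_, ?_, ?_⟩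
  · rw [norm_mul, norm_mul, norm_exp_ofReal_mul_I, norm_I, Complex.norm_real, Real.norm_eq_abs,
      mul_one, mul_one, sq_abs, hs2]
  · have : a + s * I * cexp (arg a * I) = (((‖a‖ : ℝ) : ℂ) + s * I) * cexp (arg a * I) := by
      rw [add_mul, ha]
    rw [this, norm_mul, norm_exp_ofReal_mul_I, mul_one, key s rfl]
  · have : a - s * I * cexp (arg a * I) =
        (((‖a‖ : ℝ) : ℂ) + (-s : ℝ) * I) * cexp (arg a * I) := by
      rw [add_mul, ha]; push_cast; ring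
    rw [this, norm_mul, norm_exp_ofReal_mul_I, mul_one, key (-s) (by ring)]

/-- **Fill lemma.** -/
theorem fill_trig (T : Finset ℤ) (a : ℤ → ℂ) (ρ : ℤ → ℝ) (D : ℕ) (hD : ∀ m ∈ T, |m| ≤ D)
    (hρ : ∀ m ∈ T, ‖a m‖ ≤ ρ m) (E Λ : ℝ) (hE0 : 0 < E)
    (hE : ∑ m ∈ T, (ρ m ^ 2 - ‖a m‖ ^ 2) ≤ E) (hΛ : Real.log (400 * (D + 1)) ≤ Λ) :
    ∃ γ : ℤ → ℂ, (∀ m ∈ T, ‖γ m‖ = ρ m) ∧ ∀ v : ℝ,
      ‖∑ m ∈ T, γ m * cexp ((m * v : ℝ) * I) - ∑ m ∈ T, a m * cexp ((m * v : ℝ) * I)‖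
        ≤ 6 * √(E * Λ) := by
  have h1 : ∀ m, ∃ d : ℂ, m ∈ T →
      ‖d‖ ^ 2 = ρ m ^ 2 - ‖a m‖ ^ 2 ∧ ‖a m + d‖ = ρ m ∧ ‖a m - d‖ = ρ m := by
    intro m
    by_cases hm : m ∈ T
    · obtain ⟨d, hd⟩ := exists_fill (a m) (ρ m) (hρ m hm)
      exact ⟨d, fun _ => hd⟩
    · exact ⟨0, fun h => absurd h hm⟩
  choose d hd using h1
  obtain ⟨e, he, hsup⟩ := signs_trig T d D hD E Λ hE0
    (le_trans (le_of_eq (Finset.sum_congr rfl fun m hm => (hd m hm).1)) hE) hΛ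
  refine ⟨fun m => a m + e m * d m, fun m hm => ?_, fun v => ?_⟩
  · rcases he m with h | h
    · simp only [h]; simpa using (hd m hm).2.1
    · simp only [h]; simpa [sub_eq_add_neg] using (hd m hm).2.2
  · rw [← Finset.sum_sub_distrib]
    convert hsup v using 3 with m
    ring

end Crest.Agent.R75.TA
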