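import Crest.Agent.R75.APulse
import Crest.Agent.R75.ASign

/-! One coordinate of the torus lemma. -/

set_option autoImplicit false

namespace Crest.Agent.R75.TA

open Finset Complex Filter Topology
open scoped Real

lemma coord_core (ℓ R1 R2 : ℕ) (hℓ : 1 ≤ ℓ) (hR : R1 ≤ R2) (hR2 : 1 ≤ R2) (P : ℤ → Prop)
    [DecidablePred P] (σ J : ℤ → ℂ) (β g e C Λ : ℝ) (V : ℝ → ℂ)
    (he0 : 0 < e) (he : e ≤ 1 / 10) (hβ0 : 0 < β) (hβ1 : β ≤ 1) (hg : 0 < g) (hC : 0 ≤ C)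
    (hσ0 : ∀ m, ¬ P m → σ m = 0)
    (hσ : ∀ m, P m → β * (1 - e) ≤ ‖σ m‖ ∧ ‖σ m‖ ≤ β * (1 + e))
    (hJ1 : ∀ m, ‖J m‖ ≤ g * (1 + e))
    (hJ2 : ∀ m : ℤ, |m| ≤ ((ℓ * R1 : ℕ) : ℤ) → g * (1 - e) ≤ ‖J m‖)
    (hJ3 : ∀ m : ℤ, ((ℓ * R2 : ℕ) : ℤ) < |m| → ‖J m‖ ≤ C / (m : ℝ) ^ 2)
    (hN : ∀ R : ℕ, 2 * R * (1 - e) ≤
        ((Icc (-((ℓ * R : ℕ) : ℤ)) (ℓ * R : ℕ)).filter P).card * β ^ 2 ∧
      ((Icc (-((ℓ * R : ℕ) : ℤ)) (ℓ * R : ℕ)).filter P).card * β ^ 2 ≤ 2 * R + 1)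
    (h1 : g ^ 2 * (2 * R2 + 1) ≤ 1 + e) (h2 : 1 - e ≤ g ^ 2 * (2 * R1))
    (h3 : 1 ≤ g ^ 2 * (2 * R2))
    (hΛ : Real.log (400 * ((ℓ * R2 : ℕ) + 1)) ≤ Λ)
    (hV : ∀ v : ℝ, HasSum (fun m : ℤ => σ m * J m * cexp ((m * v : ℝ) * I)) (V v)) :
    ∃ (S : Finset ℤ) (γ : ℤ → ℂ), (∀ m ∈ S, P m) ∧ (∀ m ∈ S, ‖γ m‖ = β * g * (1 + e) ^ 2) ∧
      1 - e ≤ S.card * (β * g * (1 + e) ^ 2) ^ 2 ∧
      ∀ v : ℝ, ‖∑ m ∈ S, γ m * cexp ((m * v : ℝ) * I) - V v‖ ≤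
        4 * C / (ℓ * R2 : ℕ) + 6 * √(13 * e * Λ) := by
  set S := (Icc (-((ℓ * R2 : ℕ) : ℤ)) (ℓ * R2 : ℕ)).filter P with hS
  set S1 := (Icc (-((ℓ * R1 : ℕ) : ℤ)) (ℓ * R1 : ℕ)).filter P with hS1
  have hsub : S1 ⊆ S := by
    refine Finset.filter_subset_filter _ (Finset.Icc_subset_Icc ?_ ?_)
    · exact neg_le_neg (by exact_mod_cast Nat.mul_le_mul_left ℓ hR)
    · exact_mod_cast Nat.mul_le_mul_left ℓ hR
  have hP : ∀ m ∈ S, P m := fun m hm => (Finset.mem_filter.1 hm).2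
  have he1 : 0 ≤ 1 - e := by linarith
  obtain ⟨γ, hγ, hsup⟩ := fill_trig S (fun m => σ m * J m) (fun _ => β * g * (1 + e) ^ 2) (ℓ * R2)
    (fun m hm => abs_le.2 (Finset.mem_Icc.1 (Finset.mem_filter.1 hm).1)) (by
      intro m hm
      rw [norm_mul]
      calc ‖σ m‖ * ‖J m‖ ≤ (β * (1 + e)) * (g * (1 + e)) :=
            mul_le_mul (hσ m (hP m hm)).2 (hJ1 m) (norm_nonneg _) (by positivity)
        _ = _ := by ring) (13 * e) Λ (by positivity) (by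
      rw [Finset.sum_sub_distrib, Finset.sum_const, nsmul_eq_mul]
      have h4 : (S1.card : ℝ) * (β * g * (1 - e) ^ 2) ^ 2 ≤ ∑ m ∈ S, ‖σ m * J m‖ ^ 2 := by
        refine le_trans ?_ (Finset.sum_le_sum_of_subset_of_nonneg hsub fun _ _ _ => by positivity)
        rw [← nsmul_eq_mul, ← Finset.sum_const]
        refine Finset.sum_le_sum fun m hm => ?_
        have hm' := Finset.mem_filter.1 hm
        rw [norm_mul]
        refine pow_le_pow_left₀ (by positivity) ?_ 2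
        calc β * g * (1 - e) ^ 2 = (β * (1 - e)) * (g * (1 - e)) := by ring
          _ ≤ _ := mul_le_mul (hσ m hm'.2).1 (hJ2 m (abs_le.2 (Finset.mem_Icc.1 hm'.1)))
              (by positivity) (norm_nonneg _)
      have h5 : (S.card : ℝ) * (β * g * (1 + e) ^ 2) ^ 2 ≤ (1 + e) ^ 5 := by
        calc (S.card : ℝ) * (β * g * (1 + e) ^ 2) ^ 2
            = (S.card * β ^ 2) * g ^ 2 * (1 + e) ^ 4 := by ring
          _ ≤ (2 * R2 + 1) * g ^ 2 * (1 + e) ^ 4 := by gcongr; exact (hN R2).2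
          _ = g ^ 2 * (2 * R2 + 1) * (1 + e) ^ 4 := by ring
          _ ≤ (1 + e) * (1 + e) ^ 4 := by gcongr
          _ = _ := by ring
      have h6 : (1 - e) ^ 6 ≤ (S1.card : ℝ) * (β * g * (1 - e) ^ 2) ^ 2 := by
        calc (1 - e) ^ 6 = (1 - e) * (1 - e) ^ 5 := by ring
          _ ≤ g ^ 2 * (2 * R1) * (1 - e) ^ 5 := by gcongr
          _ = (2 * R1 * (1 - e)) * g ^ 2 * (1 - e) ^ 4 := by ring
          _ ≤ (S1.card * β ^ 2) * g ^ 2 * (1 - e) ^ 4 := by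
              have := (hN R1).1
              gcongr ?_ * g ^ 2 * (1 - e) ^ 4
          _ = _ := by ring
      have h7 : 1 - 6 * e ≤ (1 - e) ^ 6 := by
        have := one_add_mul_le_pow (a := -e) (by linarith) 6
        push_cast at this
        rw [sub_eq_add_neg 1 e]; linarith
      have h8 : (1 + e) ^ 5 ≤ 1 + 7 * e := by
        have a1 : e ^ 2 ≤ e / 10 := by nlinarith
        have a2 : e ^ 3 ≤ e / 100 := by nlinarith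
        have a3 : e ^ 4 ≤ e / 100 := by nlinarith
        have a4 : e ^ 5 ≤ e / 100 := by nlinarith
        nlinarith
      linarith) hΛ
  refine ⟨S, γ, hP, hγ, ?_, fun v => ?_⟩
  · calc 1 - e = 1 * (1 - e) * 1 := by ring
      _ ≤ g ^ 2 * (2 * R2) * (1 - e) * (1 + e) ^ 4 := by
          gcongr; exact one_le_pow₀ (by linarith)
      _ = (2 * R2 * (1 - e)) * g ^ 2 * (1 + e) ^ 4 := by ring
      _ ≤ (S.card * β ^ 2) * g ^ 2 * (1 + e) ^ 4 := by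
          have := (hN R2).1
          gcongr ?_ * g ^ 2 * (1 + e) ^ 4
      _ = _ := by ring
  · have h4 := tail_bound _ _ (hV v) (2 * C) (by positivity) (ℓ * R2)
      (Nat.mul_pos hℓ hR2) (fun m hm => by
        rw [norm_mul, norm_exp_ofReal_mul_I, mul_one, norm_mul, mul_div_assoc]
        refine mul_le_mul ?_ (hJ3 m hm) (norm_nonneg _) (by norm_num)
        by_cases hPm : P m
        · refine (hσ m hPm).2.trans ?_; nlinarith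
        · rw [hσ0 m hPm, norm_zero]; norm_num)
    have h5 : ∑ m ∈ Icc (-((ℓ * R2 : ℕ) : ℤ)) (ℓ * R2 : ℕ), σ m * J m * cexp ((m * v : ℝ) * I) =
        ∑ m ∈ S, σ m * J m * cexp ((m * v : ℝ) * I) := by
      rw [hS, Finset.sum_filter]
      refine Finset.sum_congr rfl fun m _ => ?_
      split_ifs with hPm
      · rfl
      · rw [hσ0 m hPm, zero_mul, zero_mul]
    rw [h5] at h4
    have h6 := norm_sub_le_norm_sub_add_norm_sub (∑ m ∈ S, γ m * cexp ((m * v : ℝ) * I))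
      (∑ m ∈ S, σ m * J m * cexp ((m * v : ℝ) * I)) (V v)
    have h7 := hsup v
    have h8 : 2 * (2 * C) / ((ℓ * R2 : ℕ) : ℝ) = 4 * C / (ℓ * R2 : ℕ) := by ring
    linarith

/-- numerical facts on the parameters -/
lemma param_facts (K ℓ l : ℝ) (hK : 1 ≤ K) (hℓ : 100 ≤ ℓ) (hKℓ : K ^ 2 ≤ ℓ) (hl : ℓ ^ 12 ≤ l) :
    K / (1 / ℓ) * l ^ (-2 / 3 : ℝ) ≤ √(2 * π / l) * (1 / √ℓ) ∧
      2 * (1 / ℓ) + 3 * (2 * π / l) ≤ 1 / √ℓ ∧ 1 / ℓ ≤ 1 / √ℓ * (1 / √ℓ) ∧ 1 / √ℓ ≤ 1 / 10 ∧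
      4 * (K * ℓ ^ 2 / ((1 / ℓ) ^ 6 * (2 * π) ^ 2)) / (l / (4 * π)) ≤ 1 / √ℓ := by
  have hπ := Real.pi_gt_three
  have hπ4 := Real.pi_lt_four
  have hℓ0 : 0 < ℓ := by linarith
  have hs0 : 0 < √ℓ := Real.sqrt_pos.2 hℓ0
  have hs2 : √ℓ * √ℓ = ℓ := Real.mul_self_sqrt hℓ0.le
  have hs10 : 10 ≤ √ℓ := by
    rw [show (10 : ℝ) = √(10 ^ 2) by rw [Real.sqrt_sq (by norm_num)]]
    exact Real.sqrt_le_sqrt (by linarith)
  have hKs : K ≤ √ℓ := Real.le_sqrt_of_sq_le hKℓ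
  have hl12 : 0 < ℓ ^ 12 := by positivity
  have hl0 : 0 < l := by linarith
  have hpow : ∀ k : ℕ, k ≤ 12 → ℓ ^ k ≤ l := fun k hk =>
    (pow_le_pow_right₀ (by linarith) hk).trans hl
  refine ⟨?_, ?_, ?_, ?_, ?_⟩
  · have h1 : l ^ (-2 / 3 : ℝ) = l ^ (-1 / 6 : ℝ) * (1 / √l) := by
      rw [Real.sqrt_eq_rpow, one_div, ← Real.rpow_neg hl0.le, ← Real.rpow_add hl0]; norm_num
    have h2 : l ^ (-1 / 6 : ℝ) ≤ 1 / ℓ ^ 2 := by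
      calc l ^ (-1 / 6 : ℝ) ≤ (ℓ ^ 12) ^ (-1 / 6 : ℝ) :=
            Real.rpow_le_rpow_of_nonpos hl12 hl (by norm_num)
        _ = 1 / ℓ ^ 2 := by
            rw [← Real.rpow_natCast, ← Real.rpow_mul hℓ0.le, one_div, ← Real.rpow_natCast,
              ← Real.rpow_neg hℓ0.le]; norm_num
    have h3 : 1 / √l ≤ √(2 * π / l) := by
      rw [Real.sqrt_div (by positivity)]
      gcongr
      exact Real.one_le_sqrt.2 (by linarith)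
    have h4 : K / (1 / ℓ) * (1 / ℓ ^ 2) ≤ 1 / √ℓ := by
      have : K / (1 / ℓ) * (1 / ℓ ^ 2) = K / ℓ := by field_simp
      rw [this, div_le_div_iff₀ hℓ0 hs0]
      nlinarith
    rw [h1]
    calc K / (1 / ℓ) * (l ^ (-1 / 6 : ℝ) * (1 / √l))
        ≤ K / (1 / ℓ) * (1 / ℓ ^ 2 * √(2 * π / l)) := by gcongr
      _ = √(2 * π / l) * (K / (1 / ℓ) * (1 / ℓ ^ 2)) := by ring
      _ ≤ _ := by gcongr
  · have h1 : 2 * π / l ≤ 1 / ℓ := by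
      rw [div_le_div_iff₀ hl0 hℓ0]
      have := hpow 2 (by norm_num)
      nlinarith
    have h2 : 5 * (1 / ℓ) ≤ 1 / √ℓ := by
      rw [mul_one_div, div_le_div_iff₀ hℓ0 hs0]; nlinarith
    linarith
  · rw [div_mul_div_comm, hs2, mul_one]
  · exact one_div_le_one_div_of_le (by norm_num) hs10
  · have h1 : 4 * (K * ℓ ^ 2 / ((1 / ℓ) ^ 6 * (2 * π) ^ 2)) / (l / (4 * π)) =
        4 * K * ℓ ^ 8 / (π * l) := by field_simp; ring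
    rw [h1, div_le_div_iff₀ (by positivity) hs0]
    have h2 := hpow 10 (by norm_num)
    have h3 : K * √ℓ ≤ ℓ := by nlinarith
    have h4 : 0 < ℓ ^ 9 := by positivity
    calc 4 * K * ℓ ^ 8 * √ℓ = 4 * ℓ ^ 8 * (K * √ℓ) := by ring
      _ ≤ 4 * ℓ ^ 8 * ℓ := by gcongr
      _ = 4 * ℓ ^ 9 := by ring
      _ ≤ ℓ * ℓ ^ 9 := by gcongr; linarith
      _ = ℓ ^ 10 := by ring
      _ ≤ _ := by nlinarith

lemma radii (ℓ l g : ℝ) (hℓ : 100 ≤ ℓ) (hl : 1 ≤ l) (hg2 : g ^ 2 = 2 * π / l) :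
    ∃ R1 R2 : ℕ, R1 ≤ R2 ∧ 1 ≤ R2 ∧ g ^ 2 * R1 ≤ 1 / 2 - 1 / ℓ ∧ 1 / 2 - 1 / ℓ ≤ g ^ 2 * (R1 + 1) ∧
      1 / 2 + 1 / ℓ ≤ g ^ 2 * R2 ∧ g ^ 2 * R2 ≤ 1 / 2 + 1 / ℓ + g ^ 2 ∧ l / (4 * π) ≤ R2 ∧
      (R2 : ℝ) ≤ 2 * l := by
  have hπ := Real.pi_gt_three
  have hℓ0 : 0 < ℓ := by linarith
  have hl0 : 0 < l := by linarith
  have hμ2 : 1 / ℓ ≤ 1 / 2 := one_div_le_one_div_of_le (by norm_num) (by linarith)
  have hg0 : 0 < g ^ 2 := by rw [hg2]; positivity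
  set R1 := ⌊l * (1 / 2 - 1 / ℓ) / (2 * π)⌋₊ with hR1
  set R2 := ⌈l * (1 / 2 + 1 / ℓ) / (2 * π)⌉₊ with hR2
  have hμ0 : 0 < 1 / (ℓ : ℝ) := by positivity
  have a1 : (R1 : ℝ) ≤ l * (1 / 2 - 1 / ℓ) / (2 * π) :=
    Nat.floor_le (by have : 0 ≤ 1 / 2 - 1 / (ℓ : ℝ) := by linarith
                     positivity)
  have a2 : l * (1 / 2 - 1 / ℓ) / (2 * π) < R1 + 1 := Nat.lt_floor_add_one _
  have a3 : l * (1 / 2 + 1 / ℓ) / (2 * π) ≤ R2 := Nat.le_ceil _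
  have a4 : (R2 : ℝ) < l * (1 / 2 + 1 / ℓ) / (2 * π) + 1 := Nat.ceil_lt_add_one (by positivity)
  clear_value R1 R2
  have b1 : g ^ 2 * R1 ≤ 1 / 2 - 1 / ℓ := by
    calc g ^ 2 * R1 ≤ g ^ 2 * (l * (1 / 2 - 1 / ℓ) / (2 * π)) := by gcongr
      _ = _ := by rw [hg2]; field_simp
  have b2 : 1 / 2 - 1 / ℓ ≤ g ^ 2 * (R1 + 1) := by
    calc _ = g ^ 2 * (l * (1 / 2 - 1 / ℓ) / (2 * π)) := by rw [hg2]; field_simp
      _ ≤ _ := by gcongr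
  have b3 : 1 / 2 + 1 / ℓ ≤ g ^ 2 * R2 := by
    calc _ = g ^ 2 * (l * (1 / 2 + 1 / ℓ) / (2 * π)) := by rw [hg2]; field_simp
      _ ≤ _ := by gcongr
  have b4 : g ^ 2 * R2 ≤ 1 / 2 + 1 / ℓ + g ^ 2 := by
    calc _ ≤ g ^ 2 * (l * (1 / 2 + 1 / ℓ) / (2 * π) + 1) := by gcongr
      _ = _ := by rw [hg2]; field_simp
  have hR12 : R1 ≤ R2 := by
    have : (R1 : ℝ) ≤ R2 := by
      refine le_of_mul_le_mul_left ?_ hg0; linarith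
    exact_mod_cast this
  have hR2l : l / (4 * π) ≤ R2 := by
    refine le_trans ?_ a3
    rw [div_le_div_iff₀ (by positivity) (by positivity)]
    have : 0 ≤ l * (1 / ℓ) * π := by positivity
    nlinarith
  have hR2' : 1 ≤ R2 := by
    have : (0 : ℝ) < R2 := lt_of_lt_of_le (by positivity) hR2l
    exact_mod_cast this
  refine ⟨R1, R2, hR12, hR2', b1, b2, b3, b4, hR2l, ?_⟩
  have : l * (1 / 2 + 1 / ℓ) / (2 * π) ≤ l := by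
    rw [div_le_iff₀ (by positivity)]; gcongr; linarith
  linarith

lemma count_facts (ℓ : ℕ) (hℓ : 1 ≤ ℓ) (p : Prop) [Decidable p] (β e : ℝ) (he0 : 0 ≤ e)
    (hℓe : 1 / (ℓ : ℝ) ≤ e) (hβ2 : β ^ 2 = (if p then (ℓ : ℝ) else 1) / ℓ) (R : ℕ) :
    2 * R * (1 - e) ≤ ((Icc (-((ℓ * R : ℕ) : ℤ)) (ℓ * R : ℕ)).filter
        fun m => ((ℓ : ℤ) ∣ m ↔ p)).card * β ^ 2 ∧
      ((Icc (-((ℓ * R : ℕ) : ℤ)) (ℓ * R : ℕ)).filter
        fun m => ((ℓ : ℤ) ∣ m ↔ p)).card * β ^ 2 ≤ 2 * R + 1 := by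
  have hR : (0 : ℝ) ≤ R := Nat.cast_nonneg R
  have hℓ0 : (0 : ℝ) < ℓ := by exact_mod_cast hℓ
  rw [hβ2]
  by_cases hp : p
  · simp only [hp, iff_true, if_true]
    rw [card_dvd ℓ R hℓ, div_self hℓ0.ne']
    push_cast; constructor <;> nlinarith
  · simp only [hp, iff_false, if_false]
    rw [card_not_dvd ℓ R hℓ]
    have : 2 * R * ((ℓ : ℝ) - 1) * (1 / ℓ) = 2 * R * (1 - 1 / ℓ) := by field_simp
    rw [this]
    constructor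
    · gcongr
    · have : 0 ≤ R * (1 / (ℓ : ℝ)) := by positivity
      nlinarith

lemma log_fact (ℓ n R2 : ℕ) (hℓ : 100 ≤ ℓ) (hn1 : 1 ≤ n) (hn : 1200 * n ≤ ℓ)
    (h2 : (R2 : ℝ) ≤ 2 * (n * (ℓ : ℝ) ^ 12)) :
    Real.log (400 * ((ℓ * R2 : ℕ) + 1)) ≤ 15 * Real.log ℓ := by
  have hℓ' : (100 : ℝ) ≤ ℓ := by exact_mod_cast hℓ
  have hn' : (1 : ℝ) ≤ n := by exact_mod_cast hn1
  have h1 : (400 : ℝ) * ((ℓ * R2 : ℕ) + 1) ≤ (ℓ : ℝ) ^ 15 := by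
    have h3 : (1200 * n : ℝ) ≤ ℓ := by exact_mod_cast hn
    have h4 : (1 : ℝ) ≤ ℓ * (n * (ℓ : ℝ) ^ 12) := one_le_mul_of_one_le_of_one_le (by linarith)
      (one_le_mul_of_one_le_of_one_le hn' (one_le_pow₀ (by linarith)))
    push_cast
    calc (400 : ℝ) * (ℓ * R2 + 1)
        ≤ 400 * (ℓ * (2 * (n * (ℓ : ℝ) ^ 12)) + ℓ * (n * (ℓ : ℝ) ^ 12)) := by gcongr
      _ = (1200 * n) * (ℓ : ℝ) ^ 13 := by ring
      _ ≤ ℓ * (ℓ : ℝ) ^ 13 := by gcongr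
      _ = (ℓ : ℝ) ^ 14 := by ring
      _ ≤ _ := pow_le_pow_right₀ (by linarith) (by norm_num)
  refine (Real.log_le_log (by positivity) h1).trans (le_of_eq ?_)
  rw [Real.log_pow]; norm_num

lemma err_facts (x e : ℝ) (hx : 100 ≤ x) (he : e = 1 / √x) (p4 : e ≤ 1 / 10) :
    e ≤ 100 * Real.log x / √√x ∧
      e + 6 * √(13 * e * (15 * Real.log x)) + e ≤ 100 * Real.log x / √√x := by
  have hx0 : 0 < x := by linarith
  have he0 : 0 < e := by rw [he]; have := Real.sqrt_pos.2 hx0; positivity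
  have hlog : 1 ≤ Real.log x := by
    rw [Real.le_log_iff_exp_le hx0]
    have := Real.exp_one_lt_d9; linarith
  have hse : √e = 1 / √√x := by rw [he, Real.sqrt_div zero_le_one, Real.sqrt_one]
  have hse0 : 0 < √e := Real.sqrt_pos.2 he0
  have hee : e ≤ √e := by
    rw [Real.le_sqrt he0.le he0.le]; nlinarith
  have herr : 100 * Real.log x / √√x = 100 * (Real.log x * √e) := by rw [hse]; ring
  have hel : √e ≤ Real.log x * √e := le_mul_of_one_le_left hse0.le hlog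
  have d3 : √(13 * e * (15 * Real.log x)) ≤ 14 * (Real.log x * √e) := by
    rw [Real.sqrt_le_left (by positivity), mul_pow, mul_pow, Real.sq_sqrt he0.le]
    have : Real.log x ≤ Real.log x ^ 2 := by nlinarith
    nlinarith
  rw [herr]
  constructor <;> linarith

theorem coord_lemma (n0 : ℕ) : ∀ᶠ ℓ : ℕ in atTop, ℓ.Prime → ∀ r : ℕ, r ∣ ℓ - 1 →
    ∃ (B : ℝ) (A h : ℝ → ℝ), 0 < B ∧ (∀ v, 0 ≤ A v ∧ A v ≤ 1) ∧ ∀ n : ℕ, 1 ≤ n → n ≤ n0 →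
      ∃ (S : Finset ℤ) (γ : ℤ → ℂ), (∀ m ∈ S, ((ℓ : ℤ) ∣ m ↔ r ∣ n)) ∧
        (∀ m ∈ S, ‖γ m‖ ^ 2 = B * (if r ∣ n then (ℓ : ℝ) else 1) / n) ∧
        1 - 100 * Real.log ℓ / √√ℓ ≤ S.card * (B * (if r ∣ n then (ℓ : ℝ) else 1) / n) ∧
        ∀ v : ℝ, ‖∑ m ∈ S, γ m * cexp ((m * v : ℝ) * I) - A v * cexp ((n * h v : ℝ) * I)‖ ≤
          100 * Real.log ℓ / √√ℓ := by
  obtain ⟨K, hK, H⟩ := exists_pulse
  filter_upwards [eventually_ge_atTop 100, eventually_ge_atTop (1200 * n0),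
    tendsto_natCast_atTop_atTop.eventually (eventually_ge_atTop (K ^ 2))] with ℓ hℓ hℓn hKℓ hp r hr
  have : Fact ℓ.Prime := ⟨hp⟩
  have hπ := Real.pi_pos
  have hℓ' : (100 : ℝ) ≤ ℓ := by exact_mod_cast hℓ
  have hℓ0 : (0 : ℝ) < ℓ := by linarith
  have hμ2 : 1 / (ℓ : ℝ) ≤ 1 / 2 := one_div_le_one_div_of_le (by norm_num) (by linarith)
  obtain ⟨w, w01, Hw⟩ := H (1 / ℓ) (by positivity) hμ2
  clear H
  obtain ⟨φ, hφ⟩ := exists_residue_seq ℓ r hr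
  obtain ⟨e, he⟩ : ∃ e : ℝ, e = 1 / √ℓ := ⟨_, rfl⟩
  have hs0 : 0 < √(ℓ : ℝ) := Real.sqrt_pos.2 hℓ0
  have he0 : 0 < e := by rw [he]; positivity
  obtain ⟨t, ht⟩ : ∃ t : ℝ → ℝ, ∀ v, t v = ℓ * v / (2 * π) - round (ℓ * v / (2 * π)) :=
    ⟨_, fun _ => rfl⟩
  refine ⟨2 * π / ((ℓ : ℝ) * ℓ ^ 12) * (1 + e) ^ 4, fun v => w (t v),
    fun v => φ (round (ℓ * v / (2 * π)) : ℤ) + (ℓ : ℝ) ^ 12 * t v ^ 2 / 2, by positivity,
    fun v => w01 _, fun n hn1 hn2 => ?_⟩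
  have hn' : (1 : ℝ) ≤ n := by exact_mod_cast hn1
  obtain ⟨l, hl⟩ : ∃ l : ℝ, l = n * (ℓ : ℝ) ^ 12 := ⟨_, rfl⟩
  have hl12 : (ℓ : ℝ) ^ 12 ≤ l := hl ▸ le_mul_of_one_le_left (by positivity) hn'
  have hl1 : 1 ≤ l := (one_le_pow₀ (by linarith)).trans hl12
  have hl0 : 0 < l := by linarith
  obtain ⟨J, hJ1, hJ2, hJ3, hV⟩ := Hw ℓ (by omega) l hl1
  clear Hw
  obtain ⟨s, hs, hs1, hs2⟩ := hφ n
  clear hφ
  obtain ⟨p1, p2, p3, p4, p5⟩ := param_facts K ℓ l hK hℓ' hKℓ hl12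
  obtain ⟨g, hg⟩ : ∃ g : ℝ, g = √(2 * π / l) := ⟨_, rfl⟩
  have hg0 : 0 < g := hg ▸ Real.sqrt_pos.2 (by positivity)
  have hg2 : g ^ 2 = 2 * π / l := hg ▸ Real.sq_sqrt (by positivity)
  rw [← he] at p1 p2 p3 p4 p5 hs2
  rw [← hg] at p1 hJ1 hJ2
  rw [← hg2] at p2
  simp only [← ht] at hV
  have hℓe : 1 / (ℓ : ℝ) ≤ e := by nlinarith
  obtain ⟨R1, R2, hR12, hR2', b1, b2, b3, b4, hR2l, hR2u⟩ := radii ℓ l g hℓ' hl1 hg2
  have habs : ∀ m : ℤ, |2 * π * m / (ℓ * l)| = g ^ 2 * (|(m : ℝ)| / ℓ) := by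
    intro m
    rw [abs_div, abs_mul, abs_of_pos (by positivity : 0 < 2 * π),
      abs_of_pos (by positivity : 0 < (ℓ : ℝ) * l), hg2]
    field_simp
  obtain ⟨β, hβ⟩ : ∃ β : ℝ, β = if r ∣ n then 1 else e := ⟨_, rfl⟩
  have hβ2 : β ^ 2 = (if r ∣ n then (ℓ : ℝ) else 1) / ℓ := by
    rw [hβ]; split_ifs
    · field_simp
    · rw [he, div_pow, Real.sq_sqrt hℓ0.le, one_pow]
  have q1 : 0 < β := by rw [hβ]; split_ifs <;> positivity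
  have q2 : β ≤ 1 := by rw [hβ]; split_ifs <;> linarith
  have q3 : ∀ m : ℤ, ¬ ((ℓ : ℤ) ∣ m ↔ r ∣ n) → dft ℓ s m = 0 := fun m hm => by
    by_cases hrn : r ∣ n
    · exact (hs1 hrn m).2 fun h => hm (iff_of_true h hrn)
    · exact (hs2 hrn m).1 (by by_contra h; exact hm (iff_of_false h hrn))
  have q4 : ∀ m : ℤ, ((ℓ : ℤ) ∣ m ↔ r ∣ n) →
      β * (1 - e) ≤ ‖dft ℓ s m‖ ∧ ‖dft ℓ s m‖ ≤ β * (1 + e) := fun m hm => by
    by_cases hrn : r ∣ n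
    · rw [(hs1 hrn m).1 (hm.2 hrn), hβ, if_pos hrn]; constructor <;> linarith
    · have := abs_le.1 ((hs2 hrn m).2 fun h => hrn (hm.1 h))
      rw [hβ, if_neg hrn, mul_sub, mul_add]; constructor <;> linarith
  have q5 : ∀ m, ‖J m‖ ≤ g * (1 + e) := fun m => by have := hJ1 m; linarith
  have q6 : ∀ m : ℤ, |m| ≤ ((ℓ * R1 : ℕ) : ℤ) → g * (1 - e) ≤ ‖J m‖ := fun m hm => by
    have h1 : |(m : ℝ)| ≤ ℓ * R1 := by exact_mod_cast hm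
    have h2 : |(m : ℝ)| / ℓ ≤ R1 := by rw [div_le_iff₀ hℓ0]; linarith
    have := hJ2 m (by
      rw [habs]
      exact le_trans (mul_le_mul_of_nonneg_left h2 (sq_nonneg g)) b1)
    linarith
  have q7 : ∀ m : ℤ, ((ℓ * R2 : ℕ) : ℤ) < |m| →
      ‖J m‖ ≤ K * ℓ ^ 2 / ((1 / ℓ) ^ 6 * (2 * π) ^ 2) / (m : ℝ) ^ 2 := fun m hm => hJ3 m (by
    have h1 : (ℓ : ℝ) * R2 ≤ |(m : ℝ)| := by exact_mod_cast hm.le
    have h2 : (R2 : ℝ) ≤ |(m : ℝ)| / ℓ := by rw [le_div_iff₀ hℓ0]; linarith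
    rw [habs]
    exact le_trans b3 (mul_le_mul_of_nonneg_left h2 (sq_nonneg g)))
  have q8 : g ^ 2 * (2 * R2 + 1) ≤ 1 + e := by linarith
  have q9 : 1 - e ≤ g ^ 2 * (2 * R1) := by have := sq_nonneg g; linarith
  have q10 : 1 ≤ g ^ 2 * (2 * R2) := by
    have : 0 < 1 / (ℓ : ℝ) := by positivity
    linarith
  have hK0 : 0 < K := by linarith
  obtain ⟨S, γ, c1, c2, c3, c4⟩ := coord_core ℓ R1 R2 (by omega) hR12 hR2'
    (fun m => ((ℓ : ℤ) ∣ m ↔ r ∣ n)) (dft ℓ s) J β g e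
    (K * ℓ ^ 2 / ((1 / ℓ) ^ 6 * (2 * π) ^ 2)) (15 * Real.log ℓ) _ he0 p4 q1 q2 hg0
    (by positivity) q3 q4 q5 q6 q7 (count_facts ℓ (by omega) _ β e he0.le hℓe hβ2) q8 q9 q10
    (log_fact ℓ n R2 hℓ hn1 (by omega) (hl ▸ hR2u)) (hV s)
  have hρ : (β * g * (1 + e) ^ 2) ^ 2 =
      2 * π / ((ℓ : ℝ) * ℓ ^ 12) * (1 + e) ^ 4 * (if r ∣ n then (ℓ : ℝ) else 1) / n := by
    rw [mul_pow, mul_pow, hβ2, hg2, hl]; field_simp
  obtain ⟨r1, r2⟩ := err_facts ℓ e hℓ' he p4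
  refine ⟨S, γ, c1, fun m hm => by rw [c2 m hm, hρ], ?_, fun v => ?_⟩
  · rw [← hρ]; linarith
  · have d1 := c4 v
    have d2 : 4 * (K * ℓ ^ 2 / ((1 / ℓ) ^ 6 * (2 * π) ^ 2)) / ((ℓ * R2 : ℕ) : ℝ) ≤ e := by
      refine le_trans (div_le_div_of_nonneg_left (by positivity) (by positivity) ?_) p5
      push_cast
      exact hR2l.trans (le_mul_of_one_le_left (by positivity) (by linarith))
    have d4 : ‖s (round (ℓ * v / (2 * π)) : ℤ) * (w (t v) * cexp ((l * t v ^ 2 / 2 : ℝ) * I)) -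
        w (t v) * cexp ((n * (φ (round (ℓ * v / (2 * π)) : ℤ) +
          (ℓ : ℝ) ^ 12 * t v ^ 2 / 2) : ℝ) * I)‖ ≤ e := by
      have : cexp ((n * (φ (round (ℓ * v / (2 * π)) : ℤ) + (ℓ : ℝ) ^ 12 * t v ^ 2 / 2) : ℝ) * I) =
          cexp ((n * φ (round (ℓ * v / (2 * π)) : ℤ) : ℝ) * I) *
            cexp ((l * t v ^ 2 / 2 : ℝ) * I) := by
        rw [← Complex.exp_add, hl]; congr 1; push_cast; ring
      rw [this, mul_left_comm (w (t v) : ℂ), ← sub_mul, norm_mul, norm_mul, norm_exp_ofReal_mul_I,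
        mul_one, Complex.norm_real, Real.norm_of_nonneg (w01 _).1]
      calc _ ≤ 1 / (ℓ : ℝ) * 1 :=
            mul_le_mul (hs _) (w01 _).2 (w01 _).1 (by positivity)
        _ ≤ e := by linarith
    have d5 := norm_sub_le_norm_sub_add_norm_sub (∑ m ∈ S, γ m * cexp ((m * v : ℝ) * I))
      (s (round (ℓ * v / (2 * π)) : ℤ) * (w (t v) * cexp ((l * t v ^ 2 / 2 : ℝ) * I)))
      (w (t v) * cexp ((n * (φ (round (ℓ * v / (2 * π)) : ℤ) +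
          (ℓ : ℝ) ^ 12 * t v ^ 2 / 2) : ℝ) * I))
    exact d5.trans ((add_le_add (d1.trans (add_le_add d2 le_rfl)) d4).trans r2)

end Crest.Agent.R75.TA
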