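import Mathlib

/-! Power residue sequences modulo a prime: unimodular sequences all of whose powers have a flat
discrete Fourier transform (Gauss sums). -/

set_option autoImplicit false

namespace Crest.Agent.R75.TA

open Finset Complex
open scoped Real

/-- normalised discrete Fourier transform at an integer frequency -/
noncomputable def dft (ℓ : ℕ) [NeZero ℓ] (s : ZMod ℓ → ℂ) (m : ℤ) : ℂ :=
  (1 / ℓ : ℂ) * ∑ j : ZMod ℓ, s j * ZMod.stdAddChar (j * (-(m : ZMod ℓ)))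

lemma norm_gauss (ℓ : ℕ) [Fact ℓ.Prime] (χ : MulChar (ZMod ℓ) ℂ) (hχ : χ ≠ 1) (b : ZMod ℓ)
    (hb : b ≠ 0) : ‖∑ j : ZMod ℓ, χ j * ZMod.stdAddChar (j * b)‖ = √ℓ := by
  have h1 : ∑ j : ZMod ℓ, χ j * ZMod.stdAddChar (j * b) =
      gaussSum χ (AddChar.mulShift ZMod.stdAddChar b) := by
    simp only [gaussSum, AddChar.mulShift_apply, mul_comm b]
  have h2 : (AddChar.mulShift (ZMod.stdAddChar (N := ℓ)) b).IsPrimitive :=
    AddChar.IsPrimitive.of_ne_one (ZMod.isPrimitive_stdAddChar ℓ hb)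
  have h3 := gaussSum_mul_gaussSum_eq_card hχ h2
  rw [← star_gaussSum_eq, ZMod.card] at h3
  rw [h1]
  have h4 := congrArg norm h3
  rw [norm_mul, norm_star, Complex.norm_natCast] at h4
  rw [← h4, Real.sqrt_mul_self (norm_nonneg _)]

lemma sum_char (ℓ : ℕ) [Fact ℓ.Prime] (m : ℤ) :
    ∑ j : ZMod ℓ, ZMod.stdAddChar (j * (-(m : ZMod ℓ))) = if (ℓ : ℤ) ∣ m then (ℓ : ℂ) else 0 := by
  rw [AddChar.sum_mulShift _ (ZMod.isPrimitive_stdAddChar ℓ), ZMod.card]
  simp only [neg_eq_zero, ZMod.intCast_zmod_eq_zero_iff_dvd]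
  split_ifs <;> simp

theorem exists_residue_seq (ℓ : ℕ) [Fact ℓ.Prime] (r : ℕ) (hr : r ∣ ℓ - 1) :
    ∃ φ : ZMod ℓ → ℝ, ∀ n : ℕ, ∃ s : ZMod ℓ → ℂ,
      (∀ j, ‖s j - cexp ((n * φ j : ℝ) * I)‖ ≤ 1 / ℓ) ∧
      (r ∣ n → ∀ m : ℤ, ((ℓ : ℤ) ∣ m → ‖dft ℓ s m‖ = 1) ∧ (¬ (ℓ : ℤ) ∣ m → dft ℓ s m = 0)) ∧
      (¬ r ∣ n → ∀ m : ℤ, ((ℓ : ℤ) ∣ m → dft ℓ s m = 0) ∧
        (¬ (ℓ : ℤ) ∣ m → |‖dft ℓ s m‖ - 1 / √ℓ| ≤ 1 / ℓ)) := by
  have hp : ℓ.Prime := Fact.out
  have hℓ : (0 : ℝ) < ℓ := by exact_mod_cast hp.pos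
  have hℓ' : (ℓ : ℂ) ≠ 0 := by exact_mod_cast hp.ne_zero
  have hr0 : r ≠ 0 := by
    rintro rfl
    have := hp.two_le
    rw [zero_dvd_iff] at hr; omega
  obtain ⟨ψ, hψ⟩ := MulChar.exists_mulChar_orderOf (ZMod ℓ) (n := r) (by rwa [ZMod.card])
    (Complex.isPrimitiveRoot_exp r hr0)
  let u : ZMod ℓ → ℂ := fun j => if j = 0 then 1 else ψ j
  have hu : ∀ j, ‖u j‖ = 1 := by
    intro j
    simp only [u]
    split_ifs with h
    · exact norm_one
    · exact DirichletCharacter.unit_norm_eq_one ψ (Units.mk0 j h)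
  have hφ : ∀ (n : ℕ) j, cexp ((n * arg (u j) : ℝ) * I) = u j ^ n := by
    intro n j
    have h1 := Complex.norm_mul_exp_arg_mul_I (u j)
    rw [hu j, ofReal_one, one_mul] at h1
    rw [← h1, ← Complex.exp_nat_mul, h1]
    congr 1; push_cast; ring
  refine ⟨fun j => arg (u j), fun n => ?_⟩
  by_cases hn : r ∣ n
  · refine ⟨fun _ => 1, fun j => ?_, fun _ m => ⟨fun hm => ?_, fun hm => ?_⟩, fun h => absurd hn h⟩
    · rw [hφ]
      have : u j ^ n = 1 := by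
        simp only [u]
        split_ifs with h
        · exact one_pow _
        · have h1 : ψ ^ n = 1 := orderOf_dvd_iff_pow_eq_one.1 (hψ ▸ hn)
          have h2 := MulChar.pow_apply_coe ψ n (Units.mk0 j h)
          rw [h1, MulChar.one_apply_coe] at h2
          exact h2.symm
      rw [this, sub_self, norm_zero]; positivity
    · simp only [dft, one_mul, sum_char, if_pos hm]
      rw [one_div, inv_mul_cancel₀ hℓ', norm_one]
    · simp only [dft, one_mul, sum_char, if_neg hm, mul_zero]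
  · have hn0 : n ≠ 0 := by rintro rfl; exact hn (dvd_zero r)
    have hχ : ψ ^ n ≠ 1 := fun h => hn (hψ ▸ orderOf_dvd_iff_pow_eq_one.2 h)
    have hun : ∀ j, u j ^ n = (ψ ^ n) j + if j = 0 then 1 else 0 := by
      intro j
      simp only [u]
      split_ifs with h
      · rw [h, MulChar.map_zero]; simp
      · rw [MulChar.pow_apply' ψ hn0, add_zero]
    have hsum : ∀ m : ℤ, ∑ j : ZMod ℓ, (u j ^ n - 1 / ℓ) * ZMod.stdAddChar (j * (-(m : ZMod ℓ))) =
        ∑ j : ZMod ℓ, (ψ ^ n) j * ZMod.stdAddChar (j * (-(m : ZMod ℓ))) + 1 -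
          (1 / ℓ : ℂ) * if (ℓ : ℤ) ∣ m then (ℓ : ℂ) else 0 := by
      intro m
      simp_rw [hun, sub_mul, add_mul]
      rw [Finset.sum_sub_distrib, Finset.sum_add_distrib, ← Finset.mul_sum, sum_char]
      congr 2
      rw [Finset.sum_eq_single 0]
      · simp
      · intro b _ hb; simp [hb]
      · simp
    refine ⟨fun j => u j ^ n - 1 / ℓ, fun j => ?_, fun h => absurd h hn,
      fun _ m => ⟨fun hm => ?_, fun hm => ?_⟩⟩
    · rw [hφ]; simp
    · rw [dft, hsum, if_pos hm]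
      have h0 : (m : ZMod ℓ) = 0 := (ZMod.intCast_zmod_eq_zero_iff_dvd m ℓ).2 hm
      simp only [h0, neg_zero, mul_zero, AddChar.map_zero_eq_one, mul_one,
        MulChar.sum_eq_zero_of_ne_one hχ]
      field_simp; simp
    · rw [dft, hsum, if_neg hm, mul_zero, sub_zero]
      have h0 : -(m : ZMod ℓ) ≠ 0 :=
        neg_ne_zero.2 fun h => hm ((ZMod.intCast_zmod_eq_zero_iff_dvd m ℓ).1 h)
      have h1 := norm_gauss ℓ (ψ ^ n) hχ _ h0
      set G := ∑ j : ZMod ℓ, (ψ ^ n) j * ZMod.stdAddChar (j * (-(m : ZMod ℓ))) with hG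
      have h2 : |‖G + 1‖ - ‖G‖| ≤ 1 := by
        have := abs_norm_sub_norm_le (G + 1) G
        simpa using this
      rw [norm_mul, norm_div, norm_one, Complex.norm_natCast]
      have h3 : 1 / √(ℓ : ℝ) = 1 / ℓ * ‖G‖ := by
        rw [h1]
        have h4 := Real.mul_self_sqrt hℓ.le
        have h5 : 0 < √(ℓ : ℝ) := Real.sqrt_pos.2 hℓ
        field_simp
        nlinarith
      rw [h3, ← mul_sub, abs_mul, abs_of_pos (by positivity)]
      exact mul_le_of_le_one_right (by positivity) h2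

end Crest.Agent.R75.TA
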