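import Crest.Agent.R75.Profile1

/-!
# Row 75: the phase profile of one tile

The tile is parametrised by `v ∈ [0,1]`.  The "time" `τ̃ v` rises quickly from `0` to `T` on `[0,κ]`,
moves slowly through (part of) `[T, T+lam]` on `[κ, 1-κ]` and falls back quickly to `0` on `[1-κ, 1]`.
The phase is `Y ∫_0^v τ̃` plus a bounded correction that is linear on the two fast pieces.
-/

set_option autoImplicit false

open Set

namespace Crest.Agent.R75

namespace Prof

/-- clamp to `[a,b]` -/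
noncomputable def cl (a b x : ℝ) : ℝ := max a (min b x)

lemma cl_mem {a b : ℝ} (hab : a ≤ b) (x : ℝ) : cl a b x ∈ Icc a b :=
  ⟨le_max_left _ _, max_le hab (min_le_left _ _)⟩

lemma cl_of_le {a b x : ℝ} (hx : x ≤ a) : cl a b x = a :=
  max_eq_left ((min_le_right _ _).trans hx)

lemma cl_of_ge {a b x : ℝ} (hab : a ≤ b) (hx : b ≤ x) : cl a b x = b := by
  unfold cl; rw [min_eq_left hx, max_eq_right hab]

lemma cl_of_mem {a b x : ℝ} (h1 : a ≤ x) (h2 : x ≤ b) : cl a b x = x := by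
  unfold cl; rw [min_eq_right h2, max_eq_right h1]

lemma abs_cl_sub_le (a b x y : ℝ) : |cl a b x - cl a b y| ≤ |x - y| := by
  unfold cl
  refine (abs_max_sub_max_le_max _ _ _ _).trans ?_
  rw [sub_self, abs_zero, max_eq_right (abs_nonneg _)]
  refine (abs_min_sub_min_le_max _ _ _ _).trans ?_
  rw [sub_self, abs_zero, max_eq_right (abs_nonneg _)]

@[fun_prop] lemma continuous_cl (a b : ℝ) : Continuous (cl a b) := by
  unfold cl; fun_prop

lemma taylor_lip {f : ℝ → ℝ} (hf : Continuous f) {L : ℝ} (hL0 : 0 ≤ L)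
    (hL : ∀ x y, |f x - f y| ≤ L * |x - y|) (v y : ℝ) :
    |(∫ x in (0 : ℝ)..(v + y), f x) - (∫ x in (0 : ℝ)..v, f x) - f v * y| ≤ L * y ^ 2 := by
  rw [intervalIntegral.integral_interval_sub_left (hf.intervalIntegrable _ _)
    (hf.intervalIntegrable _ _)]
  have h1 : (∫ x in v..(v + y), f x) - f v * y = ∫ x in v..(v + y), (f x - f v) := by
    rw [intervalIntegral.integral_sub (hf.intervalIntegrable _ _) (by simp)]
    simp [mul_comm]
  rw [h1]
  have h2 := intervalIntegral.norm_integral_le_of_norm_le_const (a := v) (b := v + y)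
    (C := L * |y|) (f := fun x => f x - f v) (fun x hx => by
      refine (hL x v).trans (mul_le_mul_of_nonneg_left ?_ hL0)
      have := abs_sub_left_of_mem_uIcc (uIoc_subset_uIcc hx)
      simpa using this)
  rw [Real.norm_eq_abs, add_sub_cancel_left, mul_assoc, abs_mul_abs_self] at h2
  rwa [sq]

/-- on a piece where the continuous function `f` agrees with a continuous `h`, the phase agrees with
a globally differentiable function -/
lemma piece {f h : ℝ → ℝ} (hf : Continuous f) (hh : Continuous h) {a b : ℝ}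
    (hfh : ∀ x ∈ Icc a b, f x = h x) (Y β₀ c : ℝ) :
    ∃ g : ℝ → ℝ, (∀ x, HasDerivAt g (Y * h x + c) x) ∧
      ∀ x ∈ Icc a b, g x = Y * (∫ t in (0 : ℝ)..x, f t) + β₀ + c * x := by
  refine ⟨fun x => Y * ((∫ t in (0 : ℝ)..a, f t) + ∫ t in a..x, h t) + β₀ + c * x, fun x => ?_,
    fun x hx => ?_⟩
  · have h1 := ((hh.integral_hasStrictDerivAt a x).hasDerivAt.const_add
      (∫ t in (0 : ℝ)..a, f t)).const_mul Y
    have h2 : HasDerivAt (fun x => c * x) c x := by simpa using (hasDerivAt_id x).const_mul c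
    exact (h1.add_const β₀).add h2
  · have h1 : ∫ t in a..x, h t = ∫ t in a..x, f t := by
      refine intervalIntegral.integral_congr fun t ht => ?_
      rw [uIcc_of_le hx.1] at ht
      exact (hfh t ⟨ht.1, ht.2.trans hx.2⟩).symm
    dsimp only
    rw [h1, intervalIntegral.integral_add_adjacent_intervals (hf.intervalIntegrable _ _)
      (hf.intervalIntegrable _ _)]

lemma exists_phase (Γ u : ℂ) (hu : ‖u‖ = 1) :
    ∃ β : ℝ, |β| ≤ 1 / 2 ∧ Γ * e β = (‖Γ‖ : ℂ) * u := by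
  by_cases h : Γ = 0
  · exact ⟨0, by norm_num, by simp [h]⟩
  · have h1 : ‖Γ‖ ≠ 0 := norm_ne_zero_iff.mpr h
    obtain ⟨β, h2, h3⟩ := exists_e_eq (u := (‖Γ‖ : ℂ) * u / Γ) (by
      rw [norm_div, norm_mul, hu]; simp [h1])
    exact ⟨β, h2, by rw [h3]; field_simp⟩

/-- the time function -/
noncomputable def tim (T lam κ : ℝ) (σ : ℝ → ℝ) (v : ℝ) : ℝ :=
  T / κ * cl 0 κ v + lam * σ (cl κ (1 - κ) v) -
    (T + lam * σ (1 - κ)) / κ * (cl (1 - κ) 1 v - (1 - κ))

/-- the phase correction -/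
noncomputable def cor (κ β₁ β₂ v : ℝ) : ℝ :=
  β₁ / κ * cl 0 κ v + β₂ / κ * (cl (1 - κ) 1 v - (1 - κ))

section
variable {T lam κ β₁ β₂ : ℝ} {σ : ℝ → ℝ}

lemma tim_one (hκ1 : κ ≤ 1 / 4) (hσ : σ κ = 0) {v : ℝ} (hv : v ≤ κ) :
    tim T lam κ σ v = T / κ * cl 0 κ v := by
  unfold tim
  rw [cl_of_le hv, hσ, cl_of_le (show v ≤ 1 - κ by linarith)]
  ring

lemma tim_two (hκ : 0 < κ) {v : ℝ} (hv : κ ≤ v) (hv' : v ≤ 1 - κ) :
    tim T lam κ σ v = T + lam * σ v := by
  unfold tim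
  rw [cl_of_ge hκ.le hv, cl_of_mem hv hv', cl_of_le hv']
  field_simp
  ring

lemma tim_three (hκ : 0 < κ) (hκ1 : κ ≤ 1 / 4) {v : ℝ} (hv : 1 - κ ≤ v) :
    tim T lam κ σ v = (T + lam * σ (1 - κ)) / κ * (1 - cl (1 - κ) 1 v) := by
  unfold tim
  rw [cl_of_ge hκ.le (show κ ≤ v by linarith), cl_of_ge (by linarith) hv]
  field_simp
  ring

lemma cor_one (hκ1 : κ ≤ 1 / 4) {v : ℝ} (hv : v ≤ κ) :
    cor κ β₁ β₂ v = β₁ / κ * cl 0 κ v := by
  unfold cor
  rw [cl_of_le (show v ≤ 1 - κ by linarith)]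
  ring

lemma cor_two (hκ : 0 < κ) {v : ℝ} (hv : κ ≤ v) (hv' : v ≤ 1 - κ) :
    cor κ β₁ β₂ v = β₁ := by
  unfold cor
  rw [cl_of_ge hκ.le hv, cl_of_le hv']
  field_simp
  ring

lemma cor_three (hκ : 0 < κ) (hκ1 : κ ≤ 1 / 4) {v : ℝ} (hv : 1 - κ ≤ v) :
    cor κ β₁ β₂ v = β₁ + β₂ / κ * (cl (1 - κ) 1 v - (1 - κ)) := by
  unfold cor
  rw [cl_of_ge hκ.le (show κ ≤ v by linarith)]
  field_simp

lemma cor_lip (hκ : 0 < κ) (h1 : |β₁| ≤ 1) (h2 : |β₂| ≤ 1) (x y : ℝ) :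
    |cor κ β₁ β₂ x - cor κ β₁ β₂ y| ≤ 2 / κ * |x - y| := by
  have h : cor κ β₁ β₂ x - cor κ β₁ β₂ y =
      β₁ / κ * (cl 0 κ x - cl 0 κ y) + β₂ / κ * (cl (1 - κ) 1 x - cl (1 - κ) 1 y) := by
    unfold cor; ring
  rw [h]
  refine (abs_add_le _ _).trans ?_
  rw [abs_mul, abs_mul, abs_div, abs_div, abs_of_pos hκ]
  have h3 := abs_cl_sub_le 0 κ x y
  have h4 := abs_cl_sub_le (1 - κ) 1 x y
  calc _ ≤ 1 / κ * |x - y| + 1 / κ * |x - y| := by gcongr
    _ = _ := by ring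

lemma tim_lip (hκ : 0 < κ) (hκ1 : κ ≤ 1 / 4) (hT : 0 < T) (hl : 0 < lam) {M : ℝ}
    (hσ1 : 0 ≤ σ (1 - κ))
    (hM : ∀ x ∈ Icc κ (1 - κ), ∀ y ∈ Icc κ (1 - κ), |σ x - σ y| ≤ M * |x - y|) (hM0 : 0 ≤ M)
    (x y : ℝ) :
    |tim T lam κ σ x - tim T lam κ σ y| ≤
      (T / κ + lam * M + (T + lam * σ (1 - κ)) / κ) * |x - y| := by
  have h : tim T lam κ σ x - tim T lam κ σ y =
      T / κ * (cl 0 κ x - cl 0 κ y) + lam * (σ (cl κ (1 - κ) x) - σ (cl κ (1 - κ) y)) -
        (T + lam * σ (1 - κ)) / κ * (cl (1 - κ) 1 x - cl (1 - κ) 1 y) := by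
    unfold tim; ring
  rw [h]
  refine (abs_sub _ _).trans ?_
  refine (add_le_add_left (abs_add_le _ _) _).trans ?_
  rw [abs_mul, abs_mul, abs_mul, abs_of_pos hl, abs_of_pos (by positivity : 0 < T / κ),
    abs_of_pos (by positivity : 0 < (T + lam * σ (1 - κ)) / κ)]
  have h3 := abs_cl_sub_le 0 κ x y
  have h4 := abs_cl_sub_le (1 - κ) 1 x y
  have h5 := (hM _ (cl_mem (by linarith) x) _ (cl_mem (by linarith) y)).trans
    (mul_le_mul_of_nonneg_left (abs_cl_sub_le κ (1 - κ) x y) hM0)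
  calc _ ≤ T / κ * |x - y| + lam * (M * |x - y|) + (T + lam * σ (1 - κ)) / κ * |x - y| := by
        gcongr
    _ = _ := by ring

end

end Prof

open Prof in
theorem profile (T lam ε η : ℝ) (hT : 0 < T) (hl : 0 < lam) (hε : 0 < ε) (hη : 0 < η) :
    ∃ (C Y₀ : ℝ) (ρ γ : ℝ → ℝ), 0 ≤ C ∧ (∀ τ, 0 ≤ ρ τ ∧ ρ τ ≤ 1 + ε) ∧
      (∀ τ, ρ τ ≠ 0 → T < τ ∧ τ < T + lam) ∧
      ∀ Y ≥ Y₀, ∀ u : ℂ, ‖u‖ = 1 → ∃ Φ : ℝ → ℝ, Continuous Φ ∧
        (∀ v, v ≤ 0 ∨ 1 ≤ v → e (Φ v) = 1) ∧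
        (∀ v, ∃ τ, 0 ≤ τ ∧ τ ≤ T + lam ∧
          ∀ y, |Φ (v + y) - Φ v - Y * τ * y| ≤ C * (Y * y ^ 2 + |y|)) ∧
        ∀ τ, ‖((Real.sqrt Y : ℝ) : ℂ) * (∫ v in (0 : ℝ)..1, e (Φ v - Y * τ * v)) -
          ((ρ τ / Real.sqrt lam : ℝ) : ℂ) * u * e (Y * γ τ)‖ ≤ η := by
  set κ : ℝ := min (1 / 4) (T * (η / 4) ^ 2 / 16) with hκdef
  have hκ : 0 < κ := by positivity
  have hκ1 : κ ≤ 1 / 4 := min_le_left _ _
  have hκ2 : 16 / (η / 4) ^ 2 ≤ T / κ := by
    have : κ ≤ T * (η / 4) ^ 2 / 16 := min_le_right _ _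
    rw [div_le_div_iff₀ (by positivity) hκ]
    linarith
  obtain ⟨σ, σ', M, s₀, Γ, ρ, u₀, hσ, hσc, hσa, hσb, hσ0, hσM, hρ, hρT, hu₀, hs₀, hmid⟩ :=
    middle T lam ε (η / 2) κ (1 - κ) hl hε (by positivity) (by linarith) (by linarith)
  have hσcont : Continuous σ := continuous_iff_continuousAt.mpr fun x => (hσ x).continuousAt
  have hmono : ∀ {x y : ℝ}, x ≤ y → σ x ≤ σ y := fun hxy => by
    have := sub_le_of_deriv_ge hσ hσ0 hxy; linarith
  have hσ1 : 0 ≤ σ (1 - κ) := by rw [← hσa]; exact hmono (by linarith)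
  have hM0 : 0 ≤ M := (hσ0 κ).trans (hσM κ ⟨le_rfl, by linarith⟩)
  have hσL : ∀ x ∈ Icc κ (1 - κ), ∀ y ∈ Icc κ (1 - κ), |σ x - σ y| ≤ M * |x - y| := by
    intro x hx y hy
    have := (convex_Icc κ (1 - κ)).norm_image_sub_le_of_norm_hasDerivWithin_le (f := σ) (f' := σ')
      (C := M) (fun z _ => (hσ z).hasDerivWithinAt)
      (fun z hz => by rw [Real.norm_eq_abs, abs_of_nonneg (hσ0 z)]; exact hσM z hz) hy hx
    simpa using this
  set T₁ : ℝ := T + lam * σ (1 - κ) with hT₁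
  have hT₁T : T ≤ T₁ := by rw [hT₁]; nlinarith
  have hT₁l : T₁ ≤ T + lam := by rw [hT₁]; nlinarith
  set f : ℝ → ℝ := tim T lam κ σ with hf
  have hfc : Continuous f := by rw [hf]; unfold tim; fun_prop
  set L : ℝ := T / κ + lam * M + T₁ / κ with hL
  have hL0 : 0 ≤ L := by
    have : 0 ≤ T₁ := by linarith
    positivity
  have hfL : ∀ x y, |f x - f y| ≤ L * |x - y| := tim_lip hκ hκ1 hT hl hσ1 hσL hM0
  set Θ : ℝ → ℝ := fun v => ∫ t in (0 : ℝ)..v, f t with hΘ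
  have hΘc : Continuous Θ := continuous_iff_continuousAt.mpr fun x =>
    (hfc.integral_hasStrictDerivAt 0 x).hasDerivAt.continuousAt
  refine ⟨L + 2 / κ, s₀ ^ 2, fun τ => ‖Γ‖ * ρ τ, fun τ => Θ (u₀ τ) - τ * u₀ τ, by positivity,
    fun τ => ⟨mul_nonneg (norm_nonneg _) (hρ τ).1, (hρ τ).2⟩,
    fun τ h => hρT τ (right_ne_zero_of_mul h), fun Y hY u hu => ?_⟩
  have hY0 : 0 < Y := lt_of_lt_of_le (by positivity) hY
  set s : ℝ := Real.sqrt Y with hs
  have hss : s ^ 2 = Y := Real.sq_sqrt hY0.le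
  have hs0 : 0 < s := Real.sqrt_pos.mpr hY0
  have hs1 : s₀ ≤ s := Real.le_sqrt_of_sq_le hY
  obtain ⟨β₁, hβ₁, hβ₁'⟩ := exists_phase Γ u hu
  set β₂ : ℝ := -Int.fract (Y * Θ 1 + β₁) with hβ₂
  have hβ₂1 : |β₂| ≤ 1 := by
    rw [hβ₂, abs_neg, abs_of_nonneg (Int.fract_nonneg _)]; exact (Int.fract_lt_one _).le
  refine ⟨fun v => Y * Θ v + cor κ β₁ β₂ v, by unfold cor; fun_prop, ?_, ?_, ?_⟩
  · rintro v (hv | hv)
    · have h1 : Θ v = 0 := by
        rw [hΘ]; dsimp only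
        rw [intervalIntegral.integral_congr (g := fun _ => (0 : ℝ))]
        · simp
        · intro t ht
          rw [uIcc_of_ge hv] at ht
          rw [hf, tim_one hκ1 hσa (by linarith [ht.2]), cl_of_le ht.2, mul_zero]
      dsimp only
      rw [h1, cor_one hκ1 (by linarith), cl_of_le hv]; simp
    · have h1 : Θ v = Θ 1 := by
        rw [hΘ]; dsimp only
        rw [← intervalIntegral.integral_add_adjacent_intervals (hfc.intervalIntegrable 0 1)
          (hfc.intervalIntegrable 1 v), intervalIntegral.integral_congr (a := 1) (b := v)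
          (g := fun _ => (0 : ℝ))]
        · simp
        · intro t ht
          rw [uIcc_of_le hv] at ht
          rw [hf, tim_three hκ hκ1 (by linarith [ht.1]), cl_of_ge (by linarith) ht.1]; simp
      dsimp only
      rw [h1, cor_three hκ hκ1 (by linarith), cl_of_ge (by linarith) hv, e_eq_one_iff]
      refine ⟨⌊Y * Θ 1 + β₁⌋, ?_⟩
      rw [show β₂ / κ * (1 - (1 - κ)) = β₂ by field_simp; ring, hβ₂, Int.fract]
      ring
  · intro v
    refine ⟨f v, ?_, ?_, fun y => ?_⟩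
    · rcases le_total v κ with h | h
      · rw [hf, tim_one hκ1 hσa h]
        exact mul_nonneg (by positivity) (cl_mem hκ.le v).1
      rcases le_total v (1 - κ) with h' | h'
      · rw [hf, tim_two hκ h h']
        have : 0 ≤ σ v := by rw [← hσa]; exact hmono h
        positivity
      · rw [hf, tim_three hκ hκ1 h']
        refine mul_nonneg (div_nonneg (by linarith) hκ.le) ?_
        linarith [(cl_mem (show 1 - κ ≤ 1 by linarith) v).2]
    · rcases le_total v κ with h | h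
      · rw [hf, tim_one hκ1 hσa h]
        calc T / κ * cl 0 κ v ≤ T / κ * κ :=
              mul_le_mul_of_nonneg_left (cl_mem hκ.le v).2 (by positivity)
          _ = T := by field_simp
          _ ≤ T + lam := by linarith
      rcases le_total v (1 - κ) with h' | h'
      · rw [hf, tim_two hκ h h']
        have : σ v ≤ 1 := (hmono h').trans hσb
        nlinarith
      · rw [hf, tim_three hκ hκ1 h', ← hT₁]
        calc T₁ / κ * (1 - cl (1 - κ) 1 v) ≤ T₁ / κ * κ := by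
              refine mul_le_mul_of_nonneg_left ?_ (div_nonneg (by linarith) hκ.le)
              linarith [(cl_mem (show 1 - κ ≤ 1 by linarith) v).1]
          _ = T₁ := by field_simp
          _ ≤ T + lam := hT₁l
    · have h1 := taylor_lip hfc hL0 hfL v y
      have h2 := cor_lip (β₁ := β₁) (β₂ := β₂) hκ (by linarith) hβ₂1 (v + y) v
      rw [add_sub_cancel_left] at h2
      have h3 : Y * Θ (v + y) + cor κ β₁ β₂ (v + y) - (Y * Θ v + cor κ β₁ β₂ v) - Y * f v * y =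
          Y * (Θ (v + y) - Θ v - f v * y) + (cor κ β₁ β₂ (v + y) - cor κ β₁ β₂ v) := by ring
      dsimp only
      rw [h3]
      refine (abs_add_le _ _).trans ?_
      rw [abs_mul, abs_of_pos hY0]
      have h4 : Y * |Θ (v + y) - Θ v - f v * y| ≤ Y * (L * y ^ 2) :=
        mul_le_mul_of_nonneg_left h1 hY0.le
      have h5 : 0 ≤ 2 / κ * (Y * y ^ 2) := by positivity
      have h6 : 0 ≤ L * |y| := by positivity
      nlinarith
  · intro τ
    have hc : Continuous fun v => e (Y * Θ v + cor κ β₁ β₂ v - Y * τ * v) := by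
      unfold cor; fun_prop
    have hint : ∀ p q : ℝ, IntervalIntegrable
        (fun v => e (Y * Θ v + cor κ β₁ β₂ v - Y * τ * v)) MeasureTheory.volume p q :=
      fun p q => hc.intervalIntegrable p q
    dsimp only
    rw [← intervalIntegral.integral_add_adjacent_intervals (hint 0 κ) (hint κ 1),
      ← intervalIntegral.integral_add_adjacent_intervals (hint κ (1 - κ)) (hint (1 - κ) 1)]
    -- first piece
    have k1 : ‖∫ v in (0 : ℝ)..κ, e (Y * Θ v + cor κ β₁ β₂ v - Y * τ * v)‖ ≤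
        4 / Real.sqrt (s ^ 2 * (T / κ)) := by
      obtain ⟨g, hg, hg'⟩ := piece (h := fun x => T / κ * x) hfc (by fun_prop) (a := 0) (b := κ)
        (fun x hx => by rw [hf, tim_one hκ1 hσa hx.2, cl_of_mem hx.1 hx.2]) Y 0 (β₁ / κ - Y * τ)
      rw [intervalIntegral.integral_congr (g := fun v => e (g v)) (fun x hx => by
        rw [uIcc_of_le hκ.le] at hx
        dsimp only
        rw [hg' x hx, cor_one hκ1 hx.2, cl_of_mem hx.1 hx.2]
        congr 1; ring)]
      refine vdC2 (g'' := fun _ => Y * (T / κ)) hg (fun x => ?_) continuous_const hκ.le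
        (by positivity) (fun x _ => by rw [hss])
      simpa using (((hasDerivAt_id x).const_mul (T / κ)).const_mul Y).add_const (β₁ / κ - Y * τ)
    -- third piece
    have k3 : ‖∫ v in (1 - κ)..1, e (Y * Θ v + cor κ β₁ β₂ v - Y * τ * v)‖ ≤
        4 / Real.sqrt (s ^ 2 * (T / κ)) := by
      obtain ⟨g, hg, hg'⟩ := piece (h := fun x => T₁ / κ * (1 - x)) hfc (by fun_prop)
        (a := 1 - κ) (b := 1)
        (fun x hx => by rw [hf, tim_three hκ hκ1 hx.1, cl_of_mem hx.1 hx.2]) Y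
        (β₁ - β₂ / κ * (1 - κ)) (β₂ / κ - Y * τ)
      rw [intervalIntegral.integral_congr (g := fun v => e (g v)) (fun x hx => by
        rw [uIcc_of_le (by linarith)] at hx
        dsimp only
        rw [hg' x hx, cor_three hκ hκ1 hx.1, cl_of_mem hx.1 hx.2]
        congr 1; ring)]
      refine vdC2_neg (g'' := fun _ => -(Y * (T₁ / κ))) hg (fun x => ?_) continuous_const
        (by linarith) (by positivity) (fun x _ => ?_)
      · simpa using ((((hasDerivAt_id x).const_sub 1).const_mul (T₁ / κ)).const_mul Y).add_const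
          (β₂ / κ - Y * τ)
      · rw [hss, neg_le_neg_iff]
        gcongr
    -- middle piece
    have k2 : ‖(s : ℂ) * (∫ v in κ..(1 - κ), e (Y * Θ v + cor κ β₁ β₂ v - Y * τ * v)) -
        ((‖Γ‖ * ρ τ / Real.sqrt lam : ℝ) : ℂ) * u * e (Y * (Θ (u₀ τ) - τ * u₀ τ))‖ ≤ η / 2 := by
      obtain ⟨g, hg, hg'⟩ := piece (h := fun x => T + lam * σ x) hfc (by fun_prop)
        (a := κ) (b := 1 - κ) (fun x hx => by rw [hf, tim_two hκ hx.1 hx.2]) Y β₁ (-(Y * τ))
      rw [intervalIntegral.integral_congr (g := fun v => e (g v)) (fun x hx => by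
        rw [uIcc_of_le (by linarith)] at hx
        dsimp only
        rw [hg' x hx, cor_two hκ hx.1 hx.2]
        congr 1; ring)]
      have h1 := hmid s hs1 τ g (fun x => (hg x).congr_deriv (by rw [hss]; ring))
      have h2 : g (u₀ τ) = β₁ + Y * (Θ (u₀ τ) - τ * u₀ τ) := by
        rw [hg' _ (hu₀ τ)]; ring
      rw [h2, e_add, ← mul_assoc, mul_assoc _ Γ, hβ₁'] at h1
      convert h1 using 3
      push_cast
      ring
    have e1 := mul_four_div_sqrt_le hs0 (d := η / 4) (by positivity) hκ2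
    set I₁ := ∫ v in (0 : ℝ)..κ, e (Y * Θ v + cor κ β₁ β₂ v - Y * τ * v)
    set I₂ := ∫ v in κ..(1 - κ), e (Y * Θ v + cor κ β₁ β₂ v - Y * τ * v)
    set I₃ := ∫ v in (1 - κ)..1, e (Y * Θ v + cor κ β₁ β₂ v - Y * τ * v)
    set Z := ((‖Γ‖ * ρ τ / Real.sqrt lam : ℝ) : ℂ) * u * e (Y * (Θ (u₀ τ) - τ * u₀ τ))
    have h3 : (s : ℂ) * (I₁ + (I₂ + I₃)) - Z = (s * I₂ - Z) + (s * I₁ + s * I₃) := by ring
    rw [h3]
    refine (norm_add_le _ _).trans ?_
    have h4 := norm_add_le ((s : ℂ) * I₁) (s * I₃)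
    rw [norm_mul, norm_mul, Complex.norm_real, Real.norm_eq_abs, abs_of_pos hs0] at h4
    have h5 := mul_le_mul_of_nonneg_left k1 hs0.le
    have h6 := mul_le_mul_of_nonneg_left k3 hs0.le
    linarith

end Crest.Agent.R75
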