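import Crest.Agent.R75.AN2
import Crest.Agent.R75.Profile

/-!
# Row 75: from a covering finite model to an ultraflat polynomial with real coefficients in
`[-1-4ε, 1+4ε]`
-/

set_option autoImplicit false

open Finset

namespace Crest.Agent.R75

namespace ANaux

lemma tile_lin {Φ : ℝ → ℝ} {θ₀ l X C W Tm : ℝ} (hl : 0 < l) (hX : 0 < X) (hC : 0 ≤ C)
    (hW : 1 / l ≤ W)
    (h : ∀ v, ∃ τ, 0 ≤ τ ∧ τ ≤ Tm ∧
      ∀ y, |Φ (v + y) - Φ v - l * X * τ * y| ≤ C * (l * X * y ^ 2 + |y|)) (x : ℝ) :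
    ∃ τ : ℤ, 0 ≤ τ ∧ (τ : ℝ) ≤ X * Tm ∧ ∀ y, |Φ ((x - y - θ₀) / l) - Φ ((x - θ₀) / l) + τ * y| ≤
      (2 * C * W + 1) * X * y ^ 2 + (2 * C * W + 1) / X := by
  obtain ⟨τ, h0, h1, h2⟩ := h ((x - θ₀) / l)
  refine ⟨⌊X * τ⌋, Int.floor_nonneg.mpr (by positivity),
    (Int.floor_le _).trans (mul_le_mul_of_nonneg_left h1 hX.le), fun y => ?_⟩
  have h3 := h2 (-y / l)
  rw [show (x - θ₀) / l + -y / l = (x - y - θ₀) / l by ring,
    show l * X * τ * (-y / l) = -(X * τ * y) by field_simp,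
    show l * X * (-y / l) ^ 2 = 1 / l * (X * y ^ 2) by field_simp,
    show |-y / l| = 1 / l * |y| by rw [abs_div, abs_neg, abs_of_pos hl]; ring] at h3
  have h4 : |(X * τ - ⌊X * τ⌋) * y| ≤ |y| := by
    rw [abs_mul]
    refine mul_le_of_le_one_left (abs_nonneg _) ?_
    rw [abs_of_nonneg (by linarith [Int.floor_le (X * τ)])]
    linarith [Int.lt_floor_add_one (X * τ)]
  have h5 : |y| ≤ X * y ^ 2 + 1 / X := by
    rw [← sq_abs y]
    have h6 : 0 ≤ X * (|y| - 1 / X) ^ 2 := by positivity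
    have h7 : X * (|y| - 1 / X) ^ 2 = X * |y| ^ 2 - 2 * |y| + 1 / X := by field_simp; ring
    linarith [abs_nonneg y]
  have h6 : Φ ((x - y - θ₀) / l) - Φ ((x - θ₀) / l) + ⌊X * τ⌋ * y =
      (Φ ((x - y - θ₀) / l) - Φ ((x - θ₀) / l) - -(X * τ * y)) - (X * τ - ⌊X * τ⌋) * y := by ring
  rw [h6]
  refine (abs_sub _ _).trans ?_
  have hW0 : 0 ≤ W := le_trans (by positivity) hW
  have h7 : C * (1 / l * (X * y ^ 2) + 1 / l * |y|) ≤ C * (W * (X * y ^ 2) + W * |y|) := by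
    gcongr
  have h8 : C * W * |y| ≤ C * W * (X * y ^ 2 + 1 / X) :=
    mul_le_mul_of_nonneg_left h5 (by positivity)
  have h9 : 0 ≤ C * W * (1 / X) := by positivity
  have h10 : (2 * C * W + 1) / X = 2 * (C * W * (1 / X)) + 1 / X := by ring
  rw [h10]
  nlinarith

lemma tile_coeff {Φ : ℝ → ℝ} {θ₀ l X lam ρ γ η t : ℝ} {u : ℂ} (hl : 0 < l) (hl1 : l ≤ 1)
    (hX : 0 < X)
    (h : ‖((Real.sqrt (l * X) : ℝ) : ℂ) * (∫ v in (0 : ℝ)..1, e (Φ v - l * X * (t / X) * v)) -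
      ((ρ / Real.sqrt lam : ℝ) : ℂ) * u * e (l * X * γ)‖ ≤ η) :
    |Real.sqrt X * (2 * (∫ x in θ₀..(θ₀ + l), e (Φ ((x - θ₀) / l) - t * x)).re) -
      ρ * (2 * (((Real.sqrt (l / lam) : ℝ) : ℂ) * u * e (-(t * θ₀) + l * X * γ)).re)| ≤ 2 * η := by
  have h1 : ∫ x in θ₀..(θ₀ + l), e (Φ ((x - θ₀) / l) - t * x) =
      (l : ℂ) * e (-(t * θ₀)) * ∫ v in (0 : ℝ)..1, e (Φ v - l * X * (t / X) * v) := by
    have := intervalIntegral.smul_integral_comp_add_mul (a := 0) (b := 1)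
      (fun x => e (Φ ((x - θ₀) / l) - t * x)) l θ₀
    simp only [mul_zero, add_zero, mul_one] at this
    rw [← this, Complex.real_smul, mul_assoc,
      ← intervalIntegral.integral_const_mul (e (-(t * θ₀)))]
    congr 1
    refine intervalIntegral.integral_congr fun v _ => ?_
    rw [← e_add]
    congr 1
    rw [show (θ₀ + l * v - θ₀) / l = v by field_simp; ring]
    field_simp
    ring
  set I := ∫ v in (0 : ℝ)..1, e (Φ v - l * X * (t / X) * v)
  have h2 : ((Real.sqrt X : ℝ) : ℂ) * ((l : ℂ) * e (-(t * θ₀)) * I) -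
      (ρ : ℂ) * (((Real.sqrt (l / lam) : ℝ) : ℂ) * u * e (-(t * θ₀) + l * X * γ)) =
      ((Real.sqrt l : ℝ) : ℂ) * e (-(t * θ₀)) * (((Real.sqrt (l * X) : ℝ) : ℂ) * I -
        ((ρ / Real.sqrt lam : ℝ) : ℂ) * u * e (l * X * γ)) := by
    rw [e_add, Real.sqrt_mul hl.le, Real.sqrt_div hl.le]
    have h3 : (l : ℂ) = ((Real.sqrt l : ℝ) : ℂ) * ((Real.sqrt l : ℝ) : ℂ) := by
      rw [← Complex.ofReal_mul, Real.mul_self_sqrt hl.le]
    push_cast
    linear_combination ((Real.sqrt X : ℝ) : ℂ) * e (-(t * θ₀)) * I * h3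
  have h3 := Complex.abs_re_le_norm (((Real.sqrt X : ℝ) : ℂ) * ((l : ℂ) * e (-(t * θ₀)) * I) -
      (ρ : ℂ) * (((Real.sqrt (l / lam) : ℝ) : ℂ) * u * e (-(t * θ₀) + l * X * γ)))
  rw [Complex.sub_re, Complex.re_ofReal_mul, Complex.re_ofReal_mul, h2, norm_mul, norm_mul, norm_e,
    mul_one, Complex.norm_real, Real.norm_eq_abs, abs_of_nonneg (Real.sqrt_nonneg _)] at h3
  have h4 : Real.sqrt l ≤ 1 := Real.sqrt_le_one.mpr hl1
  have h5 := h3.trans (mul_le_mul h4 h (norm_nonneg _) zero_le_one)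
  rw [h1, mul_left_comm, mul_left_comm ρ, ← mul_sub, abs_mul, abs_two]
  linarith

lemma sum_shift (N H : ℕ) (hHN : H ≤ N + 1) (c : ℤ → ℂ) (θ : ℝ) :
    ‖∑ k : Fin N, c ((k : ℕ) + (1 - H)) * e ((k : ℕ) * θ)‖ =
      ‖∑ t ∈ Ico (1 - (H : ℤ)) ((N + 1 - H : ℕ) : ℤ), c t * e (t * θ)‖ := by
  have h1 : ∑ t ∈ Ico (1 - (H : ℤ)) ((N + 1 - H : ℕ) : ℤ), c t * e (t * θ) =
      e ((1 - H) * θ) * ∑ k : Fin N, c ((k : ℕ) + (1 - H)) * e ((k : ℕ) * θ) := by
    rw [mul_sum, Fin.sum_univ_eq_sum_range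
      (fun k : ℕ => e ((1 - H) * θ) * (c ((k : ℕ) + (1 - H)) * e ((k : ℕ) * θ)))]
    symm
    refine sum_bij' (fun k _ => (k : ℤ) + (1 - H)) (fun t _ => (t - (1 - H)).toNat) ?_ ?_ ?_ ?_ ?_
    · intro k hk
      have := mem_range.mp hk
      rw [mem_Ico]; omega
    · intro t ht
      have := mem_Ico.mp ht
      rw [mem_range]; omega
    · intro k _; simp
    · intro t ht
      have := mem_Ico.mp ht
      omega
    · intro k _
      rw [mul_left_comm, ← e_add]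
      congr 2
      push_cast
      ring
  rw [h1, norm_mul, norm_e, one_mul]

lemma err_small {ε C n : ℝ} (hε : 0 < ε) (hε1 : ε ≤ 1 / 10) (hC : 0 < C) (hn : 0 ≤ n) :
    ∃ N₀ : ℕ, ∀ N ≥ N₀, 0 < ⌊ε * N / 4⌋₊ ∧
      n * (12 * (10 * Real.sqrt (C * (N / (1 + 3 * ε))) / (⌊ε * N / 4⌋₊ : ℕ) +
        7 * (C / (N / (1 + 3 * ε))) *
          Real.sqrt ((N + 1 - ⌊ε * N / 4⌋₊ : ℕ) / (⌊ε * N / 4⌋₊ : ℕ)))) ≤ ε := by
  set c : ℝ := n * (12 * (80 * Real.sqrt C / ε + 14 * C * Real.sqrt (8 / ε))) with hc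
  have hc0 : 0 ≤ c := by positivity
  refine ⟨⌈8 / ε + (c / ε) ^ 2⌉₊, fun N hN => ?_⟩
  have hN' : 8 / ε + (c / ε) ^ 2 ≤ N := (Nat.le_ceil _).trans (by exact_mod_cast hN)
  have hN1 : 8 / ε ≤ N := le_trans (le_add_of_nonneg_right (by positivity)) hN'
  have hN2 : (c / ε) ^ 2 ≤ N := le_trans (le_add_of_nonneg_left (by positivity)) hN'
  have hN3 : 8 ≤ ε * N := by rwa [div_le_iff₀ hε, mul_comm] at hN1
  have hN0 : (1 : ℝ) ≤ N := by nlinarith
  set H := ⌊ε * N / 4⌋₊ with hH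
  have hH1 : ε * N / 8 ≤ H := by
    have := Nat.lt_floor_add_one (ε * N / 4)
    linarith
  have hH0 : 0 < H := by
    have : (0 : ℝ) < H := by linarith
    exact_mod_cast this
  refine ⟨hH0, ?_⟩
  set s := Real.sqrt N with hs
  have hss : s * s = N := Real.mul_self_sqrt (by linarith)
  have hs1 : 1 ≤ s := Real.one_le_sqrt.mpr hN0
  have hs2 : c / ε ≤ s := Real.le_sqrt_of_sq_le hN2
  have e1 : 10 * Real.sqrt (C * (N / (1 + 3 * ε))) / H ≤ 80 * Real.sqrt C / ε / s := by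
    have h1 : Real.sqrt (C * (N / (1 + 3 * ε))) ≤ Real.sqrt C * s := by
      rw [hs, ← Real.sqrt_mul hC.le]
      refine Real.sqrt_le_sqrt (mul_le_mul_of_nonneg_left ?_ hC.le)
      exact div_le_self (by linarith) (by linarith)
    calc 10 * Real.sqrt (C * (N / (1 + 3 * ε))) / H ≤ 10 * (Real.sqrt C * s) / (ε * N / 8) := by
          gcongr
      _ = 80 * Real.sqrt C / ε / s := by rw [← hss]; field_simp; norm_num
  have e2 : 7 * (C / (N / (1 + 3 * ε))) * Real.sqrt ((N + 1 - H : ℕ) / H) ≤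
      14 * C * Real.sqrt (8 / ε) / s := by
    have h1 : ((N + 1 - H : ℕ) : ℝ) / H ≤ 8 / ε := by
      have h2 : ((N + 1 - H : ℕ) : ℝ) ≤ N := by exact_mod_cast (by omega)
      calc ((N + 1 - H : ℕ) : ℝ) / H ≤ N / (ε * N / 8) := by gcongr
        _ = 8 / ε := by field_simp
    have h2 : C / (N / (1 + 3 * ε)) ≤ 2 * C / s := by
      rw [div_div_eq_mul_div, div_le_div_iff₀ (by linarith) (by linarith), ← hss]
      have : (1 + 3 * ε) ≤ 2 * s := by linarith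
      have h3 : C * (1 + 3 * ε) * s ≤ C * (2 * s) * s := by gcongr
      linarith
    calc 7 * (C / (N / (1 + 3 * ε))) * Real.sqrt ((N + 1 - H : ℕ) / H)
        ≤ 7 * (2 * C / s) * Real.sqrt (8 / ε) := by gcongr
      _ = _ := by ring
  calc _ ≤ n * (12 * (80 * Real.sqrt C / ε / s + 14 * C * Real.sqrt (8 / ε) / s)) := by gcongr
    _ = c / s := by rw [hc]; ring
    _ ≤ ε := by
      rw [div_le_iff₀ (by linarith)]
      rw [div_le_iff₀ hε] at hs2
      linarith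

lemma final_bounds {ε X N Z : ℝ} (hε : 0 < ε) (hε1 : ε ≤ 1 / 10) (hX0 : 0 < X)
    (hXN : X * (1 + 3 * ε) = N) (h2 : |Z - 1| ≤ ε) :
    (1 - 4 * ε) * Real.sqrt N ≤ Real.sqrt X * Z ∧ Real.sqrt X * Z ≤ (1 + 4 * ε) * Real.sqrt N := by
  rw [abs_le] at h2
  have hN0 : 0 ≤ N := by rw [← hXN]; positivity
  have h5 : Real.sqrt X ≤ Real.sqrt N := Real.sqrt_le_sqrt (by nlinarith)
  have h6 : (1 - 2 * ε) * Real.sqrt N ≤ Real.sqrt X := by
    apply Real.le_sqrt_of_sq_le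
    rw [mul_pow, Real.sq_sqrt hN0, ← hXN]
    have : (1 - 2 * ε) ^ 2 * (1 + 3 * ε) ≤ 1 := by nlinarith [mul_nonneg hε.le hε.le]
    nlinarith
  have h7 := Real.sqrt_nonneg X
  have h8 := Real.sqrt_nonneg N
  constructor
  · have : Real.sqrt X * (1 - ε) ≤ Real.sqrt X * Z :=
      mul_le_mul_of_nonneg_left (by linarith [h2.1]) h7
    nlinarith [mul_nonneg hε.le h8, mul_nonneg hε.le (mul_nonneg hε.le h8)]
  · have : Real.sqrt X * Z ≤ Real.sqrt X * (1 + ε) :=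
      mul_le_mul_of_nonneg_left (by linarith [h2.2]) h7
    nlinarith [mul_nonneg hε.le h8]

end ANaux

open ANaux in
theorem AN {ε : ℝ} (hε : 0 < ε) (hε1 : ε ≤ 1 / 10) (F : Model ε) (hF : F.Covers) :
    ∃ N₀ : ℕ, ∀ N ≥ N₀, ∃ a : Fin N → ℝ, (∀ t, |a t| ≤ 1 + 4 * ε) ∧
      ∀ θ : ℝ, (1 - 4 * ε) * Real.sqrt N ≤ ‖∑ t : Fin N, (a t : ℂ) * e ((t : ℕ) * θ)‖ ∧
        ‖∑ t : Fin N, (a t : ℂ) * e ((t : ℕ) * θ)‖ ≤ (1 + 4 * ε) * Real.sqrt N := by
  classical
  have hW : (0 : ℝ) < F.W := by exact_mod_cast F.hW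
  obtain ⟨T, hT, hTd⟩ := exists_times F.lam F.hlam hε
  set n : ℝ := ((Fintype.card F.T : ℕ) : ℝ) with hn
  have hn0 : 0 ≤ n := by positivity
  set η : ℝ := ε / (2 * (n + 1)) with hη
  have hη0 : 0 < η := by positivity
  choose C Y₀ ρ γ hC hρ hρT hprof using fun s =>
    profile (T s) (F.lam s) ε η (hT s).1 (F.hlam s) hε hη0
  set C₀ : ℝ := ∑ s, C s with hC₀
  have hC₀0 : 0 ≤ C₀ := sum_nonneg fun s _ => hC s
  have hCC : ∀ s, C s ≤ C₀ := fun s => single_le_sum (fun s _ => hC s) (mem_univ s)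
  set C' : ℝ := 2 * C₀ * F.W + 1 with hC'
  have hC'0 : 0 < C' := by positivity
  set Y₁ : ℝ := ∑ s, |Y₀ s| with hY₁
  have hYY : ∀ s, Y₀ s ≤ Y₁ := fun s =>
    (le_abs_self _).trans (single_le_sum (f := fun s => |Y₀ s|) (fun s _ => abs_nonneg _)
      (mem_univ s))
  obtain ⟨N₁, hN₁⟩ := err_small hε hε1 hC'0 hn0
  refine ⟨max N₁ ⌈2 * (F.W * Y₁)⌉₊, fun N hN => ?_⟩
  obtain ⟨hH0, herr⟩ := hN₁ N (le_trans (le_max_left _ _) hN)
  have hNY : 2 * (F.W * Y₁) ≤ N :=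
    (Nat.le_ceil _).trans (by exact_mod_cast le_trans (le_max_right _ _) hN)
  set H := ⌊ε * N / 4⌋₊ with hH
  set X : ℝ := N / (1 + 3 * ε) with hX
  have hH1 : (H : ℝ) ≤ ε * N / 4 := Nat.floor_le (by positivity)
  have hH0' : (1 : ℝ) ≤ H := by exact_mod_cast hH0
  have hN0 : (0 : ℝ) < N := by nlinarith [Nat.cast_nonneg (α := ℝ) N]
  have hX0 : 0 < X := by positivity
  have hXN : X * (1 + 3 * ε) = N := by rw [hX]; field_simp
  have h2H : 2 * H ≤ N := by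
    have : (2 * H : ℝ) ≤ N := by nlinarith
    exact_mod_cast this
  set A := N + 1 - H with hA
  have hAr : (A : ℝ) = N + 1 - H := by
    rw [hA, Nat.cast_sub (by omega)]; push_cast; ring
  have hl0 : ∀ i, (0 : ℝ) < F.len i / F.W := fun i => by
    have : (0 : ℝ) < F.len i := by exact_mod_cast F.hlen i
    positivity
  have hl1 : ∀ i, (F.len i : ℝ) / F.W ≤ 1 := fun i => by
    rw [div_le_one hW]; exact_mod_cast len_le F i
  have hl2 : ∀ i, 1 / ((F.len i : ℝ) / F.W) ≤ F.W := fun i => by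
    have : (1 : ℝ) ≤ F.len i := by exact_mod_cast F.hlen i
    rw [one_div_div]
    exact div_le_self hW.le this
  have hY : ∀ i, (F.len i : ℝ) / F.W * X ≥ Y₀ (F.seg i) := fun i => by
    have h1 : (1 : ℝ) ≤ F.len i := by exact_mod_cast F.hlen i
    refine (hYY _).trans ?_
    rw [div_mul_eq_mul_div, le_div_iff₀ hW]
    nlinarith
  choose Φ hΦc hΦs hΦl hΦi using fun i => hprof (F.seg i) _ (hY i) (F.u i) (F.hu i)
  set φ : F.T → ℝ → ℝ := fun i x => Φ i ((x - F.st i / F.W) / (F.len i / F.W)) with hφ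
  set S : ℤ → ℝ := fun t => ∑ i, 2 * (∫ x in (F.st i / F.W : ℝ)..
    (F.st i / F.W + F.len i / F.W), e (φ i x - t * x)).re with hS
  have hSb : ∀ t : ℤ, |Real.sqrt X * S t| ≤ 1 + 4 * ε := by
    intro t
    set R : F.T → ℝ := fun i => 2 * (((Real.sqrt (F.len i / (F.W * F.lam (F.seg i))) : ℝ) : ℂ) *
      F.u i * e (-(t * F.st i / F.W) - F.len i * (-(X * γ (F.seg i) (t / X) / F.W)))).re with hR
    have h1 : |Real.sqrt X * S t - ∑ i, ρ (F.seg i) (t / X) * R i| ≤ ε := by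
      rw [hS]; dsimp only
      rw [mul_sum, ← sum_sub_distrib]
      refine (abs_sum_le_sum_abs _ _).trans ?_
      refine (sum_le_card_nsmul _ _ (2 * η) fun i _ => ?_).trans ?_
      · have := tile_coeff (θ₀ := F.st i / F.W) (hl0 i) (hl1 i) hX0 (hΦi i (t / X))
        rw [div_div, show -(t * (F.st i / F.W : ℝ)) + F.len i / F.W * X * γ (F.seg i) (t / X) =
          -(t * F.st i / F.W) - F.len i * (-(X * γ (F.seg i) (t / X) / F.W)) by ring] at this
        exact this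
      · rw [card_univ, nsmul_eq_mul, ← hn, hη]
        rw [show n * (2 * (ε / (2 * (n + 1)))) = ε * (n / (n + 1)) by field_simp]
        exact mul_le_of_le_one_right hε.le (by rw [div_le_one (by linarith)]; linarith)
    have h2 : |∑ i, ρ (F.seg i) (t / X) * R i| ≤ (1 + ε) * (1 + ε) := by
      by_cases h : ∃ s, ρ s (t / X) ≠ 0
      · obtain ⟨s, hs⟩ := h
        have h3 : ∑ i, ρ (F.seg i) (t / X) * R i =
            ρ s (t / X) * ∑ i ∈ univ.filter (fun i => F.seg i = s),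
              2 * (((Real.sqrt (F.len i / (F.W * F.lam s)) : ℝ) : ℂ) * F.u i *
                e (-(t * F.st i / F.W) - F.len i * (-(X * γ s (t / X) / F.W)))).re := by
          rw [mul_sum, sum_filter]
          refine sum_congr rfl fun i _ => ?_
          split_ifs with hi
          · rw [hR]; dsimp only; rw [hi]
          · by_contra h4
            have h5 : ρ (F.seg i) (t / X) ≠ 0 := left_ne_zero_of_mul h4
            exact hi (hTd _ _ _ (hρT _ _ h5).1 (hρT _ _ h5).2 (hρT _ _ hs).1 (hρT _ _ hs).2)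
        rw [h3, abs_mul, abs_of_nonneg (hρ s _).1]
        exact mul_le_mul (hρ s _).2 (F.bound s t _) (abs_nonneg _) (by linarith)
      · push Not at h
        simp only [h, zero_mul, sum_const_zero, abs_zero]
        positivity
    have h3 := abs_add_le (Real.sqrt X * S t - ∑ i, ρ (F.seg i) (t / X) * R i)
      (∑ i, ρ (F.seg i) (t / X) * R i)
    rw [sub_add_cancel] at h3
    nlinarith
  refine ⟨fun k => Real.sqrt X * (vhat A H ((k : ℕ) + (1 - H)) * S ((k : ℕ) + (1 - H))),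
    fun k => ?_, fun θ => ?_⟩
  · dsimp only
    rw [mul_left_comm, abs_mul, abs_of_nonneg (vhat_nonneg _ _ _)]
    exact (mul_le_of_le_one_left (abs_nonneg _) (vhat_le_one _ _ _)).trans (hSb _)
  · have h1 := conv_all F hF (A := A) hH0 (by omega) φ (B := C' * X) (b := C' / X)
      (fun i => by have := hΦc i; rw [hφ]; fun_prop) (by positivity) (by positivity)
      (fun i x hx => hΦs i _ (by
        rcases hx with hx | hx
        · exact Or.inl (div_nonpos_of_nonpos_of_nonneg (by linarith) (hl0 i).le)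
        · exact Or.inr (by rw [le_div_iff₀ (hl0 i)]; linarith)))
      (fun i x => by
        obtain ⟨τ, h0, h1, h2⟩ := tile_lin (θ₀ := F.st i / F.W) (Tm := 1 + 2 * ε) (hl0 i) hX0 hC₀0
          (hl2 i) (fun v => by
            obtain ⟨τ, h0, h1, h2⟩ := hΦl i v
            refine ⟨τ, h0, by linarith [(hT (F.seg i)).2, F.hsum], fun y => (h2 y).trans ?_⟩
            have := hl0 i
            exact mul_le_mul_of_nonneg_right (hCC _) (by positivity)) x
        refine ⟨τ, h0, ?_, fun y _ => h2 y⟩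
        have : (τ : ℝ) + H ≤ A := by rw [hAr]; nlinarith
        exact_mod_cast this) θ
    have h2 := h1.trans herr
    have h3 := sum_shift N H (by omega) (fun t => ((vhat A H t * S t : ℝ) : ℂ)) θ
    have h4 : ∑ k : Fin N, ((Real.sqrt X * (vhat A H ((k : ℕ) + (1 - H)) *
        S ((k : ℕ) + (1 - H))) : ℝ) : ℂ) * e ((k : ℕ) * θ) =
        ((Real.sqrt X : ℝ) : ℂ) * ∑ k : Fin N, ((vhat A H ((k : ℕ) + (1 - H)) *
          S ((k : ℕ) + (1 - H)) : ℝ) : ℂ) * e ((k : ℕ) * θ) := by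
      rw [mul_sum]
      refine sum_congr rfl fun k _ => ?_
      rw [Complex.ofReal_mul, mul_assoc]
    rw [h4, norm_mul, h3, Complex.norm_real, Real.norm_eq_abs, abs_of_nonneg (Real.sqrt_nonneg _)]
    exact final_bounds hε hε1 hX0 hXN h2

end Crest.Agent.R75
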