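import Crest.Agent.R75.Defs

/-!
# Row 75: combinatorial lemmas for the analytic part
-/

set_option autoImplicit false

open Finset

namespace Crest.Agent.R75.ANaux

lemma exists_times {S : Type} [Fintype S] (lam : S → ℝ) (hlam : ∀ s, 0 < lam s) {η : ℝ}
    (hη : 0 < η) :
    ∃ T : S → ℝ, (∀ s, 0 < T s ∧ T s + lam s ≤ η + ∑ s, lam s) ∧
      ∀ s s' τ, T s < τ → τ < T s + lam s → T s' < τ → τ < T s' + lam s' → s = s' := by
  classical
  let _ : LinearOrder S := LinearOrder.lift' (Fintype.equivFin S) (Fintype.equivFin S).injective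
  have key : ∀ s (A : Finset S), s ∈ A → (∀ x, x < s → x ∈ A) →
      ∑ x ∈ univ.filter (· < s), lam x + lam s ≤ ∑ x ∈ A, lam x := by
    intro s A hs hA
    rw [add_comm, ← sum_insert (f := lam) (by simp)]
    refine sum_le_sum_of_subset_of_nonneg ?_ (fun x _ _ => (hlam x).le)
    intro x hx
    rcases mem_insert.mp hx with rfl | hx
    · exact hs
    · exact hA x (mem_filter.mp hx).2
  refine ⟨fun s => η + ∑ x ∈ univ.filter (· < s), lam x, fun s => ⟨?_, ?_⟩, ?_⟩
  · have : 0 ≤ ∑ x ∈ univ.filter (· < s), lam x := sum_nonneg fun x _ => (hlam x).le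
    linarith
  · have := key s univ (mem_univ _) (fun x _ => mem_univ _)
    linarith
  · intro s s' τ h1 h2 h3 h4
    rcases lt_trichotomy s s' with h | h | h
    · have := key s (univ.filter (· < s')) (by simpa using h)
        (fun x hx => by simpa using hx.trans h)
      linarith
    · exact h
    · have := key s' (univ.filter (· < s)) (by simpa using h)
        (fun x hx => by simpa using hx.trans h)
      linarith

variable {ε : ℝ}

lemma cover_sum (F : Model ε) (hF : F.Covers) (f : ℤ → ℂ)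
    (hf : ∀ x y, x ≡ y [ZMOD F.W] → f x = f y) :
    ∑ i, ∑ k ∈ range (F.len i), (f (F.st i + k) + f (-1 - (F.st i + k))) =
      ∑ x ∈ range F.W, f x := by
  classical
  have : NeZero F.W := ⟨F.hW.ne'⟩
  let φ : (Σ i : F.T, Fin (F.len i)) ⊕ (Σ i : F.T, Fin (F.len i)) → ℤ := fun x =>
    match x with
    | Sum.inl a => F.st a.1 + (a.2 : ℕ)
    | Sum.inr a => -1 - (F.st a.1 + (a.2 : ℕ))
  have hinj : Function.Injective fun x => (φ x : ZMod F.W) := by
    rintro (⟨i, k⟩ | ⟨i, k⟩) (⟨j, l⟩ | ⟨j, l⟩) h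
    · have h' := (ZMod.intCast_eq_intCast_iff _ _ _).1 h
      obtain ⟨rfl, h2⟩ := F.inj i j k l k.2 l.2 h'
      rw [Fin.ext h2]
    · exact absurd ((ZMod.intCast_eq_intCast_iff _ _ _).1 h) (F.mir i j k l k.2 l.2)
    · exact absurd ((ZMod.intCast_eq_intCast_iff _ _ _).1 h).symm (F.mir j i l k l.2 k.2)
    · have h' := (ZMod.intCast_eq_intCast_iff _ _ _).1 h
      have h'' : F.st i + (k : ℕ) ≡ F.st j + (l : ℕ) [ZMOD F.W] := by
        have := (Int.ModEq.refl (-1 : ℤ)).sub h'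
        simpa [φ] using this
      obtain ⟨rfl, h2⟩ := F.inj i j k l k.2 l.2 h''
      rw [Fin.ext h2]
  have hsurj : Function.Surjective fun x => (φ x : ZMod F.W) := by
    intro z
    obtain ⟨i, k, hk, h | h⟩ := hF (z.val : ℤ)
    · refine ⟨Sum.inl ⟨i, ⟨k, hk⟩⟩, ?_⟩
      have := (ZMod.intCast_eq_intCast_iff _ _ _).2 h
      simpa [φ] using this.symm
    · refine ⟨Sum.inr ⟨i, ⟨k, hk⟩⟩, ?_⟩
      have := (ZMod.intCast_eq_intCast_iff _ _ _).2 h
      simpa [φ] using this.symm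
  have h1 := Function.Bijective.sum_comp ⟨hinj, hsurj⟩ (fun z : ZMod F.W => f (z.val : ℤ))
  have h2 : ∀ x, f (((φ x : ZMod F.W).val : ℕ) : ℤ) = f (φ x) := by
    intro x
    apply hf
    rw [ZMod.val_intCast]
    exact Int.mod_modEq _ _
  simp only [h2] at h1
  rw [Fintype.sum_sum_type, Fintype.sum_sigma, Fintype.sum_sigma, ← sum_add_distrib] at h1
  have h3 : ∑ z : ZMod F.W, f (z.val : ℤ) = ∑ x ∈ range F.W, f x := by
    refine sum_bij' (fun z _ => z.val) (fun x _ => (x : ZMod F.W)) ?_ ?_ ?_ ?_ ?_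
    · intro z _; exact mem_range.mpr (ZMod.val_lt z)
    · intro x _; exact mem_univ _
    · intro z _; simp
    · intro x hx; exact ZMod.val_cast_of_lt (mem_range.mp hx)
    · intro z _; rfl
  rw [← h3, ← h1]
  refine sum_congr rfl fun i _ => ?_
  rw [← sum_add_distrib, ← Fin.sum_univ_eq_sum_range
    (fun k => f (F.st i + k) + f (-1 - (F.st i + k)))]

lemma cover_integral (F : Model ε) (hF : F.Covers) {G : ℝ → ℂ} (hG : Continuous G)
    (hper : ∀ x (k : ℤ), G (x + k) = G x) :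
    ∑ i, ((∫ x in (F.st i / F.W : ℝ)..(F.st i / F.W + F.len i / F.W), G x) +
      ∫ x in (F.st i / F.W : ℝ)..(F.st i / F.W + F.len i / F.W), G (-x)) =
      ∫ x in (0 : ℝ)..1, G x := by
  have hW : (0 : ℝ) < F.W := by exact_mod_cast F.hW
  have hsplit : ∀ (G : ℝ → ℂ), Continuous G → ∀ (a : ℤ) (n : ℕ),
      ∫ x in (a / F.W : ℝ)..(a / F.W + n / F.W), G x =
        ∑ k ∈ range n, ∫ x in (((a + k : ℤ) : ℝ) / F.W)..((((a + k : ℤ) : ℝ) + 1) / F.W), G x := by
    intro G hG a n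
    have := intervalIntegral.sum_integral_adjacent_intervals (f := G) (μ := MeasureTheory.volume)
      (a := fun k : ℕ => ((a : ℝ) + k) / F.W) (n := n) (fun k _ => hG.intervalIntegrable _ _)
    simp only [Nat.cast_zero, add_zero] at this
    rw [← add_div, ← this]
    refine sum_congr rfl fun k _ => ?_
    push_cast
    rw [add_assoc]
  have h1 := cover_sum F hF (fun x => ∫ y in ((x : ℝ) / F.W)..(((x : ℝ) + 1) / F.W), G y) (by
    intro x y hxy
    obtain ⟨c, hc⟩ := hxy.dvd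
    have hy : (y : ℝ) = x + F.W * c := by
      have : y = x + F.W * c := by linarith
      exact_mod_cast this
    have := intervalIntegral.integral_comp_add_right (a := (x : ℝ) / F.W)
      (b := ((x : ℝ) + 1) / F.W) G (c : ℝ)
    simp only [hper] at this
    rw [this, hy]
    congr 1 <;> field_simp
    ring)
  have h2 := hsplit G hG 0 F.W
  simp only [Int.cast_zero, zero_div, zero_add, div_self hW.ne'] at h2
  rw [h2, ← h1]
  refine sum_congr rfl fun i _ => ?_
  rw [hsplit G hG, hsplit (fun x => G (-x)) (by fun_prop), ← sum_add_distrib]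
  refine sum_congr rfl fun k _ => ?_
  rw [intervalIntegral.integral_comp_neg]
  congr 2 <;> push_cast <;> ring

lemma norm_one_add_sum {ι : Type*} [Fintype ι] (d : ι → ℂ) (h1 : ∀ i, ‖1 + d i‖ = 1)
    (h2 : ∀ i j, d i ≠ 0 → d j ≠ 0 → i = j) : ‖1 + ∑ i, d i‖ = 1 := by
  classical
  by_cases h : ∃ i, d i ≠ 0
  · obtain ⟨i, hi⟩ := h
    rw [sum_eq_single i (fun j _ hj => by
      by_contra h'; exact hj (h2 j i h' hi)) (by simp)]
    exact h1 i
  · push Not at h
    simp [h]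

lemma cell_of_mem (W : ℕ) (hW : 0 < W) (st : ℤ) (len : ℕ) (θ : ℝ)
    (h : Int.fract (θ - st / W) < len / W) :
    ∃ k : ℕ, k < len ∧ ⌊W * θ⌋ ≡ st + k [ZMOD W] := by
  have hW' : (0 : ℝ) < W := by exact_mod_cast hW
  set m : ℤ := ⌊θ - st / W⌋ with hm
  have h0 := Int.fract_nonneg (θ - st / W)
  have hr : W * Int.fract (θ - st / W) = W * θ - st - W * m := by
    rw [Int.fract, ← hm]; field_simp
  rw [lt_div_iff₀ hW', mul_comm, hr] at h
  have h0' : 0 ≤ W * θ - st - W * m := by rw [← hr]; positivity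
  have h1 : 0 ≤ ⌊W * θ⌋ - st - W * m := by
    have : st + W * m ≤ ⌊W * θ⌋ := Int.le_floor.mpr (by push_cast; linarith)
    linarith
  have h2 : ⌊W * θ⌋ - st - W * m < len := by
    have : ⌊W * θ⌋ < st + W * m + len := Int.floor_lt.mpr (by push_cast; linarith)
    linarith
  refine ⟨(⌊W * θ⌋ - st - W * m).toNat, by omega, ?_⟩
  rw [Int.toNat_of_nonneg h1, Int.modEq_iff_dvd]
  exact ⟨-m, by ring⟩

lemma cell_of_mem' (W : ℕ) (hW : 0 < W) (st : ℤ) (len : ℕ) (θ : ℝ)
    (h0 : 0 < Int.fract (-θ - st / W)) (h : Int.fract (-θ - st / W) < len / W) :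
    ∃ k : ℕ, k < len ∧ ⌊W * θ⌋ ≡ -1 - (st + k) [ZMOD W] := by
  have hW' : (0 : ℝ) < W := by exact_mod_cast hW
  set m : ℤ := ⌊-θ - st / W⌋ with hm
  have hr : W * Int.fract (-θ - st / W) = -(W * θ) - st - W * m := by
    rw [Int.fract, ← hm]; field_simp
  rw [lt_div_iff₀ hW', mul_comm, hr] at h
  have h0' : 0 < -(W * θ) - st - W * m := by rw [← hr]; positivity
  have h1 : 0 ≤ -1 - ⌊W * θ⌋ - st - W * m := by
    have : ⌊W * θ⌋ < -st - W * m := Int.floor_lt.mpr (by push_cast; linarith)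
    linarith
  have h2 : -1 - ⌊W * θ⌋ - st - W * m < len := by
    have : -st - W * m - len ≤ ⌊W * θ⌋ := Int.le_floor.mpr (by push_cast; linarith)
    linarith
  refine ⟨(-1 - ⌊W * θ⌋ - st - W * m).toNat, by omega, ?_⟩
  rw [Int.toNat_of_nonneg h1, Int.modEq_iff_dvd]
  exact ⟨m, by ring⟩

/-- the glued function is unimodular -/
lemma unimod (F : Model ε) (φ : F.T → ℝ → ℝ)
    (hφ : ∀ i (x : ℝ), x ≤ F.st i / F.W ∨ F.st i / F.W + F.len i / F.W ≤ x → e (φ i x) = 1) (θ : ℝ) :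
    ‖1 + ∑ i, ((e (φ i (F.st i / F.W + Int.fract (θ - F.st i / F.W))) - 1) +
      (starRingEnd ℂ) (e (φ i (F.st i / F.W + Int.fract (-θ - F.st i / F.W))) - 1))‖ = 1 := by
  let d : F.T ⊕ F.T → ℂ := fun x =>
    match x with
    | Sum.inl i => e (φ i (F.st i / F.W + Int.fract (θ - F.st i / F.W))) - 1
    | Sum.inr i => (starRingEnd ℂ) (e (φ i (F.st i / F.W + Int.fract (-θ - F.st i / F.W))) - 1)
  have hl : ∀ i, d (Sum.inl i) ≠ 0 → ∃ k : ℕ, k < F.len i ∧ ⌊F.W * θ⌋ ≡ F.st i + k [ZMOD F.W] := by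
    intro i hi
    refine cell_of_mem F.W F.hW _ _ θ ?_
    by_contra h
    exact hi (by simp only [d]; rw [hφ i _ (Or.inr (by linarith)), sub_self])
  have hr : ∀ i, d (Sum.inr i) ≠ 0 →
      ∃ k : ℕ, k < F.len i ∧ ⌊F.W * θ⌋ ≡ -1 - (F.st i + k) [ZMOD F.W] := by
    intro i hi
    refine cell_of_mem' F.W F.hW _ _ θ ?_ ?_
    · by_contra h
      exact hi (by simp only [d]; rw [hφ i _ (Or.inl (by linarith)), sub_self, map_zero])
    · by_contra h
      exact hi (by simp only [d]; rw [hφ i _ (Or.inr (by linarith)), sub_self, map_zero])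
  have := norm_one_add_sum d (by
    rintro (i | i)
    · simp [d]
    · simp [d]) (by
    rintro (i | i) (j | j) hi hj
    · obtain ⟨k, hk, h1⟩ := hl i hi
      obtain ⟨l, hl', h2⟩ := hl j hj
      rw [(F.inj i j k l hk hl' (h1.symm.trans h2)).1]
    · obtain ⟨k, hk, h1⟩ := hl i hi
      obtain ⟨l, hl', h2⟩ := hr j hj
      exact absurd (h1.symm.trans h2) (F.mir i j k l hk hl')
    · obtain ⟨k, hk, h1⟩ := hr i hi
      obtain ⟨l, hl', h2⟩ := hl j hj
      exact absurd (h2.symm.trans h1) (F.mir j i l k hl' hk)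
    · obtain ⟨k, hk, h1⟩ := hr i hi
      obtain ⟨l, hl', h2⟩ := hr j hj
      have h3 := (Int.ModEq.refl (-1 : ℤ)).sub (h1.symm.trans h2)
      simp only [sub_sub_cancel] at h3
      rw [(F.inj i j k l hk hl' h3).1])
  rw [Fintype.sum_sum_type, ← sum_add_distrib] at this
  exact this

lemma len_le (F : Model ε) (i : F.T) : F.len i ≤ F.W := by
  classical
  have h1 := packing_card F.W F.hW F.st F.len F.inj F.mir
  have h2 : F.len i ≤ ∑ j, F.len j := single_le_sum (fun _ _ => Nat.zero_le _) (mem_univ i)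
  omega

end Crest.Agent.R75.ANaux
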