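import Crest.Agent.R75.Defs

/-!
# Row 75: the trapezoid kernel

`V_eq`: expand the product and collect `t = i - j`.  `norm_V_le`: `norm_geom_le` twice.
`integral_norm_V_le`: `‖x‖ ‖y‖ ≤ (ρ ‖x‖² + ‖y‖²/ρ)/2` (or Cauchy–Schwarz) and Parseval
(`integral_e_int`).  `kernel_approx`: `∫ V y * e (-τ y) = vhat τ = 1`, and
`‖e (Ψ y) - e (-τ y)‖ ≤ min 2 (2π B y²) + 2π b`, `min 2 (2π B y²) / (4 H y²) ≤ π B / (H (1 + B y²))`,
`∫_{-1/2}^{1/2} B / (1 + B y²) ≤ π √B` (or split at `|y| = 1/√B`).
-/

set_option autoImplicit false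

open Finset

namespace Crest.Agent.R75

theorem vhat_nonneg (A H : ℕ) (t : ℤ) : 0 ≤ vhat A H t := by
  unfold vhat; positivity

theorem vhat_le_one (A H : ℕ) (t : ℤ) : vhat A H t ≤ 1 := by
  unfold vhat
  apply div_le_one_of_le₀ _ (Nat.cast_nonneg _)
  exact_mod_cast (card_filter_le _ _).trans (card_range H).le

theorem vhat_eq_one {A H : ℕ} (hH : 0 < H) {t : ℤ} (h0 : 0 ≤ t) (h1 : t + H ≤ A) :
    vhat A H t = 1 := by
  unfold vhat
  rw [filter_true_of_mem, card_range, div_self (by positivity)]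
  intro j hj
  have := mem_range.1 hj
  omega

theorem V_eq (A H : ℕ) (y : ℝ) :
    V A H y = ∑ t ∈ Ico (1 - (H : ℤ)) A, (vhat A H t : ℂ) * e (t * y) := by
  have h1 : ∀ t : ℤ, (vhat A H t : ℂ) * e (t * y) =
      (1 / (H : ℂ)) * ∑ j ∈ range H, if 0 ≤ t + j ∧ t + j < A then e (t * y) else 0 := by
    intro t
    rw [← sum_filter, sum_const, nsmul_eq_mul, vhat]
    push_cast
    ring
  simp only [h1]
  rw [← mul_sum, sum_comm, V, mul_assoc, mul_sum]
  congr 1
  refine sum_congr rfl fun j hj => ?_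
  have hj' := mem_range.1 hj
  rw [← sum_filter, sum_mul]
  refine sum_nbij' (fun i : ℕ => (i : ℤ) - j) (fun t : ℤ => (t + j).toNat) ?_ ?_ ?_ ?_ ?_
  · intro i hi
    have := mem_range.1 hi
    simp only [mem_filter, mem_Ico]
    omega
  · intro t ht
    simp only [mem_filter, mem_Ico] at ht
    simp only [mem_range]
    omega
  · intro i _; simp
  · intro t ht
    simp only [mem_filter, mem_Ico] at ht
    beta_reduce
    omega
  · intro i _
    rw [← e_add]
    congr 1
    push_cast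
    ring

theorem continuous_V (A H : ℕ) : Continuous (V A H) := by
  unfold V
  fun_prop

theorem V_add_int (A H : ℕ) (y : ℝ) (k : ℤ) : V A H (y + k) = V A H y := by
  rw [V_eq, V_eq]
  refine sum_congr rfl fun t _ => ?_
  rw [e_eq_of_sub_int (x := t * (y + k)) (y := t * y) (t * k) (by push_cast; ring)]

theorem Keraux.norm_neg_sum (n : ℕ) (y : ℝ) :
    ‖∑ j ∈ range n, e (-(j * y))‖ = ‖∑ j ∈ range n, e (j * y)‖ := by
  simp only [e_neg]
  rw [← map_sum, Complex.norm_conj]

theorem Keraux.norm_V (A H : ℕ) (y : ℝ) :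
    ‖V A H y‖ = 1 / H * ‖∑ j ∈ range A, e (j * y)‖ * ‖∑ j ∈ range H, e (j * y)‖ := by
  rw [V, norm_mul, norm_mul, Keraux.norm_neg_sum]
  simp

theorem Keraux.integral_e (t : ℤ) :
    ∫ y in (-1 / 2 : ℝ)..(1 / 2), e (t * y) = if t = 0 then 1 else 0 := by
  have := integral_e_int t (-1 / 2)
  norm_num at this ⊢
  exact this

theorem Keraux.parseval (n : ℕ) :
    ∫ y in (-1 / 2 : ℝ)..(1 / 2), ‖∑ j ∈ range n, e (j * y)‖ ^ 2 = n := by
  have h1 : ∀ y : ℝ, ((‖∑ j ∈ range n, e (j * y)‖ ^ 2 : ℝ) : ℂ) =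
      ∑ i ∈ range n, ∑ j ∈ range n, e ((((i : ℤ) - j : ℤ) : ℝ) * y) := by
    intro y
    push_cast
    rw [← Complex.mul_conj', map_sum, sum_mul_sum]
    refine sum_congr rfl fun i _ => sum_congr rfl fun j _ => ?_
    rw [← e_sub]
    congr 1
    ring
  apply Complex.ofReal_injective
  rw [← intervalIntegral.integral_ofReal]
  simp only [h1]
  rw [intervalIntegral.integral_finsetSum
    (fun i _ => Continuous.intervalIntegrable (by fun_prop) _ _)]
  have h2 : ∀ i ∈ range n, ∫ y in (-1 / 2 : ℝ)..(1 / 2),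
      ∑ j ∈ range n, e ((((i : ℤ) - j : ℤ) : ℝ) * y) = 1 := by
    intro i hi
    rw [intervalIntegral.integral_finsetSum
      (fun i _ => Continuous.intervalIntegrable (by fun_prop) _ _)]
    simp only [Keraux.integral_e, sub_eq_zero, Nat.cast_inj]
    simp [mem_range.1 hi]
  rw [sum_congr rfl h2]
  simp

theorem norm_V_le {A H : ℕ} (hH : 0 < H) {y : ℝ} (hy0 : y ≠ 0) (hy : |y| ≤ 1 / 2) :
    ‖V A H y‖ ≤ 1 / (4 * H * y ^ 2) := by
  have h1 := norm_geom_le hy0 hy A
  have h2 := norm_geom_le hy0 hy H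
  have hpos : 0 < |y| := abs_pos.2 hy0
  rw [Keraux.norm_V]
  calc _ ≤ 1 / (H : ℝ) * (1 / (2 * |y|)) * (1 / (2 * |y|)) := by gcongr
    _ = _ := by
      rw [← sq_abs y]
      field_simp
      norm_num

theorem integral_norm_V_le {A H : ℕ} (hH : 0 < H) :
    ∫ y in (-1 / 2 : ℝ)..(1 / 2), ‖V A H y‖ ≤ Real.sqrt (A / H) := by
  rcases Nat.eq_zero_or_pos A with rfl | hA
  · simp [V]
  have hH' : (0 : ℝ) < H := by exact_mod_cast hH
  have hA' : (0 : ℝ) < A := by exact_mod_cast hA
  set ρ := Real.sqrt (A / H) with hρ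
  have hρ0 : 0 < ρ := Real.sqrt_pos.2 (by positivity)
  have hρ2 : ρ ^ 2 = A / H := Real.sq_sqrt (by positivity)
  have i1 : ∀ n : ℕ, IntervalIntegrable (fun y : ℝ => ‖∑ j ∈ range n, e (j * y)‖ ^ 2)
      MeasureTheory.volume (-1 / 2) (1 / 2) :=
    fun n => Continuous.intervalIntegrable (by fun_prop) _ _
  calc _ ≤ ∫ y in (-1 / 2 : ℝ)..(1 / 2), (1 / (2 * H * ρ) * ‖∑ j ∈ range A, e (j * y)‖ ^ 2 +
          ρ / (2 * H) * ‖∑ j ∈ range H, e (j * y)‖ ^ 2) := by
        apply intervalIntegral.integral_mono_on (by norm_num)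
          ((continuous_V A H).norm.intervalIntegrable _ _) (((i1 A).const_mul _).add ((i1 H).const_mul _))
        intro y _
        rw [Keraux.norm_V]
        set u := ‖∑ j ∈ range A, e (j * y)‖
        set v := ‖∑ j ∈ range H, e (j * y)‖
        have : 1 / (2 * H * ρ) * u ^ 2 + ρ / (2 * H) * v ^ 2 - 1 / H * u * v =
            (u - ρ * v) ^ 2 / (2 * H * ρ) := by
          field_simp; ring
        have h2 : 0 ≤ (u - ρ * v) ^ 2 / (2 * H * ρ) := by positivity
        linarith
    _ = ρ := by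
        rw [intervalIntegral.integral_add ((i1 A).const_mul _) ((i1 H).const_mul _),
          intervalIntegral.integral_const_mul, intervalIntegral.integral_const_mul, Keraux.parseval,
          Keraux.parseval]
        have : (A : ℝ) = ρ ^ 2 * H := by rw [hρ2]; field_simp
        rw [this]
        field_simp
        norm_num

theorem kernel_approx {A H : ℕ} (hH : 0 < H) {τ : ℤ} (h0 : 0 ≤ τ) (h1 : τ + H ≤ A)
    {Ψ : ℝ → ℝ} (hΨ : Continuous Ψ) {B b : ℝ} (hB : 0 < B) (hb : 0 ≤ b)
    (h : ∀ y, |y| ≤ 1 / 2 → |Ψ y + τ * y| ≤ B * y ^ 2 + b) :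
    ‖(∫ y in (-1 / 2 : ℝ)..(1 / 2), V A H y * e (Ψ y)) - 1‖ ≤
      10 * Real.sqrt B / H + 7 * b * Real.sqrt (A / H) := by
  have hH' : (0 : ℝ) < H := by exact_mod_cast hH
  have cV := continuous_V A H
  have hπ := Real.pi_pos
  have hπ2 := Real.pi_lt_d2
  have e1 : ∫ y in (-1 / 2 : ℝ)..(1 / 2), V A H y * e (-(τ * y)) = 1 := by
    have : ∀ y : ℝ, V A H y * e (-(τ * y)) =
        ∑ t ∈ Ico (1 - (H : ℤ)) A, (vhat A H t : ℂ) * e (((t - τ : ℤ) : ℝ) * y) := by
      intro y
      rw [V_eq, sum_mul]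
      refine sum_congr rfl fun t _ => ?_
      rw [mul_assoc, ← e_add]
      congr 2
      push_cast
      ring
    simp only [this]
    rw [intervalIntegral.integral_finsetSum
      (fun i _ => Continuous.intervalIntegrable (by fun_prop) _ _)]
    simp only [intervalIntegral.integral_const_mul, Keraux.integral_e, sub_eq_zero, mul_ite, mul_one,
      mul_zero]
    rw [sum_ite_eq', if_pos (by simp only [mem_Ico]; omega), vhat_eq_one hH h0 h1]
    simp
  rw [← e1, ← intervalIntegral.integral_sub (Continuous.intervalIntegrable (by fun_prop) _ _)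
    (Continuous.intervalIntegrable (by fun_prop) _ _)]
  have cq : Continuous fun y : ℝ => B / (1 + B * y ^ 2) :=
    continuous_const.div (by fun_prop) fun y => by positivity
  have i1 : IntervalIntegrable (fun y : ℝ => Real.pi / H * (B / (1 + B * y ^ 2)))
      MeasureTheory.volume (-1 / 2) (1 / 2) := (cq.intervalIntegrable _ _).const_mul _
  have i2 : IntervalIntegrable (fun y : ℝ => 2 * Real.pi * b * ‖V A H y‖)
      MeasureTheory.volume (-1 / 2) (1 / 2) := (cV.norm.intervalIntegrable _ _).const_mul _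
  have e2 : ∫ y in (-1 / 2 : ℝ)..(1 / 2), B / (1 + B * y ^ 2) ≤ Real.pi * Real.sqrt B := by
    have hs : 0 < Real.sqrt B := Real.sqrt_pos.2 hB
    have hss : Real.sqrt B ^ 2 = B := Real.sq_sqrt hB.le
    rw [intervalIntegral.integral_eq_sub_of_hasDerivAt
      (f := fun y => Real.sqrt B * Real.arctan (Real.sqrt B * y)) _ (cq.intervalIntegrable _ _)]
    · have a1 := Real.arctan_lt_pi_div_two (Real.sqrt B * (1 / 2))
      have a2 := Real.neg_pi_div_two_lt_arctan (Real.sqrt B * (-1 / 2))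
      nlinarith
    · intro y _
      refine ((((hasDerivAt_id y).const_mul (Real.sqrt B)).arctan).const_mul (Real.sqrt B)).congr_deriv ?_
      simp only [id, mul_pow, hss]
      field_simp
      exact hss
  refine (intervalIntegral.norm_integral_le_of_norm_le (by norm_num) ?_ (i1.add i2)).trans ?_
  · refine Filter.Eventually.of_forall fun y hy => ?_
    have hy' : |y| ≤ 1 / 2 := abs_le.2 ⟨by linarith [hy.1], hy.2⟩
    rw [← mul_sub, norm_mul]
    set m := ‖e (Ψ y) - e (-(τ * y))‖ with hm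
    have m1 : m ≤ 2 := norm_e_sub_e_le_two _ _
    have m2 : m ≤ 2 * Real.pi * (B * y ^ 2 + b) := by
      refine (norm_e_sub_e_le _ _).trans ?_
      rw [sub_neg_eq_add]
      exact mul_le_mul_of_nonneg_left (h y hy') (by positivity)
    have hb' : 0 ≤ 2 * Real.pi * b := by positivity
    have key : ‖V A H y‖ * (m - 2 * Real.pi * b) ≤ Real.pi / H * (B / (1 + B * y ^ 2)) := by
      by_cases hm0 : m - 2 * Real.pi * b ≤ 0
      · exact (mul_nonpos_of_nonneg_of_nonpos (norm_nonneg _) hm0).trans (by positivity)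
      have hy0 : y ≠ 0 := by
        rintro rfl
        apply hm0
        simp only [ne_eq, OfNat.ofNat_ne_zero, not_false_eq_true, zero_pow, mul_zero, zero_add] at m2
        linarith
      have hy2 : 0 < y ^ 2 := by positivity
      have hBy : 0 < B * y ^ 2 := by positivity
      have k1 : m - 2 * Real.pi * b ≤ 4 * Real.pi * (B * y ^ 2) / (1 + B * y ^ 2) := by
        rw [le_div_iff₀ (by positivity)]
        have := Real.pi_gt_three
        nlinarith
      calc _ ≤ 1 / (4 * H * y ^ 2) * (4 * Real.pi * (B * y ^ 2) / (1 + B * y ^ 2)) :=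
            mul_le_mul (norm_V_le hH hy0 hy') k1 (not_le.1 hm0).le (by positivity)
        _ = _ := by field_simp
    nlinarith
  · rw [intervalIntegral.integral_add i1 i2, intervalIntegral.integral_const_mul,
      intervalIntegral.integral_const_mul]
    have f1 : Real.pi / H * ∫ y in (-1 / 2 : ℝ)..(1 / 2), B / (1 + B * y ^ 2) ≤
        10 * Real.sqrt B / H := by
      refine (mul_le_mul_of_nonneg_left e2 (by positivity)).trans ?_
      rw [div_mul_eq_mul_div, ← mul_assoc]
      gcongr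
      nlinarith
    have f2 : 2 * Real.pi * b * ∫ y in (-1 / 2 : ℝ)..(1 / 2), ‖V A H y‖ ≤
        7 * b * Real.sqrt (A / H) := by
      refine (mul_le_mul_of_nonneg_left (integral_norm_V_le hH) (by positivity)).trans ?_
      gcongr
      linarith
    linarith

end Crest.Agent.R75
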