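import Crest.Agent.R75.AN1
import Crest.Agent.R75.Kernel

/-!
# Row 75: convolution of one tile with the trapezoid kernel
-/

set_option autoImplicit false

open Finset

namespace Crest.Agent.R75.ANaux

lemma conj_V (A H : ℕ) (y : ℝ) : (starRingEnd ℂ) (V A H y) = V A H (-y) := by
  unfold V
  simp only [map_mul, map_sum, conj_e, map_div₀, map_one, Complex.conj_natCast, mul_neg]

lemma integral_V {A H : ℕ} (hH : 0 < H) (hHA : H ≤ A) (θ : ℝ) :
    ∫ x in (0 : ℝ)..1, V A H (θ - x) = 1 := by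
  rw [intervalIntegral.integral_comp_sub_left (fun x => V A H x) θ]
  simp_rw [V_eq]
  rw [intervalIntegral.integral_finsetSum (fun t _ =>
    (by fun_prop : Continuous fun x : ℝ => (vhat A H t : ℂ) * e (t * x)).intervalIntegrable _ _)]
  simp_rw [intervalIntegral.integral_const_mul]
  have h : ∀ t : ℤ, ∫ x in (θ - 1)..(θ - 0), e (t * x) = if t = 0 then 1 else 0 := by
    intro t
    have := integral_e_int t (θ - 1)
    rwa [show θ - 1 + 1 = θ - 0 by ring] at this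
  simp_rw [h]
  rw [sum_eq_single 0]
  · rw [vhat_eq_one hH le_rfl (by simpa using hHA)]; simp
  · intro t _ ht; simp [ht]
  · intro h0
    exact absurd (mem_Ico.mpr ⟨by omega, by omega⟩) h0

lemma window {A H : ℕ} (hH : 0 < H) (hHA : H ≤ A) {φ : ℝ → ℝ} (hφ : Continuous φ) {B b : ℝ}
    (hB : 0 < B) (hb : 0 ≤ b) (x : ℝ)
    (h : ∃ τ : ℤ, 0 ≤ τ ∧ τ + H ≤ A ∧
      ∀ y, |y| ≤ 1 / 2 → |φ (x - y) - φ x + τ * y| ≤ B * y ^ 2 + b) :
    ‖(∫ y in (x - 1 / 2)..(x + 1 / 2), (e (φ y) - 1) * V A H (x - y)) - (e (φ x) - 1)‖ ≤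
      2 * (10 * Real.sqrt B / H + 7 * b * Real.sqrt (A / H)) := by
  obtain ⟨τ, h0, h1, h2⟩ := h
  have k1 := kernel_approx hH h0 h1 (Ψ := fun y => φ (x - y) - φ x) (by fun_prop) hB hb h2
  have k2 := kernel_approx (A := A) hH (τ := 0) le_rfl (by simpa using hHA) (Ψ := fun _ => 0)
    continuous_const hB hb (fun y _ => by simp; positivity)
  have hV := continuous_V A H
  have h3 : ∫ y in (x - 1 / 2)..(x + 1 / 2), (e (φ y) - 1) * V A H (x - y) =
      e (φ x) * (∫ y in (-1 / 2 : ℝ)..(1 / 2), V A H y * e (φ (x - y) - φ x)) -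
        ∫ y in (-1 / 2 : ℝ)..(1 / 2), V A H y * e 0 := by
    have := intervalIntegral.integral_comp_sub_left (a := (-1 / 2 : ℝ)) (b := 1 / 2)
      (fun y => (e (φ y) - 1) * V A H (x - y)) x
    rw [show x - -1 / 2 = x + 1 / 2 by ring] at this
    rw [← this, ← intervalIntegral.integral_const_mul, ← intervalIntegral.integral_sub
      ((by fun_prop : Continuous _).intervalIntegrable _ _)
      ((by fun_prop : Continuous _).intervalIntegrable _ _)]
    refine intervalIntegral.integral_congr fun y _ => ?_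
    have : e (φ (x - y)) = e (φ x) * e (φ (x - y) - φ x) := by rw [← e_add]; congr 1; ring
    rw [this, sub_sub_cancel, e_zero]
    ring
  rw [h3]
  set I₁ := ∫ y in (-1 / 2 : ℝ)..(1 / 2), V A H y * e (φ (x - y) - φ x)
  set I₂ := ∫ y in (-1 / 2 : ℝ)..(1 / 2), V A H y * e 0
  have h4 : e (φ x) * I₁ - I₂ - (e (φ x) - 1) = e (φ x) * (I₁ - 1) - (I₂ - 1) := by ring
  rw [h4]
  refine (norm_sub_le _ _).trans ?_
  rw [norm_mul, norm_e, one_mul]
  linarith

lemma conv_tile {A H : ℕ} (hH : 0 < H) (hHA : H ≤ A) {φ : ℝ → ℝ} (hφ : Continuous φ)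
    {B b θ₀ l : ℝ} (hB : 0 < B) (hb : 0 ≤ b) (hl : l ≤ 1)
    (hs : ∀ x, x ≤ θ₀ ∨ θ₀ + l ≤ x → e (φ x) = 1)
    (h : ∀ x, ∃ τ : ℤ, 0 ≤ τ ∧ τ + H ≤ A ∧
      ∀ y, |y| ≤ 1 / 2 → |φ (x - y) - φ x + τ * y| ≤ B * y ^ 2 + b) (θ : ℝ) :
    ‖(∫ x in θ₀..(θ₀ + l), (e (φ x) - 1) * V A H (θ - x)) -
      (e (φ (θ₀ + Int.fract (θ - θ₀))) - 1)‖ ≤
      6 * (10 * Real.sqrt B / H + 7 * b * Real.sqrt (A / H)) := by
  set x₁ := θ₀ + Int.fract (θ - θ₀) with hx₁
  have hf0 := Int.fract_nonneg (θ - θ₀)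
  have hf1 := Int.fract_lt_one (θ - θ₀)
  have hV := continuous_V A H
  have hper : ∀ (j : ℤ) (x : ℝ), V A H (θ - x) = V A H (x₁ + j - x) := by
    intro j x
    rw [← V_add_int A H (x₁ + j - x) (⌊θ - θ₀⌋ - j), hx₁, Int.fract]
    congr 1
    push_cast
    ring
  have hint : ∀ p q : ℝ, IntervalIntegrable (fun x => (e (φ x) - 1) * V A H (θ - x))
      MeasureTheory.volume p q := fun p q => (by fun_prop : Continuous _).intervalIntegrable p q
  have hz1 : ∫ x in (x₁ - 1 - 1 / 2)..θ₀, (e (φ x) - 1) * V A H (θ - x) = 0 := by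
    rw [intervalIntegral.integral_congr (g := fun _ => (0 : ℂ))]
    · simp
    · intro x hx
      rw [Set.uIcc_of_le (by linarith)] at hx
      dsimp only
      rw [hs x (Or.inl hx.2), sub_self, zero_mul]
  have hz2 : ∫ x in (θ₀ + l)..(x₁ + 1 + 1 / 2), (e (φ x) - 1) * V A H (θ - x) = 0 := by
    rw [intervalIntegral.integral_congr (g := fun _ => (0 : ℂ))]
    · simp
    · intro x hx
      rw [Set.uIcc_of_le (by linarith)] at hx
      dsimp only
      rw [hs x (Or.inr hx.1), sub_self, zero_mul]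
  have h1 : ∫ x in θ₀..(θ₀ + l), (e (φ x) - 1) * V A H (θ - x) =
      (∫ x in (x₁ - 1 - 1 / 2)..(x₁ - 1 + 1 / 2), (e (φ x) - 1) * V A H (θ - x)) +
      (∫ x in (x₁ - 1 / 2)..(x₁ + 1 / 2), (e (φ x) - 1) * V A H (θ - x)) +
      ∫ x in (x₁ + 1 - 1 / 2)..(x₁ + 1 + 1 / 2), (e (φ x) - 1) * V A H (θ - x) := by
    rw [show x₁ - 1 + 1 / 2 = x₁ - 1 / 2 by ring, show x₁ + 1 - 1 / 2 = x₁ + 1 / 2 by ring,
      intervalIntegral.integral_add_adjacent_intervals (hint _ _) (hint _ _),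
      intervalIntegral.integral_add_adjacent_intervals (hint _ _) (hint _ _),
      ← intervalIntegral.integral_add_adjacent_intervals (hint (x₁ - 1 - 1 / 2) θ₀) (hint θ₀ _),
      ← intervalIntegral.integral_add_adjacent_intervals (hint θ₀ (θ₀ + l))
        (hint (θ₀ + l) (x₁ + 1 + 1 / 2)),
      hz1, hz2, zero_add, add_zero]
  have w1 := window hH hHA hφ hB hb (x₁ - 1) (h _)
  have w2 := window hH hHA hφ hB hb x₁ (h _)
  have w3 := window hH hHA hφ hB hb (x₁ + 1) (h _)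
  rw [hs (x₁ - 1) (Or.inl (by linarith)), sub_self, sub_zero] at w1
  rw [hs (x₁ + 1) (Or.inr (by linarith)), sub_self, sub_zero] at w3
  have e1 : ∀ x, V A H (θ - x) = V A H (x₁ - 1 - x) := fun x => by
    rw [hper (-1)]; congr 1; push_cast; ring
  have e2 : ∀ x, V A H (θ - x) = V A H (x₁ - x) := fun x => by
    rw [hper 0]; congr 1; push_cast; ring
  have e3 : ∀ x, V A H (θ - x) = V A H (x₁ + 1 - x) := fun x => by
    rw [hper 1]; congr 1; push_cast; ring
  simp_rw [← e1] at w1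
  simp_rw [← e2] at w2
  simp_rw [← e3] at w3
  rw [h1]
  set I₁ := ∫ x in (x₁ - 1 - 1 / 2)..(x₁ - 1 + 1 / 2), (e (φ x) - 1) * V A H (θ - x)
  set I₂ := ∫ x in (x₁ - 1 / 2)..(x₁ + 1 / 2), (e (φ x) - 1) * V A H (θ - x)
  set I₃ := ∫ x in (x₁ + 1 - 1 / 2)..(x₁ + 1 + 1 / 2), (e (φ x) - 1) * V A H (θ - x)
  have h4 : I₁ + I₂ + I₃ - (e (φ x₁) - 1) = I₁ + (I₂ - (e (φ x₁) - 1)) + I₃ := by ring
  rw [h4]
  have := norm_add₃_le (a := I₁) (b := I₂ - (e (φ x₁) - 1)) (c := I₃)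
  linarith

/-- the polynomial with coefficients `vhat t * 2 Re ∫ e (φ x - t x)` as a convolution -/
lemma sum_coeff (A H : ℕ) {φ : ℝ → ℝ} (hφ : Continuous φ) (p q θ : ℝ) :
    ∑ t ∈ Ico (1 - (H : ℤ)) A,
      ((vhat A H t * (2 * (∫ x in p..q, e (φ x - t * x)).re) : ℝ) : ℂ) * e (t * θ) =
      (∫ x in p..q, e (φ x) * V A H (θ - x)) +
        (starRingEnd ℂ) (∫ x in p..q, e (φ x) * V A H (-θ - x)) := by
  have key : ∀ θ : ℝ, ∫ x in p..q, e (φ x) * V A H (θ - x) =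
      ∑ t ∈ Ico (1 - (H : ℤ)) A, (vhat A H t : ℂ) * (∫ x in p..q, e (φ x - t * x)) * e (t * θ) := by
    intro θ
    simp_rw [V_eq, mul_sum]
    rw [intervalIntegral.integral_finsetSum (fun t _ =>
      (by fun_prop : Continuous _).intervalIntegrable _ _)]
    refine sum_congr rfl fun t _ => ?_
    rw [← intervalIntegral.integral_const_mul, ← intervalIntegral.integral_mul_const]
    refine intervalIntegral.integral_congr fun x _ => ?_
    have : e (φ x) * e (t * (θ - x)) = e (φ x - t * x) * e (t * θ) := by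
      rw [← e_add, ← e_add]; congr 1; ring
    linear_combination (vhat A H t : ℂ) * this
  rw [key θ, key (-θ), map_sum, ← sum_add_distrib]
  refine sum_congr rfl fun t _ => ?_
  rw [map_mul, map_mul, Complex.conj_ofReal, conj_e, mul_neg, neg_neg, Complex.ofReal_mul,
    ← Complex.add_conj]
  ring

/-- the whole polynomial is close to a unimodular function -/
lemma conv_all {ε : ℝ} (F : Model ε) (hF : F.Covers) {A H : ℕ} (hH : 0 < H) (hHA : H ≤ A)
    (φ : F.T → ℝ → ℝ) (hφ : ∀ i, Continuous (φ i)) {B b : ℝ} (hB : 0 < B) (hb : 0 ≤ b)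
    (hs : ∀ i (x : ℝ), x ≤ F.st i / F.W ∨ F.st i / F.W + F.len i / F.W ≤ x → e (φ i x) = 1)
    (h : ∀ i x, ∃ τ : ℤ, 0 ≤ τ ∧ τ + H ≤ A ∧
      ∀ y, |y| ≤ 1 / 2 → |φ i (x - y) - φ i x + τ * y| ≤ B * y ^ 2 + b) (θ : ℝ) :
    |‖∑ t ∈ Ico (1 - (H : ℤ)) A, ((vhat A H t * ∑ i, 2 * (∫ x in (F.st i / F.W : ℝ)..
        (F.st i / F.W + F.len i / F.W), e (φ i x - t * x)).re : ℝ) : ℂ) * e (t * θ)‖ - 1| ≤
      Fintype.card F.T * (12 * (10 * Real.sqrt B / H + 7 * b * Real.sqrt (A / H))) := by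
  have hW : (0 : ℝ) < F.W := by exact_mod_cast F.hW
  have hV := continuous_V A H
  have h1 : ∑ t ∈ Ico (1 - (H : ℤ)) A, ((vhat A H t * ∑ i, 2 * (∫ x in (F.st i / F.W : ℝ)..
        (F.st i / F.W + F.len i / F.W), e (φ i x - t * x)).re : ℝ) : ℂ) * e (t * θ) =
      ∑ i, ((∫ x in (F.st i / F.W : ℝ)..(F.st i / F.W + F.len i / F.W),
          e (φ i x) * V A H (θ - x)) +
        (starRingEnd ℂ) (∫ x in (F.st i / F.W : ℝ)..(F.st i / F.W + F.len i / F.W),
          e (φ i x) * V A H (-θ - x))) := by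
    simp_rw [← sum_coeff A H (hφ _)]
    rw [sum_comm]
    refine sum_congr rfl fun t _ => ?_
    rw [mul_sum, Complex.ofReal_sum, sum_mul]
  have h2 := cover_integral F hF (G := fun x => V A H (θ - x)) (by fun_prop) (fun x k => by
    rw [← V_add_int A H (θ - (x + k)) k]; congr 1; ring)
  rw [integral_V hH hHA] at h2
  have h3 : ∀ (i : F.T) (θ : ℝ), ∫ x in (F.st i / F.W : ℝ)..(F.st i / F.W + F.len i / F.W),
      e (φ i x) * V A H (θ - x) =
      (∫ x in (F.st i / F.W : ℝ)..(F.st i / F.W + F.len i / F.W), V A H (θ - x)) +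
      ∫ x in (F.st i / F.W : ℝ)..(F.st i / F.W + F.len i / F.W),
        (e (φ i x) - 1) * V A H (θ - x) := by
    intro i θ
    have := hφ i
    rw [← intervalIntegral.integral_add ((by fun_prop : Continuous _).intervalIntegrable _ _)
      ((by fun_prop : Continuous _).intervalIntegrable _ _)]
    refine intervalIntegral.integral_congr fun x _ => ?_
    ring
  have h4 : ∀ i : F.T, (starRingEnd ℂ) (∫ x in (F.st i / F.W : ℝ)..(F.st i / F.W + F.len i / F.W),
      V A H (-θ - x)) = ∫ x in (F.st i / F.W : ℝ)..(F.st i / F.W + F.len i / F.W),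
      V A H (θ - -x) := by
    intro i
    rw [← intervalIntegral.intervalIntegral_conj]
    refine intervalIntegral.integral_congr fun x _ => ?_
    rw [conj_V]; congr 1; ring
  have h5 := unimod F φ hs θ
  set U := 1 + ∑ i, ((e (φ i (F.st i / F.W + Int.fract (θ - F.st i / F.W))) - 1) +
      (starRingEnd ℂ) (e (φ i (F.st i / F.W + Int.fract (-θ - F.st i / F.W))) - 1)) with hU
  rw [h1, ← h5]
  refine (abs_norm_sub_norm_le _ _).trans ?_
  simp_rw [h3, map_add, h4]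
  have h6 : ∀ (a b c d a' b' : F.T → ℂ), ∑ i, (a i + c i) = 1 →
      ∑ i, (a i + b i + (c i + (starRingEnd ℂ) (d i))) -
        (1 + ∑ i, (a' i + (starRingEnd ℂ) (b' i))) =
      ∑ i, ((b i - a' i) + (starRingEnd ℂ) (d i - b' i)) := by
    intro a b c d a' b' h
    rw [← h, ← sum_add_distrib, ← sum_sub_distrib]
    refine sum_congr rfl fun i _ => ?_
    rw [map_sub]; ring
  rw [hU, h6 _ _ _ _ _ _ h2]
  refine (norm_sum_le _ _).trans ?_
  rw [← card_univ, ← nsmul_eq_mul]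
  refine sum_le_card_nsmul _ _ _ fun i _ => ?_
  have hl : (F.len i : ℝ) / F.W ≤ 1 := by
    rw [div_le_one hW]; exact_mod_cast len_le F i
  have k1 := conv_tile hH hHA (hφ i) hB hb hl (hs i) (h i) θ
  have k2 := conv_tile hH hHA (hφ i) hB hb hl (hs i) (h i) (-θ)
  refine (norm_add_le _ _).trans ?_
  rw [Complex.norm_conj]
  linarith

end Crest.Agent.R75.ANaux
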