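import Crest.Agent.Lib.Osc.All
import Crest.Agent.R75.AGauss

/-! Fourier series of a train of windowed chirps modulated by a sequence mod `ℓ`. -/

set_option autoImplicit false

namespace Crest.Agent.R75.TA

open Finset Complex Filter Topology Crest.Agent.Osc
open scoped Real

lemma pulse_series (p : ℝ → ℂ) (hc : Continuous p) (hz : ∀ t, 1 / 2 ≤ |t| → p t = 0) (L : ℝ)
    (hL : 1 ≤ L) (J : ℤ → ℂ)
    (hJ : ∀ m : ℤ, J m = ∫ t in (-1 / 2 : ℝ)..(1 / 2), p t * cexp (-(2 * π * m * t / L : ℝ) * I))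
    (hs : Summable J) (x : ℝ) :
    ∃ k : ℤ, |x - k * L| ≤ L / 2 ∧
      HasSum (fun m : ℤ => (1 / L : ℝ) * J m * cexp ((2 * π * m * x / L : ℝ) * I))
        (p (x - k * L)) := by
  have hL0 : 0 < L := by linarith
  have : Fact (0 < L) := ⟨hL0⟩
  let f : ℝ → ℂ := fun y => AddCircle.liftIoc L (-L / 2) p (y : AddCircle L)
  have hfc : Continuous f := by
    refine (AddCircle.liftIoc_continuous ?_ hc.continuousOn).comp (AddCircle.continuous_mk' L)
    rw [hz _ (by rw [abs_of_neg (by linarith)]; linarith),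
      hz _ (by rw [abs_of_pos (by linarith)]; linarith)]
  have hfp : Function.Periodic f L := fun y => by simp only [f, AddCircle.coe_add_period]
  have hfe : ∀ y ∈ Set.Ioc (-L / 2) (-L / 2 + L), f y = p y := fun y hy =>
    AddCircle.liftIoc_coe_apply hy
  have key := hasSum_fourier_periodic (a := -L / 2) hL0 hfc hfp (fun m => (1 / L : ℝ) * J m)
    (fun m => by
      congr 1
      rw [hJ, ← integral_extend (a := -L / 2) (b := -L / 2 + L) (by fun_prop)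
        (fun t ht => by rw [hz t ht, zero_mul]) (by linarith) (by linarith)]
      refine intervalIntegral.integral_congr_ae (Eventually.of_forall fun y hy => ?_)
      rw [Set.uIoc_of_le (by linarith)] at hy
      rw [hfe y hy]) (hs.mul_left _) x
  refine ⟨toIocDiv hL0 (-L / 2) x, ?_, ?_⟩
  · have h1 := toIocMod_mem_Ioc hL0 (-L / 2) x
    rw [← self_sub_toIocDiv_zsmul, zsmul_eq_mul] at h1
    rw [abs_le]; constructor <;> linarith [h1.1, h1.2]
  · have h1 := toIocMod_mem_Ioc hL0 (-L / 2) x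
    rw [← self_sub_toIocDiv_zsmul, zsmul_eq_mul] at h1
    rw [← hfe _ h1, hfp.sub_int_mul_eq]
    exact key

lemma train_series (p : ℝ → ℂ) (hc : Continuous p) (hz : ∀ t, 1 / 2 ≤ |t| → p t = 0) (ℓ : ℕ)
    [NeZero ℓ] (hℓ : 2 ≤ ℓ) (J : ℤ → ℂ)
    (hJ : ∀ m : ℤ, J m = ∫ t in (-1 / 2 : ℝ)..(1 / 2), p t * cexp (-(2 * π * m * t / ℓ : ℝ) * I))
    (hs : Summable J) (s : ZMod ℓ → ℂ) (v : ℝ) :
    HasSum (fun m : ℤ => dft ℓ s m * J m * cexp ((m * v : ℝ) * I))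
      (s (round (ℓ * v / (2 * π)) : ℤ) * p (ℓ * v / (2 * π) - round (ℓ * v / (2 * π)))) := by
  have hℓ' : (2 : ℝ) ≤ ℓ := by exact_mod_cast hℓ
  have hπ := Real.pi_pos
  set x : ℝ := ℓ * v / (2 * π) with hx
  have h1 := fun j : ZMod ℓ => pulse_series p hc hz ℓ (by linarith) J hJ hs (x - j.val)
  choose k hk hsum using h1
  have h2 := hasSum_sum (s := Finset.univ) (fun j _ => (hsum j).mul_left (s j))
  have HasSum_congr : ∀ {f g : ℤ → ℂ} {a b : ℂ}, HasSum f a → g = f → b = a → HasSum g b := by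
    rintro f g a b h rfl rfl; exact h
  refine HasSum_congr h2 ?_ ?_
  · ext m
    rw [dft, Finset.mul_sum, Finset.sum_mul, Finset.sum_mul]
    refine Finset.sum_congr rfl fun j _ => ?_
    have h3 : j * (-(m : ZMod ℓ)) = ((-(j.val * m) : ℤ) : ZMod ℓ) := by
      push_cast; rw [ZMod.natCast_zmod_val]; ring
    rw [h3, ZMod.stdAddChar_coe]
    have h4 : cexp (((2 * π * m * (x - j.val) / ℓ : ℝ) : ℂ) * I) =
        cexp (2 * π * I * ((-(j.val * m) : ℤ) : ℂ) / ℓ) * cexp ((m * v : ℝ) * I) := by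
      rw [← Complex.exp_add]
      congr 1
      have h5 : (ℓ : ℂ) ≠ 0 := by exact_mod_cast (by omega : ℓ ≠ 0)
      have h6 : (π : ℂ) ≠ 0 := by exact_mod_cast hπ.ne'
      rw [hx]; push_cast; field_simp; ring
    rw [h4]; push_cast; ring
  · have ht := abs_sub_round x
    rw [Finset.sum_eq_single ((round x : ℤ) : ZMod ℓ)]
    · congr 2
      set j : ZMod ℓ := ((round x : ℤ) : ZMod ℓ) with hj
      have h3 : (ℓ : ℤ) ∣ round x - j.val := by
        rw [← ZMod.intCast_zmod_eq_zero_iff_dvd]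
        push_cast; rw [ZMod.natCast_zmod_val, hj, sub_self]
      obtain ⟨c, hc⟩ := h3
      have h4 : ((j.val : ℕ) : ℝ) = round x - ℓ * c := by
        have : ((j.val : ℕ) : ℤ) = round x - ℓ * c := by linarith
        exact_mod_cast congrArg (fun z : ℤ => (z : ℝ)) this
      have h5 := hk j
      rw [h4] at h5 ⊢
      have h6 : c = k j := by
        by_contra hne
        have h7 : (1 : ℝ) ≤ |(c : ℝ) - k j| := by
          have : (1 : ℤ) ≤ |c - k j| := Int.one_le_abs (sub_ne_zero.2 hne)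
          exact_mod_cast this
        have h8 : (ℓ : ℝ) * (c - k j) = (x - (round x - ℓ * c) - k j * ℓ) - (x - round x) := by ring
        have h9 : |(ℓ : ℝ) * (c - k j)| ≤ ℓ / 2 + 1 / 2 := by
          rw [h8]; exact (abs_sub _ _).trans (add_le_add h5 ht)
        rw [abs_mul, abs_of_pos (by linarith)] at h9
        nlinarith
      rw [h6]; ring
    · intro j _ hj
      rw [hz, mul_zero]
      have h3 : round x - j.val - k j * ℓ ≠ 0 := by
        intro h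
        apply hj
        have : round x = j.val + k j * ℓ := by linarith
        rw [this]; push_cast; simp
      have h4 : (1 : ℝ) ≤ |((round x - j.val - k j * ℓ : ℤ) : ℝ)| := by
        exact_mod_cast Int.one_le_abs h3
      have h5 : ((round x - j.val - k j * ℓ : ℤ) : ℝ) = (x - j.val - k j * ℓ) - (x - round x) := by
        push_cast; ring
      rw [h5] at h4
      have := abs_sub (x - j.val - k j * ℓ) (x - round x)
      linarith
    · simp

lemma summable_of_tail (a : ℤ → ℂ) (C : ℝ) (R : ℕ)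
    (h : ∀ m : ℤ, (R : ℤ) < |m| → ‖a m‖ ≤ C / (m : ℝ) ^ 2) : Summable a := by
  have h1 := (Real.summable_one_div_int_pow.2 (by norm_num : 1 < 2)).mul_left C
  refine h1.of_norm_bounded_eventually ?_
  refine (Finset.finite_toSet (Finset.Icc (-(R : ℤ)) R)).subset fun m hm => ?_
  simp only [Set.mem_compl_iff, Set.mem_ofPred_eq] at hm
  simp only [coe_Icc, Set.mem_Icc]
  by_contra h2
  apply hm
  rw [mul_one_div]
  refine h m ?_
  rw [← abs_le] at h2
  exact not_le.1 h2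

lemma tail_bound (a : ℤ → ℂ) (V : ℂ) (hV : HasSum a V) (C : ℝ) (hC : 0 ≤ C) (R : ℕ) (hR : 1 ≤ R)
    (h : ∀ m : ℤ, (R : ℤ) < |m| → ‖a m‖ ≤ C / (m : ℝ) ^ 2) :
    ‖∑ m ∈ Icc (-(R : ℤ)) R, a m - V‖ ≤ 2 * C / R := by
  have hR' : (1 : ℝ) ≤ R := by exact_mod_cast hR
  have h1 : ∀ N : ℕ, ‖∑ m ∈ Icc (-(R : ℤ)) R, a m - ∑ m ∈ Icc (-((R + N : ℕ) : ℤ)) (R + N : ℕ), a m‖
      ≤ 2 * C / R - 2 * C / (R + N) := by
    intro N
    induction N with
    | zero => simp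
    | succ N ih =>
      have e : Icc (-((R + (N + 1) : ℕ) : ℤ)) ((R + (N + 1) : ℕ) : ℤ) =
          insert ((R : ℤ) + N + 1) (insert (-((R : ℤ) + N + 1))
            (Icc (-((R + N : ℕ) : ℤ)) (R + N : ℕ))) := by
        ext j; simp only [mem_Icc, mem_insert]; push_cast; omega
      rw [e, Finset.sum_insert (by simp only [mem_Icc, mem_insert]; push_cast; omega),
        Finset.sum_insert (by simp only [mem_Icc]; push_cast; omega)]
      have h2 := h ((R : ℤ) + N + 1) (by rw [abs_of_nonneg (by positivity)]; omega)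
      have h3 := h (-((R : ℤ) + N + 1)) (by rw [abs_neg, abs_of_nonneg (by positivity)]; omega)
      push_cast at h2 h3 ⊢
      rw [neg_sq] at h3
      have hN : (0 : ℝ) ≤ N := Nat.cast_nonneg N
      have h4 : C / ((R : ℝ) + N + 1) ^ 2 ≤ C / (R + N) - C / (R + (N + 1)) := by
        have : C / ((R : ℝ) + N) - C / (R + (N + 1)) = C / ((R + N) * (R + N + 1)) := by
          field_simp; ring
        rw [this]
        gcongr
        nlinarith
      push_cast at ih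
      set P := ∑ m ∈ Icc (-(R : ℤ)) R, a m
      set Q := ∑ m ∈ Icc (-((R : ℤ) + N)) (R + N), a m
      have h5 : P - (a (R + N + 1) + (a (-(R + N + 1)) + Q)) =
          (P - Q) - a (R + N + 1) - a (-(R + N + 1)) := by ring
      rw [h5]
      have h6 := norm_sub_le ((P - Q) - a (R + N + 1)) (a (-(R + N + 1)))
      have h7 := norm_sub_le (P - Q) (a (R + N + 1))
      have h8 : 2 * C / ((R : ℝ) + N) = 2 * (C / (R + N)) := by ring
      have h9 : 2 * C / ((R : ℝ) + (N + 1)) = 2 * (C / (R + (N + 1))) := by ring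
      linarith
  have h2 : Tendsto (fun N : ℕ => ∑ m ∈ Icc (-((R + N : ℕ) : ℤ)) (R + N : ℕ), a m) atTop (𝓝 V) := by
    have h3 : Tendsto (fun N : ℕ => R + N) atTop atTop := by
      simpa [add_comm] using tendsto_add_atTop_nat R
    exact (hV.comp (Finset.tendsto_Icc_neg (R := ℤ))).comp h3
  refine le_of_tendsto ((tendsto_const_nhds.sub h2).norm) (Eventually.of_forall fun N => ?_)
  refine (h1 N).trans ?_
  have : 0 ≤ 2 * C / ((R : ℝ) + N) := by positivity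
  linarith

lemma card_dvd (ℓ R : ℕ) (hℓ : 1 ≤ ℓ) :
    ((Icc (-((ℓ * R : ℕ) : ℤ)) (ℓ * R : ℕ)).filter fun m => (ℓ : ℤ) ∣ m).card = 2 * R + 1 := by
  have hℓ' : (0 : ℤ) < ℓ := by exact_mod_cast hℓ
  have : ((Icc (-((ℓ * R : ℕ) : ℤ)) (ℓ * R : ℕ)).filter fun m => (ℓ : ℤ) ∣ m) =
      (Icc (-(R : ℤ)) R).image fun k => (ℓ : ℤ) * k := by
    ext m
    simp only [mem_filter, mem_Icc, mem_image]
    push_cast
    constructor
    · rintro ⟨⟨h1, h2⟩, k, rfl⟩
      refine ⟨k, ⟨?_, ?_⟩, rfl⟩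
      · rw [← mul_neg] at h1; exact le_of_mul_le_mul_left h1 hℓ'
      · exact le_of_mul_le_mul_left h2 hℓ'
    · rintro ⟨k, ⟨h1, h2⟩, rfl⟩
      refine ⟨⟨?_, ?_⟩, dvd_mul_right _ _⟩ <;> nlinarith
  rw [this, Finset.card_image_of_injective _ (mul_right_injective₀ hℓ'.ne'), Int.card_Icc]
  omega

lemma card_not_dvd (ℓ R : ℕ) (hℓ : 1 ≤ ℓ) :
    (((Icc (-((ℓ * R : ℕ) : ℤ)) (ℓ * R : ℕ)).filter fun m => ¬ (ℓ : ℤ) ∣ m).card : ℝ) =
      2 * R * (ℓ - 1) := by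
  have h1 := Finset.card_filter_add_card_filter_not (s := Icc (-((ℓ * R : ℕ) : ℤ)) (ℓ * R : ℕ))
    (fun m => (ℓ : ℤ) ∣ m)
  rw [card_dvd ℓ R hℓ, Int.card_Icc] at h1
  have h2 : (((ℓ * R : ℕ) : ℤ) + 1 - -((ℓ * R : ℕ) : ℤ)).toNat = 2 * (ℓ * R) + 1 := by omega
  rw [h2] at h1
  have h3 := congrArg (fun x : ℕ => (x : ℝ)) h1
  push_cast at h3
  push_cast
  linarith

/-- The pulse package. -/
theorem exists_pulse : ∃ K : ℝ, 1 ≤ K ∧ ∀ μ : ℝ, 0 < μ → μ ≤ 1 / 2 → ∃ w : ℝ → ℝ,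
    (∀ t, 0 ≤ w t ∧ w t ≤ 1) ∧ ∀ (ℓ : ℕ) [NeZero ℓ], 2 ≤ ℓ → ∀ l : ℝ, 1 ≤ l → ∃ J : ℤ → ℂ,
      (∀ m, ‖J m‖ ≤ √(2 * π / l) + K / μ * l ^ (-2 / 3 : ℝ)) ∧
      (∀ m : ℤ, |2 * π * m / (ℓ * l)| ≤ 1 / 2 - μ →
        √(2 * π / l) - K / μ * l ^ (-2 / 3 : ℝ) ≤ ‖J m‖) ∧
      (∀ m : ℤ, 1 / 2 + μ ≤ |2 * π * m / (ℓ * l)| →
        ‖J m‖ ≤ K * ℓ ^ 2 / (μ ^ 6 * (2 * π) ^ 2) / (m : ℝ) ^ 2) ∧
      ∀ (s : ZMod ℓ → ℂ) (v : ℝ), HasSum (fun m : ℤ => dft ℓ s m * J m * cexp ((m * v : ℝ) * I))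
        (s (round (ℓ * v / (2 * π)) : ℤ) * (w (ℓ * v / (2 * π) - round (ℓ * v / (2 * π))) *
          cexp ((l * (ℓ * v / (2 * π) - round (ℓ * v / (2 * π))) ^ 2 / 2 : ℝ) * I))) := by
  obtain ⟨K, hK, H⟩ := exists_chirp_window
  refine ⟨K, hK, fun μ hμ hμ2 => ?_⟩
  obtain ⟨w, cw, w01, wone, wzero, hA, hB⟩ := H μ hμ hμ2
  refine ⟨w, w01, fun ℓ _ hℓ l hl => ?_⟩
  have hℓ' : (2 : ℝ) ≤ ℓ := by exact_mod_cast hℓ
  have hπ := Real.pi_pos
  have hl0 : 0 < l := by linarith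
  have cw0 : Continuous w := cw.continuous
  let p : ℝ → ℂ := fun t => (w t : ℂ) * cexp ((l * t ^ 2 / 2 : ℝ) * I)
  let J : ℤ → ℂ := fun m =>
    ∫ t in (-1 / 2 : ℝ)..(1 / 2), p t * cexp (-(2 * π * m * t / ℓ : ℝ) * I)
  have hJ : ∀ m : ℤ, ‖J m‖ = ‖∫ t in (-1 / 2 : ℝ)..(1 / 2),
      (w t : ℂ) * cexp ((l * (t - 2 * π * m / (ℓ * l)) ^ 2 / 2 : ℝ) * I)‖ := by
    intro m
    have h1 : (∫ t in (-1 / 2 : ℝ)..(1 / 2),
        (w t : ℂ) * cexp ((l * (t - 2 * π * m / (ℓ * l)) ^ 2 / 2 : ℝ) * I)) =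
        cexp ((l * (2 * π * m / (ℓ * l)) ^ 2 / 2 : ℝ) * I) * J m := by
      simp only [J, p]
      rw [← intervalIntegral.integral_const_mul]
      refine intervalIntegral.integral_congr fun t _ => ?_
      rw [mul_assoc (w t : ℂ), ← Complex.exp_add, mul_left_comm (cexp _), ← Complex.exp_add]
      congr 2
      have h5 : (ℓ : ℂ) ≠ 0 := by exact_mod_cast (by omega : ℓ ≠ 0)
      have h6 : (l : ℂ) ≠ 0 := by exact_mod_cast hl0.ne'
      push_cast; field_simp; ring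
    rw [h1, norm_mul, norm_exp_ofReal_mul_I, one_mul]
  have hg : ∀ c : ℝ, 0 ≤ c → ‖(c : ℂ) * fres / (√l : ℝ)‖ = c * √(2 * π / l) := by
    intro c hc
    rw [norm_div, norm_mul, norm_fres, Complex.norm_real, Complex.norm_real,
      Real.norm_of_nonneg hc, Real.norm_of_nonneg (Real.sqrt_nonneg _),
      Real.sqrt_div (by positivity), mul_div_assoc]
  have htail : ∀ m : ℤ, 1 / 2 + μ ≤ |2 * π * m / (ℓ * l)| →
      ‖J m‖ ≤ K * ℓ ^ 2 / (μ ^ 6 * (2 * π) ^ 2) / (m : ℝ) ^ 2 := by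
    intro m hm
    have hm0 : (m : ℝ) ≠ 0 := by
      intro h; rw [h] at hm; simp at hm; linarith
    rw [hJ]
    refine (hB l hl0 _ hm).trans (le_of_eq ?_)
    field_simp
  refine ⟨J, fun m => ?_, fun m hm => ?_, htail, fun s v => ?_⟩
  · rw [hJ]
    have h1 := hA l hl (2 * π * m / (ℓ * l))
    have h2 := norm_sub_norm_le (∫ t in (-1 / 2 : ℝ)..(1 / 2),
      (w t : ℂ) * cexp ((l * (t - 2 * π * m / (ℓ * l)) ^ 2 / 2 : ℝ) * I))
      (w (2 * π * m / (ℓ * l)) * fres / (√l : ℝ))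
    rw [hg _ (w01 _).1] at h2
    have h3 : w (2 * π * m / (ℓ * l)) * √(2 * π / l) ≤ √(2 * π / l) :=
      mul_le_of_le_one_left (Real.sqrt_nonneg _) (w01 _).2
    linarith
  · rw [hJ]
    have h1 := hA l hl (2 * π * m / (ℓ * l))
    have h2 := norm_sub_norm_le (w (2 * π * m / (ℓ * l)) * fres / (√l : ℝ))
      (∫ t in (-1 / 2 : ℝ)..(1 / 2),
      (w t : ℂ) * cexp ((l * (t - 2 * π * m / (ℓ * l)) ^ 2 / 2 : ℝ) * I))
    rw [hg _ (w01 _).1, wone _ hm, norm_sub_rev] at h2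
    rw [wone _ hm] at h1
    linarith
  · refine train_series p (by simp only [p]; fun_prop)
      (fun t ht => by simp only [p, wzero t ht, ofReal_zero, zero_mul]) ℓ hℓ J (fun _ => rfl) ?_ s v
    refine summable_of_tail J _ ⌈(ℓ : ℝ) * l⌉₊ fun m hm => htail m ?_
    have h1 : (ℓ : ℝ) * l ≤ |(m : ℝ)| := by
      refine (Nat.le_ceil _).trans ?_
      exact_mod_cast hm.le
    rw [abs_div, abs_mul, abs_of_pos (by positivity : 0 < 2 * π),
      abs_of_pos (by positivity : 0 < (ℓ : ℝ) * l), le_div_iff₀ (by positivity)]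
    have h2 : 0 < (ℓ : ℝ) * l := by positivity
    have := Real.pi_gt_three
    nlinarith

end Crest.Agent.R75.TA
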