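import Mathlib

/-!
# Row 75 (ultraflat Littlewood polynomials): basic facts on `e x = exp (2 π i x)`
-/

set_option autoImplicit false

open Finset

namespace Crest.Agent.R75

/-- `e x = exp (2 π i x)`. -/
noncomputable def e (x : ℝ) : ℂ := Complex.exp (((2 * Real.pi * x : ℝ) : ℂ) * Complex.I)

lemma e_add (x y : ℝ) : e (x + y) = e x * e y := by
  unfold e
  rw [← Complex.exp_add]
  congr 1
  push_cast
  ring

@[simp] lemma e_zero : e 0 = 1 := by simp [e]

@[simp] lemma norm_e (x : ℝ) : ‖e x‖ = 1 := by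
  unfold e
  exact Complex.norm_exp_ofReal_mul_I _

lemma e_ne_zero (x : ℝ) : e x ≠ 0 := Complex.exp_ne_zero _

lemma e_neg (x : ℝ) : e (-x) = (starRingEnd ℂ) (e x) := by
  unfold e
  rw [← Complex.exp_conj, map_mul, Complex.conj_ofReal, Complex.conj_I]
  congr 1
  push_cast
  ring

lemma conj_e (x : ℝ) : (starRingEnd ℂ) (e x) = e (-x) := (e_neg x).symm

lemma e_mul_e_neg (x : ℝ) : e x * e (-x) = 1 := by
  rw [← e_add]; simp

lemma e_sub (x y : ℝ) : e (x - y) = e x * (starRingEnd ℂ) (e y) := by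
  rw [sub_eq_add_neg, e_add, e_neg]

@[simp] lemma e_int (n : ℤ) : e n = 1 := by
  unfold e
  have := Complex.exp_int_mul_two_pi_mul_I n
  rw [← this]
  congr 1
  push_cast
  ring

@[simp] lemma e_nat (n : ℕ) : e n = 1 := by
  have := e_int (n : ℤ)
  simpa using this

lemma e_add_int (x : ℝ) (n : ℤ) : e (x + n) = e x := by rw [e_add, e_int, mul_one]

lemma e_sub_int (x : ℝ) (n : ℤ) : e (x - n) = e x := by
  rw [e_sub, e_int]; simp

/-- two arguments differing by an integer give the same value -/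
lemma e_eq_of_sub_int {x y : ℝ} (n : ℤ) (h : x - y = n) : e x = e y := by
  have : x = y + n := by linarith
  rw [this, e_add_int]

lemma e_nat_mul (n : ℕ) (x : ℝ) : e (n * x) = e x ^ n := by
  induction n with
  | zero => simp
  | succ n ih => rw [pow_succ, ← ih, ← e_add]; congr 1; push_cast; ring

lemma e_re (x : ℝ) : (e x).re = Real.cos (2 * Real.pi * x) := by
  unfold e; exact Complex.exp_ofReal_mul_I_re _

lemma e_im (x : ℝ) : (e x).im = Real.sin (2 * Real.pi * x) := by
  unfold e; exact Complex.exp_ofReal_mul_I_im _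

lemma e_eq_one_iff (x : ℝ) : e x = 1 ↔ ∃ n : ℤ, x = n := by
  constructor
  · intro h
    unfold e at h
    rw [Complex.exp_eq_one_iff] at h
    obtain ⟨n, hn⟩ := h
    refine ⟨n, ?_⟩
    have h2 := congrArg Complex.im hn
    simp at h2
    have hpi := Real.pi_pos
    have : 2 * Real.pi * x = 2 * Real.pi * n := by linarith
    exact mul_left_cancel₀ (by positivity) this
  · rintro ⟨n, rfl⟩
    exact e_int n

@[fun_prop] lemma continuous_e : Continuous e := by
  unfold e
  fun_prop

lemma hasDerivAt_e (x : ℝ) : HasDerivAt e (2 * Real.pi * Complex.I * e x) x := by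
  unfold e
  have h1 : HasDerivAt (fun x : ℝ => ((2 * Real.pi * x : ℝ) : ℂ) * Complex.I)
      (2 * Real.pi * Complex.I) x := by
    have h0 : HasDerivAt (fun x : ℝ => (2 * Real.pi * x : ℝ)) (2 * Real.pi) x := by
      simpa using (hasDerivAt_id x).const_mul (2 * Real.pi)
    have := (h0.ofReal_comp).mul_const Complex.I
    simpa using this
  have := h1.cexp
  convert this using 1
  ring

/-- chain rule for `e ∘ g` -/
lemma hasDerivAt_e_comp {g : ℝ → ℝ} {g' x : ℝ} (hg : HasDerivAt g g' x) :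
    HasDerivAt (fun x => e (g x)) (2 * Real.pi * Complex.I * g' * e (g x)) x := by
  have := (hasDerivAt_e (g x)).scomp x hg
  have h2 : g' • (2 * Real.pi * Complex.I * e (g x)) =
      2 * Real.pi * Complex.I * g' * e (g x) := by
    rw [Complex.real_smul]; ring
  rw [h2] at this
  exact this

lemma norm_e_sub_one_le (x : ℝ) : ‖e x - 1‖ ≤ 2 * Real.pi * |x| := by
  unfold e
  have := Real.norm_exp_I_mul_ofReal_sub_one_le (x := 2 * Real.pi * x)
  rw [mul_comm Complex.I] at this
  refine this.trans (le_of_eq ?_)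
  rw [Real.norm_eq_abs, abs_mul, abs_of_pos (by positivity : (0 : ℝ) < 2 * Real.pi)]

lemma norm_e_sub_e_le (x y : ℝ) : ‖e x - e y‖ ≤ 2 * Real.pi * |x - y| := by
  have : e x - e y = e y * (e (x - y) - 1) := by
    rw [mul_sub, ← e_add]; simp
  rw [this, norm_mul, norm_e, one_mul]
  exact norm_e_sub_one_le _

lemma norm_e_sub_e_le_two (x y : ℝ) : ‖e x - e y‖ ≤ 2 := by
  refine (norm_sub_le _ _).trans ?_
  simp only [norm_e]; norm_num

/-- every unimodular complex number is a value of `e` -/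
lemma exists_e_eq {u : ℂ} (hu : ‖u‖ = 1) : ∃ β : ℝ, |β| ≤ 1 / 2 ∧ e β = u := by
  refine ⟨Complex.arg u / (2 * Real.pi), ?_, ?_⟩
  · rw [abs_div, abs_of_pos (by positivity : (0 : ℝ) < 2 * Real.pi),
      div_le_iff₀ (by positivity)]
    have := Complex.abs_arg_le_pi u
    linarith
  · unfold e
    have hpi := Real.pi_pos
    have h : 2 * Real.pi * (Complex.arg u / (2 * Real.pi)) = Complex.arg u := by
      field_simp
    rw [h]
    have := Complex.norm_mul_exp_arg_mul_I u
    rw [hu] at this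
    simpa using this

/-- `‖e x - 1‖ ≥ 4 |x|` on `[-1/2, 1/2]`. -/
lemma four_abs_le_norm_e_sub_one {x : ℝ} (hx : |x| ≤ 1 / 2) : 4 * |x| ≤ ‖e x - 1‖ := by
  unfold e
  have h := Complex.norm_exp_I_mul_ofReal_sub_one (2 * Real.pi * x)
  rw [mul_comm Complex.I] at h
  rw [h]
  have h1 : 2 * Real.pi * x / 2 = Real.pi * x := by ring
  rw [h1, Real.norm_eq_abs, abs_mul, abs_two]
  have hpi := Real.pi_pos
  have h2 : |Real.sin (Real.pi * x)| = Real.sin (Real.pi * |x|) := by
    rcases le_total 0 x with h0 | h0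
    · rw [abs_of_nonneg h0] at hx ⊢
      exact abs_of_nonneg (Real.sin_nonneg_of_nonneg_of_le_pi (by positivity) (by nlinarith))
    · rw [abs_of_nonpos h0] at hx ⊢
      have : Real.sin (Real.pi * x) = -Real.sin (Real.pi * -x) := by
        rw [mul_neg, Real.sin_neg, neg_neg]
      rw [this, abs_neg]
      exact abs_of_nonneg (Real.sin_nonneg_of_nonneg_of_le_pi
        (mul_nonneg hpi.le (by linarith)) (by nlinarith))
  rw [h2]
  have h3 := Real.mul_le_sin (x := Real.pi * |x|) (by positivity) (by nlinarith [abs_nonneg x])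
  have h4 : 2 / Real.pi * (Real.pi * |x|) = 2 * |x| := by field_simp
  linarith

/-- geometric sums: `‖∑_{i<n} e (i x)‖ ≤ 1 / (2 |x|)` for `0 < |x| ≤ 1/2`. -/
lemma norm_geom_le {x : ℝ} (hx0 : x ≠ 0) (hx : |x| ≤ 1 / 2) (n : ℕ) :
    ‖∑ i ∈ range n, e (i * x)‖ ≤ 1 / (2 * |x|) := by
  have hpos : 0 < |x| := abs_pos.mpr hx0
  have h1 := four_abs_le_norm_e_sub_one hx
  have h2 : (∑ i ∈ range n, e (i * x)) * (e x - 1) = e x ^ n - 1 := by
    simp_rw [e_nat_mul]
    exact geom_sum_mul _ _
  have h3 : ‖∑ i ∈ range n, e (i * x)‖ * ‖e x - 1‖ ≤ 2 := by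
    rw [← norm_mul, h2]
    refine (norm_sub_le _ _).trans ?_
    rw [norm_pow, norm_e]; norm_num
  rw [le_div_iff₀ (by positivity)]
  nlinarith [norm_nonneg (∑ i ∈ range n, e (i * x))]

/-- orthogonality on `ℤ / M` -/
lemma sum_e_div (M : ℕ) (hM : 0 < M) (t : ℤ) :
    ∑ l ∈ range M, e (t * l / M) = if (M : ℤ) ∣ t then (M : ℂ) else 0 := by
  have hM' : (M : ℝ) ≠ 0 := by positivity
  have h0 : ∀ l : ℕ, e (t * l / M) = e (t / M) ^ l := by
    intro l; rw [← e_nat_mul]; congr 1; ring
  simp_rw [h0]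
  split_ifs with h
  · obtain ⟨k, rfl⟩ := h
    have : e (((M : ℤ) * k : ℤ) / M) = 1 := by
      rw [e_eq_one_iff]; exact ⟨k, by push_cast; field_simp⟩
    rw [this]; simp
  · have hne : e (t / M) ≠ 1 := by
      rw [Ne, e_eq_one_iff]
      rintro ⟨k, hk⟩
      apply h
      refine ⟨k, ?_⟩
      have : (t : ℝ) = M * k := by field_simp at hk; linarith
      exact_mod_cast this
    have h2 := geom_sum_mul (e (t / M)) M
    have h3 : e (t / M) ^ M = 1 := by
      rw [← e_nat_mul, e_eq_one_iff]; exact ⟨t, by field_simp⟩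
    rw [h3, sub_self] at h2
    exact (mul_eq_zero.mp h2).resolve_right (sub_ne_zero.mpr hne)

/-- orthogonality on the circle -/
lemma integral_e_int (t : ℤ) (a : ℝ) :
    ∫ x in a..a + 1, e (t * x) = if t = 0 then 1 else 0 := by
  split_ifs with h
  · subst h; simp
  · have ht : (t : ℂ) ≠ 0 := by exact_mod_cast h
    have hd : ∀ x : ℝ, HasDerivAt (fun x : ℝ => e (t * x) / (2 * Real.pi * Complex.I * t))
        (e (t * x)) x := by
      intro x
      have h1 : HasDerivAt (fun x : ℝ => (t : ℝ) * x) (t : ℝ) x := by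
        simpa using (hasDerivAt_id x).const_mul (t : ℝ)
      have h2 := (hasDerivAt_e_comp h1).div_const (2 * Real.pi * Complex.I * t)
      have hpi : (Real.pi : ℂ) ≠ 0 := by exact_mod_cast Real.pi_pos.ne'
      have hne : (2 * Real.pi * Complex.I * t : ℂ) ≠ 0 := by
        simp [hpi, ht]
      refine h2.congr_deriv ?_
      rw [div_eq_iff hne]
      push_cast
      ring
    rw [intervalIntegral.integral_eq_sub_of_hasDerivAt (fun x _ => hd x)
      ((by fun_prop : Continuous fun x : ℝ => e (t * x)).intervalIntegrable _ _)]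
    have : e (t * (a + 1)) = e (t * a) := e_eq_of_sub_int t (by ring)
    rw [this, sub_self]

/-- discrete Parseval: frequencies in a set on which reduction mod `M` is injective -/
lemma discrete_parseval {ι : Type*} (s : Finset ι) (f : ι → ℤ) (c : ι → ℂ) (M : ℕ) (hM : 0 < M)
    (hf : ∀ i ∈ s, ∀ j ∈ s, (M : ℤ) ∣ f i - f j → i = j) (θ : ℝ) :
    ∑ l ∈ range M, ‖∑ i ∈ s, c i * e (f i * (θ + l / M))‖ ^ 2 = M * ∑ i ∈ s, ‖c i‖ ^ 2 := by
  classical
  have key : ∀ l : ℕ, ((‖∑ i ∈ s, c i * e (f i * (θ + l / M))‖ ^ 2 : ℝ) : ℂ) =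
      ∑ i ∈ s, ∑ j ∈ s, (c i * (starRingEnd ℂ) (c j) * e ((f i - f j : ℤ) * θ)) *
        e ((f i - f j : ℤ) * l / M) := by
    intro l
    rw [← Complex.normSq_eq_norm_sq, Complex.normSq_eq_conj_mul_self, mul_comm, map_sum,
      sum_mul_sum]
    refine sum_congr rfl fun i _ => sum_congr rfl fun j _ => ?_
    rw [map_mul, conj_e, mul_mul_mul_comm, ← e_add, mul_assoc (c i * _), ← e_add]
    congr 2
    push_cast
    ring
  apply Complex.ofReal_injective
  rw [Complex.ofReal_sum]
  simp_rw [key]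
  rw [sum_comm]
  push_cast
  rw [mul_sum]
  refine sum_congr rfl fun i hi => ?_
  rw [sum_comm, sum_eq_single i]
  · rw [← mul_sum]
    have := sum_e_div M hM (f i - f i)
    push_cast at this
    rw [this]
    simp [Complex.mul_conj, Complex.normSq_eq_norm_sq, mul_comm]
  · intro j hj hji
    rw [← mul_sum]
    have := sum_e_div M hM (f i - f j)
    push_cast at this
    rw [this, if_neg (fun h => hji (hf i hi j hj h).symm), mul_zero]
  · intro h; exact absurd hi h

end Crest.Agent.R75
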