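import Crest.Agent.Lib.Spencer.Full
import Crest.Agent.Lib.Spencer.Grid

/-! Part D of row 75: rounding an almost-sign vector to signs, with small sup-norm error. -/

set_option autoImplicit false

namespace Crest.Agent.R75

open Finset Crest.Agent.Spencer

theorem rounding (ε : ℝ) (hε : 0 < ε) : ∃ e > 0, ∀ (N : ℕ) (x : Fin N → ℝ), (∀ k, |x k| ≤ 1) →
    ∑ k, (1 - |x k|) ≤ e * N →
    ∃ c : Fin N → ℤˣ, ∀ z : ℂ, ‖z‖ = 1 →
      ‖∑ k : Fin N, (((c k : ℤ) : ℂ) - x k) * z ^ (k : ℕ)‖ ≤ ε * Real.sqrt N := by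
  set δ : ℝ := ε / 1808 with hδ
  have hδ0 : 0 < δ := by positivity
  refine ⟨δ ^ 4 / 41, by positivity, fun N x hx hS => ?_⟩
  rcases Nat.eq_zero_or_pos N with rfl | hN
  · exact ⟨fun _ => 1, fun z _ => by simp⟩
  have hN' : (1 : ℝ) ≤ N := by exact_mod_cast hN
  let s : Fin N → ℤ := fun k => if 0 ≤ x k then 1 else -1
  have hs1 : ∀ k, |(s k : ℝ)| = 1 := by
    intro k; simp only [s]; split_ifs <;> simp
  have hs2 : ∀ k, x k = s k * |x k| := by
    intro k; simp only [s]
    split_ifs with h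
    · simp [abs_of_nonneg h]
    · push Not at h; simp [abs_of_neg h]
  let a : Fin (40 * N + 1) × Bool → Fin N → ℝ := fun i k =>
    s k * (if i.2 then (grid N i.1 ^ (k : ℕ)).re else (grid N i.1 ^ (k : ℕ)).im)
  have ha : ∀ i k, |a i k| ≤ 1 := by
    intro i k
    have h1 : ‖grid N i.1 ^ (k : ℕ)‖ = 1 := by rw [norm_pow, norm_grid, one_pow]
    simp only [a]
    rw [abs_mul, hs1, one_mul]
    split_ifs
    · exact h1 ▸ Complex.abs_re_le_norm _
    · exact h1 ▸ Complex.abs_im_le_norm _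
  have hsq : Real.sqrt N ^ 4 = (N : ℝ) ^ 2 := by
    rw [show 4 = 2 * 2 from rfl, pow_mul, Real.sq_sqrt (by positivity)]
  have hsq0 : 0 < Real.sqrt N := Real.sqrt_pos.2 (by linarith)
  obtain ⟨w, hw1, hw2⟩ := real_rounding a ha (82 * N) (by simp; linarith) (by simp; linarith)
    (δ ^ 4 / 41 * N / 2) (δ * Real.sqrt N) (by positivity)
    (by rw [mul_pow, hsq]; apply le_of_eq; ring) (fun k => (1 - |x k|) / 2)
    (fun k => by have := hx k; linarith) (fun k => by have := abs_nonneg (x k); linarith)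
    (by rw [← Finset.sum_div]; linarith)
  have hc : ∀ k, ∃ c : ℤˣ, (c : ℤ) = s k * (1 - 2 * w k) := by
    intro k
    simp only [s]
    rcases hw1 k with h | h <;> split_ifs
    · exact ⟨1, by simp [h]⟩
    · exact ⟨-1, by simp [h]⟩
    · exact ⟨-1, by simp [h]⟩
    · exact ⟨1, by simp [h]⟩
  choose c hc using hc
  refine ⟨c, fun z hz => ?_⟩
  have hd : ∀ k, (((c k : ℤ) : ℂ) - x k) = ((-2 * (s k * (w k - (1 - |x k|) / 2)) : ℝ) : ℂ) := by
    intro k
    have h1 : ((c k : ℤ) : ℝ) - x k = -2 * (s k * (w k - (1 - |x k|) / 2)) := by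
      rw [hc k]
      have := hs2 k
      push_cast
      linarith
    rw [← h1]; push_cast; rfl
  refine (sup_le_grid N _ (904 * (δ * Real.sqrt N)) (fun j => ?_) z hz).trans
    (le_of_eq (by rw [hδ]; ring))
  refine (Complex.norm_le_abs_re_add_abs_im _).trans ?_
  have h1 := hw2 (j, true)
  have h2 := hw2 (j, false)
  have h3 : (∑ k : Fin N, (((c k : ℤ) : ℂ) - x k) * grid N j ^ (k : ℕ)).re =
      -2 * ∑ k, a (j, true) k * ((w k : ℝ) - (1 - |x k|) / 2) := by
    rw [Complex.re_sum, Finset.mul_sum]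
    refine Finset.sum_congr rfl fun k _ => ?_
    rw [hd, Complex.re_ofReal_mul]
    simp only [a, if_true]; ring
  have h4 : (∑ k : Fin N, (((c k : ℤ) : ℂ) - x k) * grid N j ^ (k : ℕ)).im =
      -2 * ∑ k, a (j, false) k * ((w k : ℝ) - (1 - |x k|) / 2) := by
    rw [Complex.im_sum, Finset.mul_sum]
    refine Finset.sum_congr rfl fun k _ => ?_
    rw [hd, Complex.im_ofReal_mul]
    simp only [a, Bool.false_eq_true, if_false]; ring
  rw [h3, h4, abs_mul, abs_mul]
  norm_num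
  linarith

end Crest.Agent.R75
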