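import Crest.Agent.R75.Basic

/-!
# Row 75: the finite model and the trapezoid kernel (definitions)
-/

set_option autoImplicit false

open Finset

namespace Crest.Agent.R75

/-- The finite model.  The circle is cut into `W` cells.  Tile `i` covers the cells
`st i, …, st i + len i - 1` (mod `W`), its mirror image covers the cells `-1 - (st i + k)`.
All tiles and mirror images are pairwise disjoint.  Tile `i` is swept during the time segment
`seg i` (of relative duration `lam (seg i)`) with phase `u i`. -/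
structure Model (ε : ℝ) where
  W : ℕ
  S : Type
  T : Type
  [fS : Fintype S]
  [fT : Fintype T]
  [dS : DecidableEq S]
  seg : T → S
  st : T → ℤ
  len : T → ℕ
  u : T → ℂ
  lam : S → ℝ
  hW : 0 < W
  hlen : ∀ i, 0 < len i
  hu : ∀ i, ‖u i‖ = 1
  hlam : ∀ s, 0 < lam s
  hsum : ∑ s, lam s ≤ 1 + ε
  inj : ∀ (i j : T) (k l : ℕ), k < len i → l < len j →
    st i + k ≡ st j + l [ZMOD W] → i = j ∧ k = l
  mir : ∀ (i j : T) (k l : ℕ), k < len i → l < len j →
    ¬ st i + k ≡ -1 - (st j + l) [ZMOD W]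
  bound : ∀ (s : S) (t : ℤ) (γ : ℝ),
    |∑ i ∈ univ.filter (fun i => seg i = s),
      2 * (((Real.sqrt (len i / (W * lam s)) : ℝ) : ℂ) * u i *
        e (-(t * st i / W) - len i * γ)).re| ≤ 1 + ε

attribute [instance] Model.fS Model.fT Model.dS

/-- the tiles and their mirror images fill all but an `ε`-fraction of the cells -/
def Model.Dense {ε : ℝ} (F : Model ε) : Prop :=
  (1 - ε) * F.W ≤ 2 * ∑ i, (F.len i : ℝ)

/-- the tiles and their mirror images cover every cell -/
def Model.Covers {ε : ℝ} (F : Model ε) : Prop :=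
  ∀ x : ℤ, ∃ (i : F.T) (k : ℕ), k < F.len i ∧
    (x ≡ F.st i + k [ZMOD F.W] ∨ x ≡ -1 - (F.st i + k) [ZMOD F.W])

/-- a packing by tiles and mirror images occupies at most `W` cells -/
lemma packing_card {T : Type} [Fintype T] (W : ℕ) (hW : 0 < W) (st : T → ℤ) (len : T → ℕ)
    (inj : ∀ (i j : T) (k l : ℕ), k < len i → l < len j →
      st i + k ≡ st j + l [ZMOD W] → i = j ∧ k = l)
    (mir : ∀ (i j : T) (k l : ℕ), k < len i → l < len j →
      ¬ st i + k ≡ -1 - (st j + l) [ZMOD W]) :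
    2 * ∑ i, len i ≤ W := by
  classical
  have : NeZero W := ⟨hW.ne'⟩
  let f : (Σ i : T, Fin (len i)) ⊕ (Σ i : T, Fin (len i)) → ZMod W := fun x =>
    match x with
    | Sum.inl a => ((st a.1 + (a.2 : ℕ) : ℤ) : ZMod W)
    | Sum.inr a => ((-1 - (st a.1 + (a.2 : ℕ)) : ℤ) : ZMod W)
  have hf : Function.Injective f := by
    rintro (⟨i, k⟩ | ⟨i, k⟩) (⟨j, l⟩ | ⟨j, l⟩) h
    · have h' := (ZMod.intCast_eq_intCast_iff _ _ _).1 h
      obtain ⟨rfl, h2⟩ := inj i j k l k.2 l.2 h'
      rw [Fin.ext h2]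
    · exact absurd ((ZMod.intCast_eq_intCast_iff _ _ _).1 h) (mir i j k l k.2 l.2)
    · exact absurd ((ZMod.intCast_eq_intCast_iff _ _ _).1 h).symm (mir j i l k l.2 k.2)
    · have h' := (ZMod.intCast_eq_intCast_iff _ _ _).1 h
      have h'' : st i + (k : ℕ) ≡ st j + (l : ℕ) [ZMOD W] := by
        have := (Int.ModEq.refl (-1 : ℤ)).sub h'
        simpa using this
      obtain ⟨rfl, h2⟩ := inj i j k l k.2 l.2 h''
      rw [Fin.ext h2]
  have := Fintype.card_le_of_injective f hf
  simp only [Fintype.card_sum, Fintype.card_sigma, Fintype.card_fin, ZMod.card] at this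
  omega

/-- Fourier coefficients of the trapezoid kernel -/
noncomputable def vhat (A H : ℕ) (t : ℤ) : ℝ :=
  (((range H).filter fun j : ℕ => 0 ≤ t + j ∧ t + j < A).card : ℝ) / H

/-- the trapezoid (de la Vallée Poussin type) kernel -/
noncomputable def V (A H : ℕ) (y : ℝ) : ℂ :=
  (1 / (H : ℂ)) * (∑ i ∈ range A, e (i * y)) * (∑ j ∈ range H, e (-(j * y)))

end Crest.Agent.R75
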