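import Crest.Agent.R75.F2a

/-!
# Row 75: an almost `±1`-valued real trigonometric polynomial in two variables whose frequencies
(in the half plane `L > 0`) are pairwise non-parallel

Suggested proof (from `F2a`).  Fix `r ≥ 3` with `2^{2-r}` tiny, then `δ` with `(1-δ)^r ≈ 1`, and
`K, a` from `F2a δ`.  For `k : Fin r → ℤ` in `Fintype.piFinset fun _ => Icc (-K) K` put
`A k = ∏ i, a (k i)` (so `A k ≠ 0` forces all `k i ≠ 0`), `f_d x = ∑_{d ∣ k} a k e (k x)`.
* `∑_{k, ∀ i, d ∣ k i} A k e (∑ k i x i) = ∏ i, f_d (x i)` (`Finset.prod_univ_sum`), modulus `≤ d^{-r}`.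
* Möbius: for `A k ≠ 0`, `g = gcd k ∈ [1,K]` and `[g = 1] = ∑_{d ∈ Icc 1 K, d ∣ g} μ d`, so the
  primitive part `∑_{gcd k = 1} A k e (…) = ∑_{d=1}^K μ d ∏ f_d (x i)` has modulus
  `≤ ∑_d d^{-r} ≤ 1 + 2^{2-r}`.
* mass: `∑_{d ∣ k} ‖a k‖² ≤ 1/d²` (`discrete_parseval` + sup bound), so the non-primitive `k`
  (some `d ∈ [2,K]` divides all `k i`) carry mass `≤ ∑_{d≥2} d^{-2r}`, total mass `≥ (1-δ)^r`.
* `M = {k | gcd k = 1, A k ≠ 0, 0 < k 0}`; `k ↦ -k` pairs the primitive support, so the primitive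
  part is `∑_{m ∈ M} 2 Re (A m e (…))` and its mass is `2 ∑_M ‖A m‖²`.
* distinct primitive vectors with positive first coordinate are not parallel, so the integer
  polynomial `∑_i (m 0 * m' i - m' 0 * m i) X^i` is nonzero; choose an integer `X` that is not a root
  of any of them (e.g. `X = 4K² + 1`, or finiteness of roots) and put `L m = m 0`,
  `n m = ∑ i, m i * X^i`, `x i = (if i = 0 then x else 0) + X^i y`.
* normalise `c m = A m / √(mass)`.
-/

set_option autoImplicit false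

open Finset

namespace Crest.Agent.R75

namespace F2aux

/-- The greatest common divisor of the coordinates. -/
def G {r : ℕ} (k : Fin r → ℤ) : ℕ := univ.gcd fun i => (k i).natAbs

lemma dvd_G {r : ℕ} (k : Fin r → ℤ) (d : ℕ) : d ∣ G k ↔ ∀ i, (d : ℤ) ∣ k i := by
  unfold G
  rw [Finset.dvd_gcd_iff]
  simp [Int.natCast_dvd]

lemma G_neg {r : ℕ} (k : Fin r → ℤ) : G (-k) = G k := by simp [G]

lemma sum_moebius (g : ℕ) :
    ∑ d ∈ g.divisors, ((ArithmeticFunction.moebius d : ℤ) : ℂ) = if g = 1 then 1 else 0 := by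
  have h := congrArg (fun f : ArithmeticFunction ℤ => f g) ArithmeticFunction.moebius_mul_coe_zeta
  simp only [ArithmeticFunction.coe_mul_zeta_apply, ArithmeticFunction.one_apply] at h
  rw [← Int.cast_sum, h]
  split_ifs <;> simp

/-- Möbius sieve for product sums. -/
lemma sieve {r : ℕ} (K : ℕ) (b : Fin (r + 1) → ℤ → ℂ) (hb : b 0 0 = 0) :
    ∑ k ∈ (Fintype.piFinset fun _ : Fin (r + 1) => Icc (-(K : ℤ)) K).filter (fun k => G k = 1),
      ∏ i, b i (k i) =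
    ∑ d ∈ Icc 1 K, ((ArithmeticFunction.moebius d : ℤ) : ℂ) *
      ∏ i, ∑ t ∈ (Icc (-(K : ℤ)) K).filter (fun t => (d : ℤ) ∣ t), b i t := by
  have h1 : ∀ d : ℕ, ∏ i, ∑ t ∈ (Icc (-(K : ℤ)) K).filter (fun t => (d : ℤ) ∣ t), b i t =
      ∑ k ∈ (Fintype.piFinset fun _ : Fin (r + 1) => Icc (-(K : ℤ)) K),
        if d ∣ G k then ∏ i, b i (k i) else 0 := by
    intro d
    simp_rw [Finset.sum_filter]
    rw [Finset.prod_univ_sum]
    refine Finset.sum_congr rfl fun k _ => ?_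
    rw [Finset.prod_ite_zero]
    simp [dvd_G]
  simp_rw [h1, Finset.mul_sum]
  rw [Finset.sum_comm, Finset.sum_filter]
  refine Finset.sum_congr rfl fun k hk => ?_
  by_cases h0 : k 0 = 0
  · have : ∏ i, b i (k i) = 0 := Finset.prod_eq_zero (mem_univ 0) (by rw [h0, hb])
    simp [this]
  · have hk0 := mem_Icc.1 (Fintype.mem_piFinset.1 hk 0)
    have hd : G k ∣ (k 0).natAbs := Int.natCast_dvd.1 ((dvd_G k _).1 dvd_rfl 0)
    have hpos : 0 < (k 0).natAbs := Int.natAbs_pos.2 h0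
    have hle : G k ≤ K := (Nat.le_of_dvd hpos hd).trans (by omega)
    have hG0 : G k ≠ 0 := by
      intro h; rw [h] at hd; have := Nat.eq_zero_of_zero_dvd hd; omega
    have e1 : (Icc 1 K).filter (fun d => d ∣ G k) = (G k).divisors := by
      ext d
      simp only [mem_filter, mem_Icc, Nat.mem_divisors]
      constructor
      · rintro ⟨_, h⟩; exact ⟨h, hG0⟩
      · rintro ⟨h, _⟩
        exact ⟨⟨Nat.pos_of_dvd_of_pos h (Nat.pos_of_ne_zero hG0),
          (Nat.le_of_dvd (Nat.pos_of_ne_zero hG0) h).trans hle⟩, h⟩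
    simp_rw [mul_ite, mul_zero]
    rw [← Finset.sum_filter, e1, ← Finset.sum_mul, sum_moebius]
    split_ifs <;> simp

lemma tail_le (K s : ℕ) : ∑ d ∈ Ioc 1 K, (1 / (d : ℝ)) ^ (s + 2) ≤ (1 / 2) ^ s := by
  rcases Nat.eq_zero_or_pos K with rfl | hK
  · simp
  have h1 := sum_Ioc_inv_sq_le_sub (α := ℝ) one_ne_zero hK
  have h2 : (0 : ℝ) ≤ (K : ℝ)⁻¹ := by positivity
  calc ∑ d ∈ Ioc 1 K, (1 / (d : ℝ)) ^ (s + 2)
      ≤ ∑ d ∈ Ioc 1 K, (1 / 2 : ℝ) ^ s * ((d : ℝ) ^ 2)⁻¹ := by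
        refine Finset.sum_le_sum fun d hd => ?_
        have hd2 : (2 : ℝ) ≤ d := by exact_mod_cast (mem_Ioc.1 hd).1
        rw [pow_add, one_div (d : ℝ), inv_pow _ 2]
        gcongr
        rw [one_div]
        exact inv_anti₀ two_pos hd2
    _ = (1 / 2 : ℝ) ^ s * ∑ d ∈ Ioc 1 K, ((d : ℝ) ^ 2)⁻¹ := by rw [Finset.mul_sum]
    _ ≤ (1 / 2 : ℝ) ^ s * 1 := by
        gcongr
        simp only [Nat.cast_one, inv_one] at h1
        linarith
    _ = _ := mul_one _

/-- The primitive part differs little from the full product. -/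
lemma sieve_approx {s : ℕ} (K : ℕ) (hK : 0 < K) (b : Fin (s + 2) → ℤ → ℂ) (hb : b 0 0 = 0)
    (hd : ∀ i, ∀ d : ℕ, 0 < d →
      ‖∑ t ∈ (Icc (-(K : ℤ)) K).filter (fun t => (d : ℤ) ∣ t), b i t‖ ≤ 1 / d) :
    ‖∑ k ∈ (Fintype.piFinset fun _ : Fin (s + 2) => Icc (-(K : ℤ)) K).filter (fun k => G k = 1),
      ∏ i, b i (k i) - ∏ i, ∑ t ∈ Icc (-(K : ℤ)) K, b i t‖ ≤ (1 / 2) ^ s := by
  rw [sieve K b hb, ← Finset.add_sum_Ioc_eq_sum_Icc hK]
  simp only [ArithmeticFunction.moebius_apply_one, Int.cast_one, one_mul, Nat.cast_one, one_dvd,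
    Finset.filter_true, add_sub_cancel_left]
  refine (norm_sum_le _ _).trans (le_trans (Finset.sum_le_sum fun d hdm => ?_) (tail_le K s))
  have hd0 : 0 < d := by have := (mem_Ioc.1 hdm).1; omega
  rw [norm_mul, norm_prod]
  have h1 : ‖((ArithmeticFunction.moebius d : ℤ) : ℂ)‖ ≤ 1 := by
    rw [Complex.norm_intCast]
    exact_mod_cast ArithmeticFunction.abs_moebius_le_one
  have h2 : ∏ i : Fin (s + 2), ‖∑ t ∈ (Icc (-(K : ℤ)) K).filter (fun t => (d : ℤ) ∣ t), b i t‖ ≤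
      (1 / (d : ℝ)) ^ (s + 2) := by
    refine (Finset.prod_le_prod (fun i _ => norm_nonneg _) (fun i _ => hd i d hd0)).trans ?_
    simp
  calc _ ≤ 1 * (1 / (d : ℝ)) ^ (s + 2) := by gcongr
    _ = _ := one_mul _

lemma mass_le (K : ℕ) (a : ℤ → ℂ) (S : Finset ℤ) (hS : S ⊆ Icc (-(K : ℤ)) K) (B : ℝ)
    (h : ∀ x : ℝ, ‖∑ k ∈ S, a k * e (k * x)‖ ≤ B) : ∑ k ∈ S, ‖a k‖ ^ 2 ≤ B ^ 2 := by
  have h1 := discrete_parseval S (fun k => k) a (2 * K + 1) (Nat.succ_pos _) (by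
    intro i hi j hj hij
    have a1 := mem_Icc.1 (hS hi)
    have a2 := mem_Icc.1 (hS hj)
    have := Int.eq_zero_of_abs_lt_dvd hij (by rw [abs_lt]; push_cast; omega)
    omega) 0
  have h2 : ∑ l ∈ range (2 * K + 1), ‖∑ i ∈ S, a i * e (i * (0 + l / (2 * K + 1 : ℕ)))‖ ^ 2 ≤
      ∑ l ∈ range (2 * K + 1), B ^ 2 :=
    Finset.sum_le_sum fun l _ => pow_le_pow_left₀ (norm_nonneg _) (h _) 2
  rw [h1] at h2
  simp only [sum_const, card_range, nsmul_eq_mul] at h2
  exact le_of_mul_le_mul_left h2 (by positivity)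

lemma eq_of_parallel {r : ℕ} (m m' : Fin (r + 1) → ℤ) (h1 : G m = 1) (h1' : G m' = 1)
    (h0 : 0 < m 0) (h0' : 0 < m' 0) (h : ∀ i, m 0 * m' i = m' 0 * m i) : m = m' := by
  have key : ∀ m m' : Fin (r + 1) → ℤ, G m = 1 → (∀ i, m 0 * m' i = m' 0 * m i) →
      (m 0).natAbs ∣ (m' 0).natAbs := by
    intro m m' h1 h
    have h2 : (m 0).natAbs ∣ univ.gcd fun i => (m' 0).natAbs * (m i).natAbs := by
      refine Finset.dvd_gcd fun i _ => ?_
      rw [← Int.natAbs_mul, ← h i, Int.natAbs_mul]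
      exact Dvd.intro _ rfl
    rw [Finset.gcd_mul_left] at h2
    unfold G at h1
    rw [h1] at h2
    simpa using h2
  have h2 := Nat.dvd_antisymm (key m m' h1 h) (key m' m h1' fun i => (h i).symm)
  have h3 : m 0 = m' 0 := by omega
  funext i
  have := h i
  rw [h3] at this
  exact (mul_left_cancel₀ h0'.ne' this).symm

lemma exists_generic {r : ℕ} (S : Finset (Fin r → ℤ)) (hS : ∀ v ∈ S, v ≠ 0) :
    ∃ w : Fin r → ℤ, ∀ v ∈ S, ∑ i, v i * w i ≠ 0 := by
  let P : (Fin r → ℤ) → Polynomial ℤ := fun v => ∑ i : Fin r, Polynomial.monomial (i : ℕ) (v i)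
  have hP : ∀ v ∈ S, P v ≠ 0 := by
    intro v hv h
    apply hS v hv
    funext j
    have := congrArg (fun p : Polynomial ℤ => p.coeff j) h
    simp only [P, Polynomial.finsetSum_coeff, Polynomial.coeff_monomial, Polynomial.coeff_zero,
      Fin.val_inj] at this
    simpa using this
  have h1 : ∏ v ∈ S, P v ≠ 0 := Finset.prod_ne_zero_iff.2 hP
  obtain ⟨X, hX⟩ : ∃ X : ℤ, (∏ v ∈ S, P v).eval X ≠ 0 := by
    by_contra hc
    push Not at hc
    exact h1 (Polynomial.funext fun x => by rw [hc x, Polynomial.eval_zero])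
  refine ⟨fun i => X ^ (i : ℕ), fun v hv => ?_⟩
  rw [Polynomial.eval_prod] at hX
  have := Finset.prod_ne_zero_iff.1 hX v hv
  simpa [P, Polynomial.eval_finsetSum] using this

/-- Pairing `k` with `-k`. -/
lemma sum_pair {r : ℕ} (K : ℕ) (A : (Fin (r + 1) → ℤ) → ℂ) (hA0 : ∀ k, k 0 = 0 → A k = 0)
    (hAn : ∀ k, A (-k) = 0 ↔ A k = 0) (φ : (Fin (r + 1) → ℤ) → ℂ) (hφ : ∀ k, A k = 0 → φ k = 0) :
    ∑ k ∈ (Fintype.piFinset fun _ : Fin (r + 1) => Icc (-(K : ℤ)) K).filter (fun k => G k = 1),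
      φ k =
    ∑ k ∈ (Fintype.piFinset fun _ : Fin (r + 1) => Icc (-(K : ℤ)) K).filter
      (fun k => G k = 1 ∧ A k ≠ 0 ∧ 0 < k 0), (φ k + φ (-k)) := by
  classical
  set Ω := Fintype.piFinset fun _ : Fin (r + 1) => Icc (-(K : ℤ)) K with hΩ
  have hneg : ∀ k ∈ Ω, -k ∈ Ω := by
    intro k hk
    rw [hΩ, Fintype.mem_piFinset] at hk ⊢
    intro i
    have := mem_Icc.1 (hk i)
    rw [mem_Icc, Pi.neg_apply]
    omega
  have h1 : ∑ k ∈ Ω.filter (fun k => G k = 1 ∧ A k ≠ 0 ∧ 0 < k 0), φ (-k) =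
      ∑ k ∈ Ω.filter (fun k => G k = 1 ∧ A k ≠ 0 ∧ k 0 < 0), φ k := by
    refine Finset.sum_nbij' (fun k => -k) (fun k => -k) ?_ ?_ ?_ ?_ ?_
    · intro k hk
      obtain ⟨h1, h2, h3, h4⟩ := mem_filter.1 hk
      exact mem_filter.2 ⟨hneg k h1, by rw [G_neg, h2], by rwa [Ne, hAn], by simpa using h4⟩
    · intro k hk
      obtain ⟨h1, h2, h3, h4⟩ := mem_filter.1 hk
      exact mem_filter.2 ⟨hneg k h1, by rw [G_neg, h2], by rwa [Ne, hAn], by simpa using h4⟩
    · intro k _; simp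
    · intro k _; simp
    · intro k _; rfl
  rw [Finset.sum_add_distrib, h1, Finset.sum_filter, Finset.sum_filter, Finset.sum_filter,
    ← Finset.sum_add_distrib]
  refine Finset.sum_congr rfl fun k _ => ?_
  by_cases hA : A k = 0
  · simp [hφ k hA]
  · have h0 : k 0 ≠ 0 := fun h => hA (hA0 k h)
    by_cases hG : G k = 1
    · rcases lt_or_gt_of_ne h0 with h | h
      · simp [hG, hA, h, h.le]
      · simp [hG, hA, h, h.le]
    · simp [hG]

lemma e_sum {ι : Type} (s : Finset ι) (f : ι → ℝ) : e (∑ i ∈ s, f i) = ∏ i ∈ s, e (f i) := by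
  classical
  induction s using Finset.induction_on with
  | empty => simp
  | insert a s ha ih => rw [Finset.sum_insert ha, Finset.prod_insert ha, e_add, ih]

end F2aux

open F2aux in
theorem F2 (ε : ℝ) (hε : 0 < ε) :
    ∃ (M : Type) (_ : Fintype M) (_ : DecidableEq M) (L n : M → ℤ) (c : M → ℂ),
      (∀ m, 0 < L m) ∧ (∀ m, c m ≠ 0) ∧ (∀ m m', m ≠ m' → L m * n m' ≠ L m' * n m) ∧
      2 * ∑ m, ‖c m‖ ^ 2 = 1 ∧
      ∀ x y : ℝ, |∑ m, 2 * (c m * e (L m * x + n m * y)).re| ≤ 1 + ε := by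
  classical
  obtain ⟨s, hs⟩ := exists_pow_lt_of_lt_one (show 0 < min ε 1 / 5 by positivity)
    (show (1 / 2 : ℝ) < 1 by norm_num)
  set η : ℝ := (1 / 2) ^ s with hη
  have hη0 : 0 < η := by positivity
  have hη1 : 5 * η ≤ ε := by have := min_le_left ε 1; linarith
  have hη2 : 5 * η ≤ 1 := by have := min_le_right ε 1; linarith
  obtain ⟨K, a, ha0, han, hmass, hsup⟩ := F2a (η / (s + 2)) (by positivity)
  have hδ : η / (s + 2) ≤ η := div_le_self hη0.le (by have : (0 : ℝ) ≤ s := by positivity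
                                                      linarith)
  have hK : 0 < K := by
    rcases Nat.eq_zero_or_pos K with rfl | h
    · simp [ha0] at hmass; linarith
    · exact h
  set Ω := Fintype.piFinset fun _ : Fin (s + 2) => Icc (-(K : ℤ)) K with hΩ
  let A : (Fin (s + 2) → ℤ) → ℂ := fun k => ∏ i, a (k i)
  have hA0 : ∀ k, k 0 = 0 → A k = 0 := fun k h =>
    Finset.prod_eq_zero (mem_univ 0) (by rw [h, ha0])
  have hAn : ∀ k, A (-k) = (starRingEnd ℂ) (A k) := fun k => by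
    simp only [A, map_prod, Pi.neg_apply, han]
  have hAn' : ∀ k, A (-k) = 0 ↔ A k = 0 := fun k => by rw [hAn]; simp
  set S := Ω.filter (fun k => G k = 1 ∧ A k ≠ 0 ∧ 0 < k 0) with hS
  -- the mass
  have hm : 1 - 2 * η ≤ 2 * ∑ k ∈ S, ‖A k‖ ^ 2 := by
    have h1 := sieve_approx (s := s) K hK (fun _ t => ((‖a t‖ ^ 2 : ℝ) : ℂ)) (by simp [ha0]) (by
      intro _ d hd
      rw [← Complex.ofReal_sum, Complex.norm_real, Real.norm_of_nonneg (by positivity)]
      refine (mass_le K a _ (filter_subset _ _) _ (hsup d hd)).trans ?_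
      have hd1 : (1 : ℝ) ≤ d := by exact_mod_cast hd
      have : 1 / (d : ℝ) ≤ 1 := by rw [div_le_one (by linarith)]; exact hd1
      have h0 : 0 ≤ 1 / (d : ℝ) := by positivity
      nlinarith)
    have h2 : ∀ k : Fin (s + 2) → ℤ, ∏ i, ((‖a (k i)‖ ^ 2 : ℝ) : ℂ) = ((‖A k‖ ^ 2 : ℝ) : ℂ) := by
      intro k
      simp only [A, norm_prod, ← Finset.prod_pow, Complex.ofReal_prod]
    simp_rw [h2] at h1
    rw [sum_pair K A hA0 hAn' _ (fun k hk => by simp [hk])] at h1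
    simp only [hAn, RCLike.norm_conj, ← Complex.ofReal_sum,
      Finset.prod_const, Finset.card_univ, Fintype.card_fin, ← two_mul, ← Finset.mul_sum] at h1
    rw [← Complex.ofReal_ofNat, ← Complex.ofReal_mul, ← Complex.ofReal_pow, ← Complex.ofReal_sub,
      Complex.norm_real, Real.norm_eq_abs] at h1
    have h3 := (abs_le.1 h1).1
    have h4 : (1 - η / (s + 2)) ^ (s + 2) ≤ (∑ t ∈ Icc (-(K : ℤ)) K, ‖a t‖ ^ 2) ^ (s + 2) :=
      pow_le_pow_left₀ (by linarith) hmass _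
    have h5 := one_add_mul_le_pow (show (-2 : ℝ) ≤ -(η / (s + 2)) by linarith) (s + 2)
    have h6 : ((s + 2 : ℕ) : ℝ) * -(η / (s + 2)) = -η := by push_cast; field_simp
    rw [h6, ← sub_eq_add_neg, ← sub_eq_add_neg] at h5
    linarith
  -- the supremum
  have hsupr : ∀ x : Fin (s + 2) → ℝ,
      |∑ k ∈ S, 2 * (A k * e (∑ i, k i * x i)).re| ≤ 1 + η := by
    intro x
    have h1 := sieve_approx (s := s) K hK (fun i t => a t * e (t * x i)) (by simp [ha0])
      (fun i d hd => hsup d hd (x i))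
    have h2 : ∀ k : Fin (s + 2) → ℤ, ∏ i, (a (k i) * e (k i * x i)) =
        A k * e (∑ i, k i * x i) := by
      intro k
      rw [Finset.prod_mul_distrib, e_sum]
    simp_rw [h2] at h1
    rw [sum_pair K A hA0 hAn' _ (fun k hk => by simp [hk])] at h1
    have h3 : ∀ k : Fin (s + 2) → ℤ, A k * e (∑ i, k i * x i) +
        A (-k) * e (∑ i, ((-k) i : ℤ) * x i) =
        ((2 * (A k * e (∑ i, k i * x i)).re : ℝ) : ℂ) := by
      intro k
      have : ∑ i, (((-k) i : ℤ) : ℝ) * x i = -∑ i, k i * x i := by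
        rw [← Finset.sum_neg_distrib]
        refine Finset.sum_congr rfl fun i _ => ?_
        simp
      rw [this, e_neg, hAn, ← map_mul, Complex.add_conj]
    simp_rw [h3] at h1
    rw [← Complex.ofReal_sum] at h1
    have h4 : ‖∏ i, ∑ t ∈ Icc (-(K : ℤ)) K, a t * e (t * x i)‖ ≤ 1 := by
      rw [norm_prod]
      refine Finset.prod_le_one (fun i _ => norm_nonneg _) fun i _ => ?_
      simpa using hsup 1 one_pos (x i)
    have h5 := (norm_le_norm_add_norm_sub' _ _).trans (add_le_add h4 h1)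
    rwa [Complex.norm_real, Real.norm_eq_abs] at h5
  obtain ⟨w, hw⟩ := exists_generic
    (((S ×ˢ S).filter fun p => p.1 ≠ p.2).image fun p => fun i => p.1 0 * p.2 i - p.2 0 * p.1 i)
    (by
      intro v hv h0
      obtain ⟨p, hp, rfl⟩ := mem_image.1 hv
      obtain ⟨hp1, hp2⟩ := mem_filter.1 hp
      obtain ⟨q1, q2⟩ := mem_product.1 hp1
      obtain ⟨-, a1, -, a2⟩ := mem_filter.1 q1
      obtain ⟨-, b1, -, b2⟩ := mem_filter.1 q2
      exact hp2 (eq_of_parallel p.1 p.2 a1 b1 a2 b2 fun i => sub_eq_zero.1 (congrFun h0 i)))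
  set μ : ℝ := 2 * ∑ k ∈ S, ‖A k‖ ^ 2 with hμ
  have hμ0 : 0 < μ := by linarith
  have hsq : 0 < √μ := Real.sqrt_pos.2 hμ0
  refine ⟨S, inferInstance, inferInstance, fun m => m.1 0, fun m => ∑ i, m.1 i * w i,
    fun m => A m.1 / (√μ : ℝ), fun m => (mem_filter.1 m.2).2.2.2, fun m => ?_, ?_, ?_, ?_⟩
  · exact div_ne_zero (mem_filter.1 m.2).2.2.1 (by exact_mod_cast hsq.ne')
  · intro m m' hne h
    refine hw _ (mem_image.2 ⟨(m.1, m'.1), mem_filter.2 ⟨mem_product.2 ⟨m.2, m'.2⟩,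
      fun h' => hne (Subtype.ext h')⟩, rfl⟩) ?_
    simp only [sub_mul, Finset.sum_sub_distrib, mul_assoc, ← Finset.mul_sum]
    exact sub_eq_zero.2 h
  · rw [Finset.sum_coe_sort S (fun m => ‖A m / (√μ : ℝ)‖ ^ 2)]
    simp only [norm_div, div_pow, Complex.norm_real, Real.norm_eq_abs, sq_abs,
      Real.sq_sqrt hμ0.le, ← Finset.sum_div]
    rw [← mul_div_assoc, ← hμ, div_self hμ0.ne']
  · intro x y
    rw [Finset.sum_coe_sort S
      (fun m => 2 * (A m / (√μ : ℝ) * e ((m 0 : ℤ) * x + (∑ i, m i * w i : ℤ) * y)).re)]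
    have h1 := hsupr fun i => (if i = 0 then x else 0) + w i * y
    have h2 : ∀ m : Fin (s + 2) → ℤ,
        2 * (A m / (√μ : ℝ) * e ((m 0 : ℤ) * x + (∑ i, m i * w i : ℤ) * y)).re =
        2 * (A m * e (∑ i, m i * ((if i = 0 then x else 0) + w i * y))).re / √μ := by
      intro m
      have : ∑ i, (m i : ℝ) * ((if i = 0 then x else 0) + w i * y) =
          (m 0 : ℤ) * x + (∑ i, m i * w i : ℤ) * y := by
        simp only [mul_add, Finset.sum_add_distrib, mul_ite, mul_zero, Finset.sum_ite_eq',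
          mem_univ, if_true]
        push_cast
        rw [Finset.sum_mul]
        simp only [mul_assoc]
      rw [this, div_mul_eq_mul_div, Complex.div_ofReal_re, mul_div_assoc]
    simp_rw [h2]
    rw [← Finset.sum_div, abs_div, abs_of_pos hsq, div_le_iff₀ hsq]
    have h3 : 1 - 2 * η ≤ √μ := Real.le_sqrt_of_sq_le (by nlinarith)
    have h4 : (1 + ε) * (1 - 2 * η) ≤ (1 + ε) * √μ := by gcongr
    nlinarith

end Crest.Agent.R75
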