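import Crest.Agent.R75.Basic

/-!
# Row 75: a trigonometric polynomial close to the square wave, with small shift averages

Abel means of the square wave: `a k = s r^|k| ŝq k`; the part with frequencies divisible by an odd `d`
is `(1/d) (2/π) arg ((1+z)/(1-z))`, `z = r^d e (d x)`, up to a geometric tail.
-/

set_option autoImplicit false

open Finset

namespace Crest.Agent.R75

namespace F2aaux

open Real

/-- modulus of the Fourier coefficients of the square wave -/
noncomputable def c (k : ℕ) : ℝ := if Odd k then 2 / (π * k) else 0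

theorem c_nonneg (k : ℕ) : 0 ≤ c k := by
  unfold c; split_ifs <;> positivity

theorem c_zero : c 0 = 0 := by simp [c]

theorem sum_Icc_neg {M : Type*} [AddCommMonoid M] (f : ℤ → M) (h0 : f 0 = 0) (K : ℕ) :
    ∑ k ∈ Icc (-(K : ℤ)) K, f k = ∑ k ∈ range (K + 1), (f k + f (-k)) := by
  induction K with
  | zero => simp [h0]
  | succ K ih =>
    have : Icc (-((K + 1 : ℕ) : ℤ)) (K + 1 : ℕ) =
        insert ((K + 1 : ℕ) : ℤ) (insert (-((K + 1 : ℕ) : ℤ)) (Icc (-(K : ℤ)) K)) := by
      ext x
      simp only [mem_Icc, mem_insert]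
      omega
    rw [this, sum_insert (by simp only [mem_Icc, mem_insert]; omega),
      sum_insert (by simp only [mem_Icc]; omega), ih, sum_range_succ _ (K + 1)]
    abel

theorem hasSum_c_sq : HasSum (fun k => 2 * c k ^ 2) 1 := by
  have h1 := hasSum_zeta_two
  have h2 : HasSum (fun n : ℕ => if Odd n then 0 else (1 : ℝ) / (n : ℝ) ^ 2) (π ^ 2 / 6 / 4) := by
    rw [← (mul_right_injective₀ (two_ne_zero (α := ℕ))).hasSum_iff]
    · convert! h1.div_const 4 using 2 with n
      simp only [Function.comp, Nat.odd_mul, Nat.cast_mul, Nat.cast_ofNat]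
      rw [if_neg (by simp [Nat.odd_iff])]
      rw [mul_pow, div_div, mul_comm]
      norm_num
    · intro n hn
      rw [if_pos]
      rw [← Nat.not_even_iff_odd]
      rintro ⟨m, rfl⟩
      exact hn ⟨m, by ring⟩
  have h3 := (h1.sub h2).mul_left (8 / π ^ 2)
  have hπ := pi_pos
  convert! h3 using 1
  · funext k
    unfold c
    split_ifs
    · rw [div_pow, mul_pow, sub_zero, div_mul_div_comm, ← mul_div_assoc]; norm_num
    · simp
  · field_simp; norm_num

theorem hasSum_odd {z : ℂ} (hz : ‖z‖ < 1) :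
    ∃ G : ℝ, |G| ≤ 1 ∧ HasSum (fun k : ℕ => 2 * c k * (z ^ k).im) G := by
  have hzI : -z * Complex.I * Complex.I = z := by
    rw [mul_assoc, Complex.I_mul_I]; ring
  have h0 := Complex.hasSum_arctan_aux (z := -z * Complex.I) (by simpa using hz)
  rw [hzI] at h0
  have h1 := (Complex.hasSum_taylorSeries_log hz).add (Complex.hasSum_taylorSeries_neg_log hz)
  rw [h0] at h1
  have h2 := (Complex.hasSum_im h1).mul_left (2 / π)
  have hπ := pi_pos
  refine ⟨_, ?_, by
    convert! h2 using 2 with k
    unfold c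
    split_ifs with hk
    · rw [hk.add_one.neg_one_pow, one_mul, Complex.add_im, Complex.div_natCast_im]
      have : (k : ℝ) ≠ 0 := by exact_mod_cast hk.pos.ne'
      field_simp
      ring
    · rw [(Nat.not_odd_iff_even.1 hk).add_one.neg_one_pow]
      simp [neg_div]⟩
  rw [Complex.log_im, abs_mul, abs_of_pos (by positivity : 0 < 2 / π), div_mul_eq_mul_div,
    div_le_one hπ]
  have : |Complex.arg ((1 + z) / (1 - z))| ≤ π / 2 := by
    rw [Complex.abs_arg_le_pi_div_two_iff, Complex.div_re, ← add_div]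
    refine div_nonneg ?_ (Complex.normSq_nonneg _)
    have : z.re ^ 2 + z.im ^ 2 ≤ 1 := by
      have h := Complex.sq_norm z
      rw [Complex.normSq_apply] at h
      nlinarith [norm_nonneg z]
    simp
    nlinarith
  linarith

theorem partial_le {r : ℝ} (hr0 : 0 < r) (hr : r < 1) {d : ℕ} (hd : 0 < d) (x : ℝ) (n : ℕ) :
    |∑ k ∈ range n, if d ∣ k then 2 * c k * r ^ k * (e (k * x)).im else 0| ≤
      (1 + 2 * r ^ n / (1 - r)) / d := by
  have hπ := pi_gt_three
  have hd' : (0 : ℝ) < d := by exact_mod_cast hd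
  have h1r : 0 < 1 - r := by linarith
  by_cases hodd : Odd d
  · obtain ⟨G, hG, hs⟩ := hasSum_odd (z := (r : ℂ) ^ d * e (d * x)) (by
      rw [norm_mul, norm_e, mul_one, norm_pow, Complex.norm_real, Real.norm_eq_abs, abs_of_pos hr0]
      exact pow_lt_one₀ hr0.le hr hd.ne')
    have h2 : HasSum (fun k : ℕ => if d ∣ k then 2 * c k * r ^ k * (e (k * x)).im else 0) (G / d) := by
      rw [← (mul_right_injective₀ hd.ne').hasSum_iff]
      · convert! hs.div_const d using 2 with k
        simp only [Function.comp, dvd_mul_right, if_true]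
        rw [mul_pow, ← pow_mul, ← e_nat_mul, ← Complex.ofReal_pow, Complex.im_ofReal_mul]
        have e1 : ((d * k : ℕ) : ℝ) * x = k * (d * x) := by push_cast; ring
        have e2 : c (d * k) = c k / d := by
          unfold c
          simp only [Nat.odd_mul, hodd, true_and]
          split_ifs
          · push_cast; rw [div_div]; congr 1; ring
          · simp
        rw [e1, e2]
        ring
      · intro k hk
        rw [if_neg]
        rintro ⟨m, rfl⟩
        exact hk ⟨m, rfl⟩
    have h3 := norm_sub_le_of_geometric_bound_of_hasSum (C := 2 / d) hr (fun k => ?_) h2 n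
    · rw [Real.norm_eq_abs] at h3
      have h4 : |G / d| ≤ 1 / d := by
        rw [abs_div, abs_of_pos hd']; gcongr
      have h5 := abs_sub_abs_le_abs_sub
        (∑ k ∈ range n, if d ∣ k then 2 * c k * r ^ k * (e (k * x)).im else 0) (G / d)
      have e3 : (1 + 2 * r ^ n / (1 - r)) / d = 1 / d + 2 / d * r ^ n / (1 - r) := by
        field_simp
      linarith
    · split_ifs with hk
      · have b1 : |(e (k * x)).im| ≤ 1 := (Complex.abs_im_le_norm _).trans (norm_e _).le
        have b2 : c k ≤ 1 / d := by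
          unfold c
          split_ifs with ho
          · have : (d : ℝ) ≤ k := by exact_mod_cast Nat.le_of_dvd ho.pos hk
            rw [div_le_div_iff₀ (by nlinarith) hd']
            nlinarith
          · positivity
        have b3 := c_nonneg k
        rw [Real.norm_eq_abs, abs_mul, abs_of_nonneg (by positivity)]
        calc _ ≤ 2 * (1 / d) * r ^ k * 1 := by gcongr
          _ = _ := by ring
      · rw [norm_zero]; positivity
  · rw [sum_eq_zero, abs_zero]
    · positivity
    · intro k _
      split_ifs with hk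
      · have : c k = 0 := by
          unfold c
          rw [if_neg fun h => hodd (h.of_dvd_nat hk)]
        simp [this]
      · rfl

end F2aaux

open F2aaux in
theorem F2a (δ : ℝ) (hδ : 0 < δ) :
    ∃ (K : ℕ) (a : ℤ → ℂ), a 0 = 0 ∧ (∀ k, a (-k) = (starRingEnd ℂ) (a k)) ∧
      1 - δ ≤ ∑ k ∈ Icc (-(K : ℤ)) K, ‖a k‖ ^ 2 ∧
      ∀ d : ℕ, 0 < d → ∀ x : ℝ,
        ‖∑ k ∈ (Icc (-(K : ℤ)) K).filter (fun k => (d : ℤ) ∣ k), a k * e (k * x)‖ ≤ 1 / d := by
  set η := min δ 1 / 4 with hη
  have hη0 : 0 < η := by positivity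
  have hη1 : η ≤ 1 / 4 := by have := min_le_right δ 1; linarith
  have hηδ : 4 * η ≤ δ := by have := min_le_left δ 1; linarith
  obtain ⟨K0, hK0⟩ := (hasSum_c_sq.tendsto_sum_nat.eventually
    (lt_mem_nhds (show 1 - η < 1 by linarith))).exists
  set r := 1 - η / (2 * K0 + 1) with hr
  have ht0 : 0 < η / (2 * K0 + 1) := by positivity
  have ht1 : η / (2 * K0 + 1) ≤ η := div_le_self hη0.le (by have := Nat.cast_nonneg (α := ℝ) K0; linarith)
  have hr0 : 0 < r := by linarith
  have hr1 : r < 1 := by linarith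
  have hrK : 1 - η ≤ r ^ (2 * K0) := by
    have := one_add_mul_le_pow (a := -(η / (2 * K0 + 1))) (by linarith) (2 * K0)
    rw [← sub_eq_add_neg] at this
    refine le_trans ?_ this
    have h2 : ((2 * K0 : ℕ) : ℝ) * (η / (2 * K0 + 1)) ≤ η := by
      rw [← mul_div_assoc, div_le_iff₀ (by positivity)]
      push_cast
      nlinarith
    linarith
  have lim : Filter.Tendsto (fun n : ℕ => 2 * r ^ n / (1 - r)) Filter.atTop (nhds 0) := by
    simpa using ((tendsto_pow_atTop_nhds_zero_of_lt_one hr0.le hr1).const_mul 2).div_const (1 - r)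
  obtain ⟨K1, hK1⟩ := Filter.eventually_atTop.1 (lim.eventually (gt_mem_nhds hη0))
  let a : ℤ → ℂ := fun k => ((1 - η) * c k.natAbs * r ^ k.natAbs * k.sign : ℝ) * (-Complex.I)
  have a0 : a 0 = 0 := by simp [a]
  have ap : ∀ k : ℕ, a k = ((1 - η) * c k * r ^ k : ℝ) * (-Complex.I) := by
    intro k
    rcases k.eq_zero_or_pos with rfl | hk
    · simp [a, c_zero]
    · simp only [a, Int.natAbs_natCast, Int.sign_eq_one_of_pos (Int.natCast_pos.2 hk), Int.cast_one,
        mul_one]
  have an : ∀ k, a (-k) = (starRingEnd ℂ) (a k) := by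
    intro k
    simp only [a, Int.natAbs_neg, Int.sign_neg, map_mul, Complex.conj_ofReal, map_neg, Complex.conj_I]
    push_cast
    ring
  refine ⟨max K0 K1, a, a0, an, ?_, fun d hd x => ?_⟩
  · rw [sum_Icc_neg (fun k => ‖a k‖ ^ 2) (by simp [a0])]
    have h1 : ∀ k : ℕ, ‖a k‖ ^ 2 + ‖a (-k)‖ ^ 2 = (1 - η) ^ 2 * (2 * c k ^ 2 * r ^ (2 * k)) := by
      intro k
      rw [an, Complex.norm_conj, ap, norm_mul, norm_neg, Complex.norm_I, mul_one, Complex.norm_real,
        Real.norm_eq_abs, sq_abs]
      ring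
    simp only [h1]
    rw [← mul_sum]
    have h2 : (1 - η) * (1 - η) ≤ ∑ k ∈ range (max K0 K1 + 1), 2 * c k ^ 2 * r ^ (2 * k) := by
      calc (1 - η) * (1 - η) ≤ (∑ k ∈ range K0, 2 * c k ^ 2) * r ^ (2 * K0) :=
            mul_le_mul hK0.le hrK (by linarith) (sum_nonneg fun k _ => by positivity)
        _ = ∑ k ∈ range K0, 2 * c k ^ 2 * r ^ (2 * K0) := sum_mul _ _ _
        _ ≤ ∑ k ∈ range K0, 2 * c k ^ 2 * r ^ (2 * k) := by
            refine sum_le_sum fun k hk => mul_le_mul_of_nonneg_left ?_ (by positivity)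
            exact pow_le_pow_of_le_one hr0.le hr1.le (by have := mem_range.1 hk; omega)
        _ ≤ _ := sum_le_sum_of_subset_of_nonneg (range_mono (by omega)) fun k _ _ => by positivity
    have h3 : 1 - 4 * η ≤ (1 - η) ^ 4 := by
      have := one_add_mul_le_pow (a := -η) (by linarith) 4
      push_cast at this
      rw [← sub_eq_add_neg] at this
      linarith
    calc 1 - δ ≤ (1 - η) ^ 2 * ((1 - η) * (1 - η)) := by nlinarith
      _ ≤ _ := mul_le_mul_of_nonneg_left h2 (by positivity)
  · rw [sum_filter, sum_Icc_neg (fun k => if (d : ℤ) ∣ k then a k * e (k * x) else 0) (by simp [a0])]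
    have h1 : ∀ k : ℕ, ((if (d : ℤ) ∣ (k : ℤ) then a k * e ((k : ℤ) * x) else 0) +
        if (d : ℤ) ∣ (-k : ℤ) then a (-k) * e ((-k : ℤ) * x) else 0) =
        (((1 - η) * if d ∣ k then 2 * c k * r ^ k * (e (k * x)).im else 0 : ℝ) : ℂ) := by
      intro k
      simp only [dvd_neg, Int.natCast_dvd_natCast]
      split_ifs
      · rw [an, Int.cast_neg, neg_mul, e_neg, ← map_mul, Complex.add_conj, ap]
        congr 1
        simp only [Int.cast_natCast, Complex.mul_re, Complex.mul_im, Complex.ofReal_re,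
          Complex.ofReal_im, Complex.neg_re, Complex.neg_im, Complex.I_re, Complex.I_im]
        ring
      · simp
    simp only [h1]
    rw [← Complex.ofReal_sum, Complex.norm_real, Real.norm_eq_abs, ← mul_sum, abs_mul,
      abs_of_pos (by linarith)]
    have h2 := partial_le hr0 hr1 hd x (max K0 K1 + 1)
    have h3 := hK1 (max K0 K1 + 1) (by omega)
    have hd' : (0 : ℝ) < d := by exact_mod_cast hd
    calc _ ≤ (1 - η) * ((1 + η) / d) :=
          mul_le_mul_of_nonneg_left (h2.trans (by gcongr)) (by linarith)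
      _ ≤ 1 / d := by
          rw [← mul_div_assoc]
          gcongr
          nlinarith

end Crest.Agent.R75
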