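import Crest.Agent.R75.Basic

/-!
# Row 75: quadratic Gauss sums are flat; pairwise coprime moduli of prescribed relative sizes

`gauss_flat`: put `v j = (1/√Q) ∑_{s<Q} e ((α s² + s j)/Q)`.  Inversion by `sum_e_div` (the map
`t ↦ e (α t²/Q)` is `Q`-periodic).  `‖∑_s e ((α s² + s j)/Q)‖² = ∑_{s,s'} e ((α (s'²-s²) + (s'-s) j)/Q)`;
substitute `s' = s + h` (periodicity, e.g. sum over `ZMod Q`), get `∑_h e ((α h² + h j)/Q) ∑_s e (2 α h s/Q)`
and `Q ∣ 2 α h ↔ Q ∣ h`.

`exists_moduli`: `q m = a m * T + 1` with `a m` pairwise distinct positive integers,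
`a m ∈ [ρ r m, (1+ε/2) ρ r m]` (e.g. `a m = |M| ⌈ρ r m / |M|⌉₊ + index m`, `ρ` large), `T` a large
multiple of `B * (max a)!`, `R = ρ T`.  A prime dividing `q m` and `q m'` does not divide `T` and
divides `(a m - a m') T`, hence divides `(max a)!`, contradiction.
-/

set_option autoImplicit false

open Finset

namespace Crest.Agent.R75

namespace Gaussaux

lemma shift (φ : ℤ → ℂ) (Q : ℕ) (h : ∀ s, φ (s + Q) = φ s) (c : ℤ) :
    ∑ s ∈ range Q, φ (s + c) = ∑ s ∈ range Q, φ s := by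
  have step : ∀ c : ℤ, ∑ s ∈ range Q, φ (s + (c + 1)) = ∑ s ∈ range Q, φ (s + c) := by
    intro c
    have h1 := sum_range_succ' (fun s : ℕ => φ (s + c)) Q
    rw [sum_range_succ, add_comm (Q : ℤ) c, h] at h1
    simp only [Nat.cast_zero, zero_add, add_left_inj] at h1
    rw [h1]
    refine sum_congr rfl fun s _ => ?_
    congr 1
    push_cast
    ring
  induction c using Int.induction_on with
  | zero => simp
  | succ n ih => rw [step, ih]
  | pred n ih => rw [← step, ← ih]; simp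

/-- the quadratic phase -/
noncomputable def ph (Q : ℕ) (α j s : ℤ) : ℂ := e ((α * s ^ 2 + s * j) / Q)

lemma ph_per {Q : ℕ} (hQ : 0 < Q) (α j s : ℤ) : ph Q α j (s + Q) = ph Q α j s := by
  have hQ' : (Q : ℝ) ≠ 0 := by positivity
  refine e_eq_of_sub_int (α * (2 * s + Q) + j) ?_
  push_cast
  field_simp
  ring

end Gaussaux

open Gaussaux in
theorem gauss_flat (Q : ℕ) (hQ : Odd Q) (α : ℤ) (hα : IsCoprime α (Q : ℤ)) :
    ∃ v : ℕ → ℂ, (∀ j, ‖v j‖ = 1) ∧ ∀ t : ℤ,
      ∑ j ∈ range Q, v j * e (-(t * j / Q)) = ((Real.sqrt Q : ℝ) : ℂ) * e (α * t ^ 2 / Q) := by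
  have hpos : 0 < Q := hQ.pos
  have hQ' : (Q : ℝ) ≠ 0 := by positivity
  have hs : 0 < Real.sqrt Q := Real.sqrt_pos.2 (by positivity)
  have h2 : IsCoprime (2 * α) (Q : ℤ) := by
    refine IsCoprime.mul_left ?_ hα
    obtain ⟨k, hk⟩ := hQ
    exact ⟨-k, 1, by rw [hk]; push_cast; ring⟩
  obtain ⟨a, b, hab⟩ := h2
  have hnorm : ∀ j : ℤ, ‖∑ s ∈ range Q, ph Q α j s‖ = ‖∑ s ∈ range Q, ph Q α 0 s‖ := by
    intro j
    rw [← shift _ Q (ph_per hpos α 0) (a * j)]
    have : ∑ s ∈ range Q, ph Q α 0 (s + a * j) =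
        e (α * (a * j) ^ 2 / Q) * ∑ s ∈ range Q, ph Q α j s := by
      rw [mul_sum]
      refine sum_congr rfl fun s _ => ?_
      rw [ph, ph, ← e_add]
      refine e_eq_of_sub_int (-(b * s * j)) ?_
      have h : (a : ℝ) * (2 * α) + b * Q = 1 := by exact_mod_cast hab
      push_cast
      field_simp
      linear_combination (s * j : ℝ) * h
    rw [this, norm_mul, norm_e, one_mul]
  have hpar := discrete_parseval (range Q) (fun s => (s : ℤ)) (fun s => e (α * s ^ 2 / Q)) Q hpos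
    (fun i hi j hj h => by
      have h1 := mem_range.1 hi
      have h2 := mem_range.1 hj
      have := Int.eq_zero_of_abs_lt_dvd h (abs_lt.2 ⟨by omega, by omega⟩)
      omega) 0
  have h3 : ∀ l ∈ range Q, ‖∑ i ∈ range Q, e (α * i ^ 2 / Q) * e (((i : ℤ) : ℝ) * (0 + l / Q))‖ ^ 2 =
      ‖∑ s ∈ range Q, ph Q α 0 s‖ ^ 2 := by
    intro l _
    rw [← hnorm l]
    congr 2
    refine sum_congr rfl fun s _ => ?_
    rw [ph, ← e_add]
    congr 1
    push_cast
    ring
  rw [sum_congr rfl h3] at hpar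
  simp only [norm_e, one_pow, sum_const, card_range, nsmul_eq_mul, mul_one] at hpar
  have h4 : ‖∑ s ∈ range Q, ph Q α 0 s‖ = Real.sqrt Q := by
    rw [← mul_left_cancel₀ hQ' hpar, Real.sqrt_sq (norm_nonneg _)]
  refine ⟨fun j => (((Real.sqrt Q)⁻¹ : ℝ) : ℂ) * ∑ s ∈ range Q, ph Q α j s, fun j => ?_,
    fun t => ?_⟩
  · rw [norm_mul, hnorm, h4, Complex.norm_real, Real.norm_eq_abs, abs_of_pos (inv_pos.2 hs),
      inv_mul_cancel₀ hs.ne']
  · have h5 : ∀ j ∈ range Q, ((((Real.sqrt Q)⁻¹ : ℝ) : ℂ) * ∑ s ∈ range Q, ph Q α j s) *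
        e (-(t * j / Q)) = (((Real.sqrt Q)⁻¹ : ℝ) : ℂ) *
          ∑ s ∈ range Q, e (α * (s + t) ^ 2 / Q) * e (((s : ℤ) : ℝ) * j / Q) := by
      intro j _
      rw [← shift _ Q (ph_per hpos α j) t, mul_assoc, sum_mul]
      congr 1
      refine sum_congr rfl fun s _ => ?_
      rw [ph, ← e_add, ← e_add]
      congr 1
      push_cast
      ring
    rw [sum_congr rfl h5, ← mul_sum, sum_comm]
    simp only [← mul_sum, sum_e_div Q hpos]
    rw [sum_eq_single 0]
    · simp only [Nat.cast_zero, zero_add, dvd_zero, if_true]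
      have : (Q : ℂ) = ((Real.sqrt Q : ℝ) : ℂ) * ((Real.sqrt Q : ℝ) : ℂ) := by
        rw [← Complex.ofReal_mul, Real.mul_self_sqrt (by positivity)]
        simp
      have hne : ((Real.sqrt Q : ℝ) : ℂ) ≠ 0 := by exact_mod_cast hs.ne'
      rw [this, Complex.ofReal_inv]
      field_simp
    · intro s hs hs0
      have h1 := mem_range.1 hs
      rw [if_neg, mul_zero]
      intro h
      have := Int.eq_zero_of_abs_lt_dvd h (abs_lt.2 ⟨by omega, by omega⟩)
      omega
    · intro h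
      exact absurd (mem_range.2 hpos) h

theorem exists_moduli {M : Type} [Fintype M] (B : ℕ) (hB : 0 < B) (r : M → ℝ)
    (hr : ∀ m, 0 < r m) (ε : ℝ) (hε : 0 < ε) (R₀ : ℝ) :
    ∃ (R : ℝ) (q : M → ℕ), R₀ ≤ R ∧ 0 < R ∧ (∀ m, 0 < q m) ∧ (∀ m, Nat.Coprime (q m) B) ∧
      (∀ m m', m ≠ m' → Nat.Coprime (q m) (q m')) ∧
      ∀ m, R * r m ≤ q m ∧ (q m : ℝ) ≤ (1 + ε) * (R * r m) := by
  classical
  set N := Fintype.card M + 1 with hN
  let idx : M → ℕ := fun m => (Fintype.equivFin M m : ℕ)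
  have hidx : ∀ m, idx m < N := fun m => (Fintype.equivFin M m).2.trans (Nat.lt_succ_self _)
  set ρ : ℝ := ∑ m, 4 / (ε * r m) + 1 with hρ
  have hsum : ∀ m, 0 ≤ 4 / (ε * r m) := fun m => (div_pos four_pos (mul_pos hε (hr m))).le
  have hρ1 : 1 ≤ ρ := le_add_of_nonneg_left (sum_nonneg fun m _ => hsum m)
  have hρ2 : ∀ m, 4 ≤ ε * (ρ * r m) := fun m => by
    have h1 : 4 / (ε * r m) ≤ ρ :=
      (single_le_sum (fun m _ => hsum m) (mem_univ m)).trans (le_add_of_nonneg_right zero_le_one)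
    rw [div_le_iff₀ (mul_pos hε (hr m))] at h1
    linarith
  let a : M → ℕ := fun m => N * ⌈ρ * r m⌉₊ + idx m
  have ha_inj : ∀ m m', a m = a m' → m = m' := fun m m' h => by
    have h1 : a m % N = a m' % N := by rw [h]
    simp only [a, Nat.mul_add_mod, Nat.mod_eq_of_lt (hidx _)] at h1
    exact (Fintype.equivFin M).injective (Fin.ext h1)
  let A := ∑ m, a m
  let T := B * A.factorial * (⌈R₀⌉₊ + 1)
  have hT : ⌈R₀⌉₊ + 1 ≤ T := Nat.le_mul_of_pos_left _ (Nat.mul_pos hB (Nat.factorial_pos _))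
  have hT1 : (1 : ℝ) ≤ T := by exact_mod_cast (show 1 ≤ T by omega)
  have hN1 : (1 : ℝ) ≤ N := by exact_mod_cast (show 1 ≤ N by omega)
  have hcop : ∀ m, Nat.Coprime (a m * T + 1) T := fun m => by simp
  have hNρ : 1 ≤ N * ρ := one_le_mul_of_one_le_of_one_le hN1 hρ1
  refine ⟨N * ρ * T, fun m => a m * T + 1, ?_, by positivity, fun m => Nat.succ_pos _,
    fun m => (hcop m).coprime_dvd_right ((Dvd.intro _ rfl).mul_right _), fun m m' hm => ?_,
    fun m => ?_⟩
  · have h1 : R₀ ≤ T := by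
      have : ((⌈R₀⌉₊ + 1 : ℕ) : ℝ) ≤ T := by exact_mod_cast hT
      have h2 := Nat.le_ceil R₀
      push_cast at this
      linarith
    nlinarith
  · refine Nat.coprime_of_dvd fun p hp h1 h2 => ?_
    have hT : p ∣ T := by
      have h3 : (p : ℤ) ∣ ((a m : ℤ) - a m') * T := by
        have := dvd_sub (Int.natCast_dvd_natCast.2 h1) (Int.natCast_dvd_natCast.2 h2)
        push_cast at this
        rwa [add_sub_add_right_eq_sub, ← sub_mul] at this
      rcases (Nat.prime_iff_prime_int.1 hp).dvd_or_dvd h3 with h | h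
      · have h4 : a m ≤ A := single_le_sum (fun _ _ => Nat.zero_le _) (mem_univ m)
        have h5 : a m' ≤ A := single_le_sum (fun _ _ => Nat.zero_le _) (mem_univ m')
        have h6 : a m ≠ a m' := fun e => hm (ha_inj _ _ e)
        have h7 : ((a m : ℤ) - a m').natAbs ∣ A.factorial :=
          Nat.dvd_factorial (by omega) (by omega)
        exact (((Int.natCast_dvd.1 h).trans h7).mul_left B).mul_right _
      · exact Int.natCast_dvd_natCast.1 h
    exact hp.one_lt.ne' (Nat.eq_one_of_dvd_coprimes (hcop m) h1 hT)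
  · have h0 : 0 ≤ ρ * r m := mul_nonneg (by linarith) (hr m).le
    have h1 := Nat.le_ceil (ρ * r m)
    have h2 := (Nat.ceil_lt_add_one h0).le
    have h3 : (idx m : ℝ) ≤ N := by exact_mod_cast (hidx m).le
    have h4 : (0 : ℝ) ≤ idx m := Nat.cast_nonneg _
    have h5 := hρ2 m
    have h6 : N * (ρ * r m) ≤ a m := by
      simp only [a]
      push_cast
      nlinarith
    have h7 : (a m : ℝ) ≤ N * (ρ * r m) + 2 * N := by
      simp only [a]
      push_cast
      nlinarith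
    have h8 : (1 : ℝ) ≤ N * T := one_le_mul_of_one_le_of_one_le hN1 hT1
    have h9 := mul_le_mul_of_nonneg_right h6 (show (0 : ℝ) ≤ T by linarith)
    have h10 := mul_le_mul_of_nonneg_right h7 (show (0 : ℝ) ≤ T by linarith)
    have h11 := mul_le_mul_of_nonneg_right h5 (show (0 : ℝ) ≤ N * T by linarith)
    push_cast
    constructor <;> nlinarith

end Crest.Agent.R75
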