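import Mathlib
import Crest.Agent.R16.Ex

/-! Row 75, packing lemma: the probabilistic core (random block types, second moment). -/

set_option autoImplicit false

open Finset

namespace Crest.Agent.R75.Kaux

open Crest.Agent.R16

theorem Ex_inj {ι B T : Type} [Fintype B] [DecidableEq B] [Fintype T] {p : T → ℝ}
    (hp : IsProb p) (S : Finset ι) (b : ι → B) (hb : Set.InjOn b S) (f : ι → T → ℝ) :
    Ex (piW fun _ : B => p) (fun ξ => ∏ i ∈ S, f i (ξ (b i))) = ∏ i ∈ S, Ex p (f i) := by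
  classical
  let g : B → T → ℝ := fun c => if h : ∃ i ∈ S, b i = c then f h.choose else 0
  have hg : ∀ i ∈ S, g (b i) = f i := by
    intro i hi
    have h : ∃ j ∈ S, b j = b i := ⟨i, hi, rfl⟩
    simp only [g, dif_pos h]
    rw [hb h.choose_spec.1 hi h.choose_spec.2]
  have := Ex_pi_prod_finset (w := fun _ : B => p) (fun _ => hp) (S.image b) g
  rw [Finset.prod_image hb] at this
  rw [← Finset.prod_congr rfl fun i hi => congrArg (Ex p) (hg i hi), ← this]
  refine Ex_congr fun ξ => ?_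
  rw [Finset.prod_image hb]
  exact Finset.prod_congr rfl fun i hi => by rw [hg i hi]

theorem Ex_ind {T : Type} [Fintype T] [DecidableEq T] (p : T → ℝ) (t : T) :
    Ex p (fun s => if s = t then (1 : ℝ) else 0) = p t := by
  simp [Ex]

theorem exists_ge_Ex {Ω : Type} [Fintype Ω] {w : Ω → ℝ} (hw : IsProb w) (f : Ω → ℝ) :
    ∃ ω, Ex w f ≤ f ω := by
  have hne : (univ : Finset Ω).Nonempty := by
    by_contra h
    rw [Finset.not_nonempty_iff_eq_empty] at h
    have := hw.total
    rw [h] at this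
    simp at this
  obtain ⟨ω, -, hω⟩ := Finset.exists_max_image univ f hne
  exact ⟨ω, (hw.Ex_mono fun x => hω x (mem_univ _)).trans_eq (hw.Ex_const _)⟩

theorem tail_bound {Y μ E δ : ℝ} (hδ : 0 < δ) (hE : 0 < E) (hμ : μ ≤ E) (hY : (1 + δ) * E < Y) :
    Y ≤ (Y - μ) ^ 2 * ((1 + δ) / (δ ^ 2 * E)) := by
  have h1 : δ * E ≤ Y - μ := by linarith
  have h2 : δ * Y ≤ (1 + δ) * (Y - μ) := by nlinarith
  have hpos : 0 < δ * E := by positivity
  have hY0 : 0 < Y := by nlinarith
  rw [← mul_div_assoc, le_div_iff₀ (by positivity)]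
  calc Y * (δ ^ 2 * E) = (δ * Y) * (δ * E) := by ring
    _ ≤ ((1 + δ) * (Y - μ)) * (Y - μ) := by
        apply mul_le_mul h2 h1 hpos.le
        nlinarith
    _ = (Y - μ) ^ 2 * (1 + δ) := by ring

section core

variable {M Ω B T : Type} [DecidableEq T]

/-- indicator that the blocks of `J` at the indices in `S` have the prescribed types -/
def I (bb : M → Ω → B) (vv : M → Ω → T) (S : Finset M) (J : Ω) (ξ : B → T) : ℝ :=
  ∏ m ∈ S, if ξ (bb m J) = vv m J then (1 : ℝ) else 0

variable {bb : M → Ω → B} {vv : M → Ω → T}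

theorem I_nonneg (S : Finset M) (J : Ω) (ξ : B → T) : 0 ≤ I bb vv S J ξ :=
  Finset.prod_nonneg fun _ _ => by split_ifs <;> norm_num

theorem I_le_one (S : Finset M) (J : Ω) (ξ : B → T) : I bb vv S J ξ ≤ 1 :=
  Finset.prod_le_one (fun _ _ => by split_ifs <;> norm_num) fun _ _ => by split_ifs <;> norm_num

theorem I_eq_one {S : Finset M} {J : Ω} {ξ : B → T} (h : ∀ m ∈ S, ξ (bb m J) = vv m J) :
    I bb vv S J ξ = 1 :=
  Finset.prod_eq_one fun m hm => if_pos (h m hm)

theorem I_eq_zero {S : Finset M} {J : Ω} {ξ : B → T} (h : ¬ ∀ m ∈ S, ξ (bb m J) = vv m J) :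
    I bb vv S J ξ = 0 := by
  push Not at h
  obtain ⟨m, hm, h⟩ := h
  exact Finset.prod_eq_zero hm (if_neg h)

variable [Fintype B] [DecidableEq B] [Fintype T] {p : T → ℝ} {w : M → ℝ}

theorem Ex_I (hp : IsProb p) (hv : ∀ m J, p (vv m J) = w m) (S : Finset M) {J : Ω}
    (hJ : Function.Injective fun m => bb m J) :
    Ex (piW fun _ : B => p) (I bb vv S J) = ∏ m ∈ S, w m := by
  have := Ex_inj hp S (fun m => bb m J) hJ.injOn
    (fun m s => if s = vv m J then (1 : ℝ) else 0)
  simp only [Ex_ind, hv] at this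
  exact this

theorem Ex_I_mul (hp : IsProb p) (hv : ∀ m J, p (vv m J) = w m) (S : Finset M) {J J' : Ω}
    (hJ : Function.Injective fun m => bb m J) (hJ' : Function.Injective fun m => bb m J')
    (hd : ∀ m ∈ S, ∀ m' ∈ S, bb m J ≠ bb m' J') :
    Ex (piW fun _ : B => p) (fun ξ => I bb vv S J ξ * I bb vv S J' ξ) = (∏ m ∈ S, w m) ^ 2 := by
  have hinj : Set.InjOn (Sum.elim (fun m => bb m J) (fun m => bb m J')) (S.disjSum S : Finset _) := by
    rintro (a | a) ha (b | b) hb hab
    · exact congrArg _ (hJ hab)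
    · exact absurd hab (hd a (by simpa using ha) b (by simpa using hb))
    · exact absurd hab.symm (hd b (by simpa using hb) a (by simpa using ha))
    · exact congrArg _ (hJ' hab)
  have := Ex_inj hp (S.disjSum S) _ hinj
    (Sum.elim (fun m s => if s = vv m J then (1 : ℝ) else 0)
      (fun m s => if s = vv m J' then (1 : ℝ) else 0))
  simp only [Finset.prod_disjSum, Sum.elim_inl, Sum.elim_inr, Ex_ind, hv] at this
  rw [sq]
  exact this

/-- variance of a sum of indicators over a family `F` with few overlapping pairs -/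
theorem var_le (hp : IsProb p) (hv : ∀ m J, p (vv m J) = w m) (S : Finset M) (F : Finset Ω)
    (hF : ∀ J ∈ F, Function.Injective fun m => bb m J) (C : ℝ)
    (hC : ∀ J ∈ F, (((F.filter fun J' => ∃ m ∈ S, ∃ m' ∈ S, bb m J = bb m' J').card : ℕ) : ℝ) ≤ C) :
    Ex (piW fun _ : B => p)
      (fun ξ => (∑ J ∈ F, I bb vv S J ξ - F.card * ∏ m ∈ S, w m) ^ 2) ≤ F.card * C := by
  classical
  have hP : IsProb (piW fun _ : B => p) := IsProb.pi fun _ => hp
  set q := ∏ m ∈ S, w m with hq
  have h1 : Ex (piW fun _ : B => p) (fun ξ => ∑ J ∈ F, I bb vv S J ξ) = F.card * q := by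
    rw [Ex_sum, Finset.sum_congr rfl fun J hJ => Ex_I hp hv S (hF J hJ)]
    simp [hq]
  have h2 : Ex (piW fun _ : B => p) (fun ξ => (∑ J ∈ F, I bb vv S J ξ) ^ 2) ≤
      (F.card * q) ^ 2 + F.card * C := by
    have e : ∀ ξ : B → T, (∑ J ∈ F, I bb vv S J ξ) ^ 2 =
        ∑ J ∈ F, ∑ J' ∈ F, I bb vv S J ξ * I bb vv S J' ξ := by
      intro ξ; rw [sq, Finset.sum_mul_sum]
    rw [Ex_congr e, Ex_sum]
    have h3 : ∀ J ∈ F, Ex (piW fun _ : B => p) (fun ξ => ∑ J' ∈ F, I bb vv S J ξ * I bb vv S J' ξ)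
        ≤ F.card * q ^ 2 + C := by
      intro J hJ
      rw [Ex_sum]
      have h4 : ∀ J' ∈ F, Ex (piW fun _ : B => p) (fun ξ => I bb vv S J ξ * I bb vv S J' ξ) ≤
          q ^ 2 + if ∃ m ∈ S, ∃ m' ∈ S, bb m J = bb m' J' then 1 else 0 := by
        intro J' hJ'
        split_ifs with h
        · have : Ex (piW fun _ : B => p) (fun ξ => I bb vv S J ξ * I bb vv S J' ξ) ≤ 1 := by
            refine (hP.Ex_mono fun ξ => ?_).trans_eq (hP.Ex_const 1)
            exact mul_le_one₀ (I_le_one _ _ _) (I_nonneg _ _ _) (I_le_one _ _ _)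
          nlinarith [sq_nonneg q]
        · push Not at h
          rw [Ex_I_mul hp hv S (hF J hJ) (hF J' hJ') h, add_zero]
      refine (Finset.sum_le_sum h4).trans ?_
      rw [Finset.sum_add_distrib, Finset.sum_boole]
      have := hC J hJ
      simp only [Finset.sum_const, nsmul_eq_mul]
      linarith
    refine (Finset.sum_le_sum h3).trans (le_of_eq ?_)
    simp only [Finset.sum_const, nsmul_eq_mul]
    ring
  have e2 : ∀ ξ : B → T, (∑ J ∈ F, I bb vv S J ξ - F.card * q) ^ 2 =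
      ((∑ J ∈ F, I bb vv S J ξ) ^ 2 - (2 * (F.card * q)) * ∑ J ∈ F, I bb vv S J ξ) +
        (F.card * q) ^ 2 := by
    intro ξ; ring
  rw [Ex_congr e2, Ex_add, Ex_sub, Ex_const_mul, h1, hP.Ex_const]
  nlinarith

theorem core {X : Type} [Fintype M] [DecidableEq M] [Fintype X] [DecidableEq X] [DecidableEq Ω]
    (hp : IsProb p) (hv : ∀ m J, p (vv m J) = w m) (hw : ∀ m, 0 < w m)
    (a : M → Ω → X) (Adm : Finset Ω) (P C δ : ℝ) (hP : 0 < P) (hC0 : 0 ≤ C) (hδ : 0 < δ)
    (hX : (Fintype.card X : ℝ) ≤ P)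
    (hinj : ∀ J ∈ Adm, Function.Injective fun m => bb m J)
    (hfib : ∀ m x, (((Adm.filter fun J => a m J = x).card : ℕ) : ℝ) ≤ P)
    (hco : ∀ m, ∀ J ∈ Adm, (((Adm.filter fun J' => a m J' = a m J ∧
      ∃ m' m'', m'' ≠ m ∧ bb m' J = bb m'' J').card : ℕ) : ℝ) ≤ C) :
    ∃ 𝒥 ⊆ Adm, (∀ J ∈ 𝒥, ∀ J' ∈ 𝒥, ∀ m m', bb m J = bb m' J' → vv m J = vv m' J') ∧
      (∀ m x, (((𝒥.filter fun J => a m J = x).card : ℕ) : ℝ) ≤ (1 + δ) * P * (∏ m, w m) / w m) ∧
      (∏ m, w m) * Adm.card - P * C * (1 + δ) * (∑ m, w m) / (δ ^ 2 * ∏ m, w m) ≤ 𝒥.card := by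
  classical
  have hPr : IsProb (piW fun _ : B => p) := IsProb.pi fun _ => hp
  set π := ∏ m, w m with hπ
  have hπ0 : 0 < π := Finset.prod_pos fun m _ => hw m
  have hq : ∀ m, ∏ m' ∈ univ.erase m, w m' = π / w m := by
    intro m
    rw [eq_div_iff (hw m).ne', hπ, Finset.prod_erase_mul _ _ (mem_univ m)]
  let F : M → X → Finset Ω := fun m x => Adm.filter fun J => a m J = x
  let Y : M → X → (B → T) → ℝ := fun m x ξ => ∑ J ∈ F m x, I bb vv (univ.erase m) J ξ
  let E : M → ℝ := fun m => P * (π / w m)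
  have hE : ∀ m, 0 < E m := fun m => by have := hw m; positivity
  let κ : M → ℝ := fun m => (1 + δ) / (δ ^ 2 * E m)
  have hκ : ∀ m, 0 ≤ κ m := fun m => by have := hE m; positivity
  let Φ : (B → T) → ℝ := fun ξ => ∑ J ∈ Adm, I bb vv univ J ξ -
    ∑ m, ∑ x, (Y m x ξ - (F m x).card * (π / w m)) ^ 2 * κ m
  have hvar : ∀ m x, Ex (piW fun _ : B => p)
      (fun ξ => (Y m x ξ - (F m x).card * (π / w m)) ^ 2) ≤ P * C := by
    intro m x
    have := var_le (bb := bb) hp hv (univ.erase m) (F m x)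
      (fun J hJ => hinj J (mem_filter.1 hJ).1) C (by
        intro J hJ
        obtain ⟨hJ1, hJ2⟩ := mem_filter.1 hJ
        refine le_trans ?_ (hco m J hJ1)
        norm_cast
        refine Finset.card_le_card fun J' hJ' => ?_
        obtain ⟨h1, m', -, m'', hm'', h2⟩ := mem_filter.1 hJ'
        obtain ⟨h3, h4⟩ := mem_filter.1 h1
        exact mem_filter.2 ⟨h3, h4.trans hJ2.symm, m', m'', (mem_erase.1 hm'').1, h2⟩)
    rw [hq] at this
    exact this.trans (mul_le_mul_of_nonneg_right (hfib m x) hC0)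
  have hΦ : π * Adm.card - P * C * (1 + δ) * (∑ m, w m) / (δ ^ 2 * π) ≤
      Ex (piW fun _ : B => p) Φ := by
    have h1 : Ex (piW fun _ : B => p) (fun ξ => ∑ J ∈ Adm, I bb vv univ J ξ) = π * Adm.card := by
      rw [Ex_sum, Finset.sum_congr rfl fun J hJ => Ex_I hp hv univ (hinj J hJ)]
      simp [hπ, mul_comm]
    have h2 : Ex (piW fun _ : B => p)
        (fun ξ => ∑ m, ∑ x, (Y m x ξ - (F m x).card * (π / w m)) ^ 2 * κ m) ≤
        P * C * (1 + δ) * (∑ m, w m) / (δ ^ 2 * π) := by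
      rw [Ex_sum, Finset.mul_sum, Finset.sum_div]
      refine Finset.sum_le_sum fun m _ => ?_
      rw [Ex_sum]
      have h3 : ∀ x ∈ (univ : Finset X), Ex (piW fun _ : B => p)
          (fun ξ => (Y m x ξ - (F m x).card * (π / w m)) ^ 2 * κ m) ≤ P * C * κ m := by
        intro x _
        rw [Ex_mul_const]
        exact mul_le_mul_of_nonneg_right (hvar m x) (hκ m)
      refine (Finset.sum_le_sum h3).trans ?_
      simp only [Finset.sum_const, nsmul_eq_mul, card_univ]
      have h4 : 0 ≤ P * C * κ m := by have := hκ m; positivity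
      refine (mul_le_mul_of_nonneg_right hX h4).trans (le_of_eq ?_)
      have := hw m
      simp only [κ, E]
      field_simp
    simp only [Φ]
    rw [Ex_sub, h1]
    linarith
  obtain ⟨ξ, hξ⟩ := exists_ge_Ex hPr Φ
  let G : Finset Ω := Adm.filter fun J => ∀ m, ξ (bb m J) = vv m J
  have hGY : ∀ m x, (((G.filter fun J => a m J = x).card : ℕ) : ℝ) ≤ Y m x ξ := by
    intro m x
    have hsub : (G.filter fun J => a m J = x) ⊆ F m x := by
      intro J hJ
      obtain ⟨h1, h2⟩ := mem_filter.1 hJ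
      exact mem_filter.2 ⟨(mem_filter.1 h1).1, h2⟩
    calc (((G.filter fun J => a m J = x).card : ℕ) : ℝ)
        = ∑ J ∈ G.filter fun J => a m J = x, I bb vv (univ.erase m) J ξ := by
          have h5 : ∀ J ∈ G.filter fun J => a m J = x, I bb vv (univ.erase m) J ξ = 1 := by
            intro J hJ
            have h6 : J ∈ G := (mem_filter.1 hJ).1
            exact I_eq_one fun m' _ => (mem_filter.1 h6).2 m'
          rw [Finset.sum_congr rfl h5]
          simp
      _ ≤ Y m x ξ := Finset.sum_le_sum_of_subset_of_nonneg hsub fun J _ _ => I_nonneg _ _ _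
  let 𝒥 : Finset Ω := G.filter fun J => ∀ m, Y m (a m J) ξ ≤ (1 + δ) * E m
  refine ⟨𝒥, fun J hJ => (mem_filter.1 (mem_filter.1 hJ).1).1, ?_, ?_, ?_⟩
  · intro J hJ J' hJ' m m' h
    rw [← (mem_filter.1 (mem_filter.1 hJ).1).2 m, ← (mem_filter.1 (mem_filter.1 hJ').1).2 m', h]
  · intro m x
    have hE' : (1 + δ) * P * π / w m = (1 + δ) * E m := by simp only [E]; ring
    rw [hE']
    rcases (𝒥.filter fun J => a m J = x).eq_empty_or_nonempty with h | ⟨J, hJ⟩
    · rw [h]; have := hE m; simp only [card_empty, Nat.cast_zero]; positivity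
    · obtain ⟨h1, h2⟩ := mem_filter.1 hJ
      have h3 := (mem_filter.1 h1).2 m
      rw [h2] at h3
      refine le_trans ?_ ((hGY m x).trans h3)
      norm_cast
      exact Finset.card_le_card (Finset.filter_subset_filter _ (Finset.filter_subset _ _))
  · refine hΦ.trans (hξ.trans ?_)
    have hG : ∑ J ∈ Adm, I bb vv univ J ξ = G.card := by
      simp only [G]
      rw [Finset.card_filter]
      push_cast
      refine Finset.sum_congr rfl fun J _ => ?_
      split_ifs with h
      · exact I_eq_one fun m _ => h m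
      · exact I_eq_zero fun h' => h fun m => h' m (mem_univ m)
    have hsub : G ⊆ 𝒥 ∪ univ.biUnion fun m => univ.biUnion fun x =>
        if (1 + δ) * E m < Y m x ξ then G.filter fun J => a m J = x else ∅ := by
      intro J hJ
      by_cases h : ∀ m, Y m (a m J) ξ ≤ (1 + δ) * E m
      · exact mem_union_left _ (mem_filter.2 ⟨hJ, h⟩)
      · push Not at h
        obtain ⟨m, hm⟩ := h
        refine mem_union_right _ (mem_biUnion.2 ⟨m, mem_univ _, mem_biUnion.2
          ⟨a m J, mem_univ _, ?_⟩⟩)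
        rw [if_pos hm]
        exact mem_filter.2 ⟨hJ, rfl⟩
    have hc : G.card ≤ 𝒥.card + ∑ m, ∑ x,
        (if (1 + δ) * E m < Y m x ξ then G.filter fun J => a m J = x else ∅).card := by
      refine (Finset.card_le_card hsub).trans ((Finset.card_union_le _ _).trans ?_)
      refine Nat.add_le_add_left (Finset.card_biUnion_le.trans ?_) _
      exact Finset.sum_le_sum fun m _ => Finset.card_biUnion_le
    have hc' : (G.card : ℝ) ≤ 𝒥.card + ∑ m, ∑ x,
        (((if (1 + δ) * E m < Y m x ξ then G.filter fun J => a m J = x else ∅).card : ℕ) : ℝ) := by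
      exact_mod_cast hc
    have hb : ∑ m, ∑ x,
        (((if (1 + δ) * E m < Y m x ξ then G.filter fun J => a m J = x else ∅).card : ℕ) : ℝ) ≤
        ∑ m, ∑ x, (Y m x ξ - (F m x).card * (π / w m)) ^ 2 * κ m := by
      refine Finset.sum_le_sum fun m _ => Finset.sum_le_sum fun x _ => ?_
      split_ifs with h
      · refine (hGY m x).trans (tail_bound hδ (hE m) ?_ h)
        have := hw m
        exact mul_le_mul_of_nonneg_right (hfib m x) (by positivity)
      · have := hκ m
        simp only [card_empty, Nat.cast_zero]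
        positivity
    simp only [Φ]
    rw [hG]
    linarith

end core

end Crest.Agent.R75.Kaux
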