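import Mathlib
import Crest.Agent.R75.KCore

/-!
# Row 75: the packing lemma (random block types, second moment)

Suggested proof.  `π = ∏ w m`, `Lmax = max L`, `ε'` small, block length `Λ ≫ Lmax`, `P` a prime
`≫ Λ` (larger than all `L m`, all `|L m n m' - L m' n m|`), `Hh = (P-1)/2`.  For
`J ∈ range P ×ˢ range P` let `A J m ∈ [-Hh, Hh]` be the residue of `L m J.1 + n m J.2`
(e.g. `(… + Hh) % P - Hh`).  Signed block `⌊x/Λ⌋`, folded block `b x = (if 0 ≤ x then x else -1-x)/Λ`.
Types: `ξ : blocks → M × Bool` i.i.d. with `p (m, ±) = w m` (total mass `2 ∑ w = 1`);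
`ty x = ξ (b x)` for `x ≥ 0`, and `ξ (b x)` with the Boolean flipped for `x < 0`, so that
`ty (-1-x) = flip (ty x)`.  `J` is *admissible* if for all `m`, `A J m + L m ≤ Hh` and
`⌊(A J m + k)/Λ⌋ = ⌊A J m/Λ⌋` for `0 ≤ k < L m`, and the folded blocks `b (A J m)` (`m ∈ M`) are
pairwise distinct; *good* if admissible and `ty (A J m) = (m, true)` for all `m`.
* `J ↦ (A J m, A J m')` is injective for `m ≠ m'` (determinant nonzero mod `P`), each fibre of
  `J ↦ A J m` has `P` points (`L m ≠ 0` mod `P`); so all but `ε' P²` of the `J` are admissible.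
* product formula: for distinct blocks `b i` and values `v i`,
  `E ∏_i 1[ξ (b i) = v i] = ∏ p (v i)` (`Finset.prod_univ_sum` / `Fintype.piFinset`); so
  `E #good = π #admissible`.
* `Y m a = ∑_{J admissible, A J m = a} ∏_{m' ≠ m} 1[ty (A J m') = (m', true)]` has mean
  `μ ≤ E m := P π / w m` and variance `≤ #{(J,J') on the line with a common folded block among the
  m' ≠ m, m'' ≠ m} ≤ P |M|² 2Λ`.  If `Y > (1+ε') E` then `Y ≤ (Y-μ)² (1+ε') / (ε'² E)`.
* `𝒥 = {J good | ∀ m, Y m (A J m) ≤ (1+ε') E m}`; `#𝒥 ≥ #good - ∑_{m,a} Y 1[Y > (1+ε')E]`, whose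
  expectation is `≥ (1-ε') P² π - O(P)`.  Take `D = (1+ε') P π`.
All cells `A J m + k` lie in `[-Hh, Hh)`, a set of distinct residues stable under `x ↦ -1-x`, and have
type `(m, true)`: this gives the disjointness clauses.
-/

set_option autoImplicit false

open Finset

namespace Crest.Agent.R75

namespace Kaux

open Crest.Agent.R16

/-- folding `y ↦ -1 - y` -/
def fold (y : ℤ) : ℤ := if 0 ≤ y then y else -1 - y

theorem neg_ediv' {Λ : ℤ} (hΛ : 0 < Λ) (y : ℤ) : (-1 - y) / Λ = -1 - y / Λ := by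
  have h1 := Int.emod_add_mul_ediv y Λ
  have h2 := Int.emod_nonneg y hΛ.ne'
  have h3 := Int.emod_lt_of_pos y hΛ
  rw [Int.ediv_eq_iff_of_pos hΛ]
  constructor <;> nlinarith

theorem add_ediv' {Λ : ℤ} (hΛ : 0 < Λ) {y k : ℤ} (hk : 0 ≤ k) (h : y % Λ + k < Λ) :
    (y + k) / Λ = y / Λ := by
  have h1 := Int.emod_add_mul_ediv y Λ
  have h2 := Int.emod_nonneg y hΛ.ne'
  rw [Int.ediv_eq_iff_of_pos hΛ]
  constructor <;> nlinarith

section arith

variable {P : ℕ} [Fact P.Prime]

theorem card_beta {Λ : ℕ} (hΛ : 0 < Λ) (b : ℤ) :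
    ((univ : Finset (ZMod P)).filter fun x => fold (x.valMinAbs / Λ) = b).card ≤ 2 * Λ := by
  have hΛ' : (0 : ℤ) < Λ := by exact_mod_cast hΛ
  have h : ((univ : Finset (ZMod P)).filter fun x => fold (x.valMinAbs / Λ) = b).card ≤
      (Finset.Ico (b * Λ) (b * Λ + Λ) ∪ Finset.Ico ((-1 - b) * Λ) ((-1 - b) * Λ + Λ)).card := by
    refine Finset.card_le_card_of_injOn ZMod.valMinAbs ?_ (ZMod.injective_valMinAbs.injOn)
    intro x hx
    have hx' : fold (x.valMinAbs / Λ) = b := (mem_filter.1 hx).2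
    simp only [coe_union, coe_Ico, Set.mem_union, Set.mem_Ico]
    unfold fold at hx'
    split_ifs at hx' with h
    · left; exact (Int.ediv_eq_iff_of_pos hΛ').1 hx'
    · right
      exact (Int.ediv_eq_iff_of_pos hΛ').1 (by omega)
  refine h.trans ((Finset.card_union_le _ _).trans ?_)
  simp only [Int.card_Ico, add_sub_cancel_left, Int.toNat_natCast]
  omega

theorem card_bad {Λ : ℕ} (hΛ : 0 < Λ) {L : ℤ} (hL : 0 < L) :
    ((((univ : Finset (ZMod P)).filter fun x =>
      ¬ (2 * (x.valMinAbs + L) ≤ P ∧ x.valMinAbs % Λ + L ≤ Λ)).card : ℕ) : ℝ) ≤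
      (2 * P / Λ + 3) * L := by
  have hΛ' : (0 : ℤ) < Λ := by exact_mod_cast hΛ
  have h1 : ((univ : Finset (ZMod P)).filter fun x => ¬ 2 * (x.valMinAbs + L) ≤ P).card ≤
      (Finset.Ioc ((P : ℤ) / 2 - L) (P / 2)).card := by
    refine Finset.card_le_card_of_injOn ZMod.valMinAbs ?_ (ZMod.injective_valMinAbs.injOn)
    intro x hx
    have hx' : ¬ 2 * (x.valMinAbs + L) ≤ P := (mem_filter.1 hx).2
    have := (ZMod.valMinAbs_mem_Ioc x).2
    simp only [coe_Ioc, Set.mem_Ioc]
    omega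
  set Q : ℤ := (P : ℤ) / Λ with hQ
  have hQ0 : 0 ≤ Q := Int.ediv_nonneg (by positivity) hΛ'.le
  have hQ1 : Q * Λ ≤ P := Int.ediv_mul_le _ hΛ'.ne'
  have hQ2 : (P : ℤ) < (Q + 1) * Λ := Int.lt_ediv_add_one_mul_self _ hΛ'
  have h2 : ((univ : Finset (ZMod P)).filter fun x => ¬ x.valMinAbs % Λ + L ≤ Λ).card ≤
      (Finset.Icc (-Q - 1) Q ×ˢ Finset.Ico ((Λ : ℤ) - L) Λ).card := by
    refine Finset.card_le_card_of_injOn (fun x => (x.valMinAbs / Λ, x.valMinAbs % Λ)) ?_ ?_
    · intro x hx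
      have hx' : ¬ x.valMinAbs % Λ + L ≤ Λ := (mem_filter.1 hx).2
      have h3 := ZMod.valMinAbs_mem_Ioc x
      have h4 := Int.emod_lt_of_pos x.valMinAbs hΛ'
      obtain ⟨h5, h6⟩ := h3
      simp only [coe_product, coe_Icc, coe_Ico, Set.mem_prod, Set.mem_Icc, Set.mem_Ico]
      refine ⟨⟨?_, ?_⟩, by omega, h4⟩
      · rw [Int.le_ediv_iff_mul_le hΛ']
        have : (0 : ℤ) ≤ P := by positivity
        nlinarith
      · exact Int.ediv_le_ediv hΛ' (by omega)
    · intro x _ y _ hxy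
      simp only [Prod.mk.injEq] at hxy
      apply ZMod.injective_valMinAbs
      rw [← Int.emod_add_mul_ediv x.valMinAbs Λ, ← Int.emod_add_mul_ediv y.valMinAbs Λ,
        hxy.1, hxy.2]
  have h3 : ((univ : Finset (ZMod P)).filter fun x =>
      ¬ (2 * (x.valMinAbs + L) ≤ P ∧ x.valMinAbs % Λ + L ≤ Λ)) ⊆
      ((univ : Finset (ZMod P)).filter fun x => ¬ 2 * (x.valMinAbs + L) ≤ P) ∪
      ((univ : Finset (ZMod P)).filter fun x => ¬ x.valMinAbs % Λ + L ≤ Λ) := by
    intro x hx
    have := (mem_filter.1 hx).2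
    simp only [mem_union, mem_filter, mem_univ, true_and]
    tauto
  have h4 := (Finset.card_le_card h3).trans ((Finset.card_union_le _ _).trans (add_le_add h1 h2))
  rw [Finset.card_product, Int.card_Ioc, Int.card_Icc, Int.card_Ico] at h4
  have h5 : (((P : ℤ) / 2 - (P / 2 - L)).toNat + (Q + 1 - (-Q - 1)).toNat * (Λ - (Λ - L)).toNat : ℤ)
      = (2 * Q + 3) * L := by
    rw [Int.toNat_of_nonneg (by omega), Int.toNat_of_nonneg (by omega),
      Int.toNat_of_nonneg (by omega)]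
    ring
  have h6 : ((((univ : Finset (ZMod P)).filter fun x =>
      ¬ (2 * (x.valMinAbs + L) ≤ P ∧ x.valMinAbs % Λ + L ≤ Λ)).card : ℕ) : ℤ) ≤ (2 * Q + 3) * L := by
    rw [← h5]; exact_mod_cast h4
  have h7 : ((((univ : Finset (ZMod P)).filter fun x =>
      ¬ (2 * (x.valMinAbs + L) ≤ P ∧ x.valMinAbs % Λ + L ≤ Λ)).card : ℕ) : ℝ) ≤
      (2 * (Q : ℝ) + 3) * L := by exact_mod_cast h6
  refine h7.trans (mul_le_mul_of_nonneg_right ?_ (by exact_mod_cast hL.le))
  have h8 : (Q : ℝ) * Λ ≤ P := by exact_mod_cast hQ1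
  have h9 : (0 : ℝ) < Λ := by exact_mod_cast hΛ
  have : (Q : ℝ) ≤ P / Λ := by rw [le_div_iff₀ h9]; exact h8
  rw [mul_div_assoc]
  linarith

theorem card_fib {l k : ZMod P} (hl : l ≠ 0) (x : ZMod P) :
    ((univ : Finset (ZMod P × ZMod P)).filter fun J => l * J.1 + k * J.2 = x).card ≤ P := by
  have h : ((univ : Finset (ZMod P × ZMod P)).filter fun J => l * J.1 + k * J.2 = x).card ≤
      (univ : Finset (ZMod P)).card := by
    refine Finset.card_le_card_of_injOn Prod.snd (fun _ _ => mem_coe.2 (mem_univ _)) ?_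
    intro J hJ J' hJ' h
    have h1 : l * J.1 + k * J.2 = x := (mem_filter.1 hJ).2
    have h2 : l * J'.1 + k * J'.2 = x := (mem_filter.1 hJ').2
    refine Prod.ext (mul_left_cancel₀ hl ?_) h
    rw [h] at h1
    linear_combination h1 - h2
  simpa [ZMod.card] using h

theorem card_pair {Λ : ℕ} (hΛ : 0 < Λ) {l k l' k' : ZMod P} (hd : l * k' - l' * k ≠ 0)
    (x : ZMod P) (b : ℤ) :
    ((univ : Finset (ZMod P × ZMod P)).filter fun J => l * J.1 + k * J.2 = x ∧
      fold ((l' * J.1 + k' * J.2).valMinAbs / Λ) = b).card ≤ 2 * Λ := by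
  refine le_trans ?_ (card_beta (P := P) hΛ b)
  refine Finset.card_le_card_of_injOn (fun J => l' * J.1 + k' * J.2) ?_ ?_
  · intro J hJ
    exact mem_coe.2 (mem_filter.2 ⟨mem_univ _, (mem_filter.1 hJ).2.2⟩)
  · intro J hJ J' hJ' h
    have h1 : l * J.1 + k * J.2 = x := (mem_filter.1 hJ).2.1
    have h2 : l * J'.1 + k * J'.2 = x := (mem_filter.1 hJ').2.1
    have h3 : l' * J.1 + k' * J.2 = l' * J'.1 + k' * J'.2 := h
    refine Prod.ext (mul_left_cancel₀ hd ?_) (mul_left_cancel₀ hd ?_)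
    · linear_combination k' * (h1 - h2) - k * h3
    · linear_combination l * h3 - l' * (h1 - h2)

theorem cast_ne {z : ℤ} (hz : z ≠ 0) (hP : |z| < P) : (z : ZMod P) ≠ 0 := by
  rw [Ne, ZMod.intCast_zmod_eq_zero_iff_dvd]
  intro h
  exact hz (Int.eq_zero_of_abs_lt_dvd h hP)

end arith

end Kaux

open Kaux Crest.Agent.R16 in
theorem Klemma {M : Type} [Fintype M] [DecidableEq M] (L n : M → ℤ) (w : M → ℝ)
    (hL : ∀ m, 0 < L m) (hdet : ∀ m m', m ≠ m' → L m * n m' ≠ L m' * n m)
    (hw : ∀ m, 0 < w m) (hsum : 2 * ∑ m, w m = 1) (ε : ℝ) (hε : 0 < ε) :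
    ∃ (P : ℕ) (D : ℝ) (𝒥 : Finset (ℤ × ℤ)) (A : ℤ × ℤ → M → ℤ), 0 < P ∧ 0 < D ∧
      (∀ J ∈ 𝒥, ∀ m, A J m ≡ L m * J.1 + n m * J.2 [ZMOD P]) ∧
      (∀ J ∈ 𝒥, ∀ J' ∈ 𝒥, ∀ (m m' : M) (k k' : ℤ), 0 ≤ k → k < L m → 0 ≤ k' → k' < L m' →
        (A J m + k ≡ A J' m' + k' [ZMOD P] → m = m' ∧ A J m + k = A J' m' + k') ∧
        ¬ A J m + k ≡ -1 - (A J' m' + k') [ZMOD P]) ∧
      (∀ (m : M) (a : ℤ), ((𝒥.filter fun J => A J m = a).card : ℝ) ≤ D / w m) ∧
      (1 - ε) * P * D ≤ 𝒥.card := by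
  classical
  set δ := ε / 3 with hδdef
  have hδ : 0 < δ := by positivity
  set π := ∏ m, w m with hπ
  have hπ0 : 0 < π := Finset.prod_pos fun m _ => hw m
  set Ls : ℝ := ∑ m, (L m : ℝ) with hLs
  have hLs0 : 0 ≤ Ls := Finset.sum_nonneg fun m _ => by exact_mod_cast (hL m).le
  set c : ℝ := ((Fintype.card M : ℕ) : ℝ) with hc
  have hc0 : 0 ≤ c := by positivity
  obtain ⟨Λ, hΛ1⟩ := exists_nat_gt (2 * Ls / δ)
  have hΛr : (0 : ℝ) < Λ := lt_of_le_of_lt (by positivity) hΛ1
  have hΛ : 0 < Λ := by exact_mod_cast hΛr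
  have hΛ' : (0 : ℤ) < Λ := by exact_mod_cast hΛ
  have hΛ2 : 2 * Ls / Λ ≤ δ := by
    rw [div_le_iff₀ hΛr]; rw [div_lt_iff₀ hδ] at hΛ1; linarith
  set C : ℝ := c ^ 2 * (2 * Λ) with hC
  have hC0 : 0 ≤ C := by positivity
  set K : ℝ := π * (3 * Ls + C) + C * (1 + δ) * (∑ m, w m) / (δ ^ 2 * π) with hK
  obtain ⟨N1, hN1⟩ := exists_nat_gt (K / (δ * π))
  obtain ⟨P, hPN, hPp⟩ := Nat.exists_infinite_primes
    (N1 + ∑ m, (L m).natAbs + ∑ m, ∑ m', (L m * n m' - L m' * n m).natAbs + 1)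
  have : Fact P.Prime := ⟨hPp⟩
  have hP0 : (0 : ℝ) < P := by exact_mod_cast hPp.pos
  have hPK : K ≤ δ * π * P := by
    have : (N1 : ℝ) ≤ P := by exact_mod_cast (by omega : N1 ≤ P)
    rw [div_lt_iff₀ (by positivity)] at hN1
    nlinarith [mul_pos hδ hπ0]
  have hLne : ∀ m, ((L m : ℤ) : ZMod P) ≠ 0 := by
    intro m
    refine cast_ne (hL m).ne' ?_
    have : (L m).natAbs ≤ ∑ m, (L m).natAbs :=
      Finset.single_le_sum (f := fun m => (L m).natAbs) (fun _ _ => Nat.zero_le _) (mem_univ m)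
    rw [← Int.natCast_natAbs]
    exact_mod_cast (by omega : (L m).natAbs < P)
  have hdne : ∀ m m', m ≠ m' → (L m : ZMod P) * n m' - L m' * n m ≠ 0 := by
    intro m m' h
    have h0 : ((L m * n m' - L m' * n m : ℤ) : ZMod P) ≠ 0 := by
      refine cast_ne (sub_ne_zero.2 (hdet m m' h)) ?_
      have h1 : (L m * n m' - L m' * n m).natAbs ≤ ∑ m', (L m * n m' - L m' * n m).natAbs :=
        Finset.single_le_sum (f := fun m' => (L m * n m' - L m' * n m).natAbs)
          (fun _ _ => Nat.zero_le _) (mem_univ m')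
      have h2 : ∑ m', (L m * n m' - L m' * n m).natAbs ≤
          ∑ m, ∑ m', (L m * n m' - L m' * n m).natAbs :=
        Finset.single_le_sum (f := fun m => ∑ m', (L m * n m' - L m' * n m).natAbs)
          (fun _ _ => Nat.zero_le _) (mem_univ m)
      rw [← Int.natCast_natAbs]
      exact_mod_cast (by omega : (L m * n m' - L m' * n m).natAbs < P)
    exact_mod_cast h0
  let a : M → ZMod P × ZMod P → ZMod P := fun m J => L m * J.1 + n m * J.2
  let β : ZMod P → ℤ := fun x => fold (x.valMinAbs / Λ)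
  let B := {b : ℤ // b ∈ (univ : Finset (ZMod P)).image β}
  let bb : M → ZMod P × ZMod P → B := fun m J => ⟨β (a m J), mem_image_of_mem _ (mem_univ _)⟩
  let vv : M → ZMod P × ZMod P → M × Bool := fun m J => (m, decide (0 ≤ (a m J).valMinAbs / Λ))
  let Bad : M → Finset (ZMod P) := fun m => univ.filter fun x =>
    ¬ (2 * (x.valMinAbs + L m) ≤ P ∧ x.valMinAbs % Λ + L m ≤ Λ)
  let Adm : Finset (ZMod P × ZMod P) := univ.filter fun J =>
    (∀ m, a m J ∉ Bad m) ∧ Function.Injective fun m => bb m J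
  have hp : IsProb (fun t : M × Bool => w t.1) := by
    refine ⟨fun t => (hw t.1).le, ?_⟩
    rw [Fintype.sum_prod_type]
    simp only [Finset.sum_const, card_univ, Fintype.card_bool, nsmul_eq_mul]
    rw [← Finset.mul_sum]
    exact_mod_cast hsum
  have hpair : ∀ m m', m ≠ m' → ∀ x b,
      (univ.filter fun J => a m J = x ∧ β (a m' J) = b).card ≤ 2 * Λ :=
    fun m m' h x b => card_pair hΛ (hdne m m' h) x b
  have hfib : ∀ m x, (univ.filter fun J => a m J = x).card ≤ P :=
    fun m x => card_fib (hLne m) x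
  have hAdm : (P : ℝ) ^ 2 ≤ Adm.card + (δ * P ^ 2 + (3 * Ls + C) * P) := by
    have hsub : (univ : Finset (ZMod P × ZMod P)) ⊆ Adm ∪
        ((univ.biUnion fun m => (Bad m).biUnion fun x => univ.filter fun J => a m J = x) ∪
        univ.biUnion fun m => univ.biUnion fun m' => univ.biUnion fun x =>
          if m = m' then ∅ else univ.filter fun J => a m J = x ∧ β (a m' J) = β x) := by
      intro J _
      by_cases h1 : ∀ m, a m J ∉ Bad m
      · by_cases h2 : Function.Injective fun m => bb m J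
        · exact mem_union_left _ (mem_filter.2 ⟨mem_univ _, h1, h2⟩)
        · obtain ⟨m, m', h3, h4⟩ := Function.not_injective_iff.1 h2
          refine mem_union_right _ (mem_union_right _ (mem_biUnion.2 ⟨m, mem_univ _,
            mem_biUnion.2 ⟨m', mem_univ _, mem_biUnion.2 ⟨a m J, mem_univ _, ?_⟩⟩⟩))
          rw [if_neg h4]
          exact mem_filter.2 ⟨mem_univ _, rfl, (congrArg Subtype.val h3).symm⟩
      · push Not at h1
        obtain ⟨m, hm⟩ := h1
        exact mem_union_right _ (mem_union_left _ (mem_biUnion.2 ⟨m, mem_univ _,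
          mem_biUnion.2 ⟨a m J, hm, mem_filter.2 ⟨mem_univ _, rfl⟩⟩⟩))
    have h1 : (univ.biUnion fun m => (Bad m).biUnion fun x =>
        (univ : Finset (ZMod P × ZMod P)).filter fun J => a m J = x).card ≤
        ∑ m, (Bad m).card * P := by
      refine Finset.card_biUnion_le.trans (Finset.sum_le_sum fun m _ => ?_)
      refine Finset.card_biUnion_le.trans ?_
      exact (Finset.sum_le_card_nsmul _ _ _ fun x _ => hfib m x).trans_eq (by simp)
    have h2 : (univ.biUnion fun m => univ.biUnion fun m' => univ.biUnion fun x =>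
        if m = m' then (∅ : Finset (ZMod P × ZMod P)) else
          univ.filter fun J => a m J = x ∧ β (a m' J) = β x).card ≤
        Fintype.card M * (Fintype.card M * (P * (2 * Λ))) := by
      refine Finset.card_biUnion_le.trans ?_
      refine (Finset.sum_le_card_nsmul _ _ (Fintype.card M * (P * (2 * Λ))) fun m _ => ?_).trans_eq
        (by simp)
      refine Finset.card_biUnion_le.trans ?_
      refine (Finset.sum_le_card_nsmul _ _ (P * (2 * Λ)) fun m' _ => ?_).trans_eq (by simp)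
      refine Finset.card_biUnion_le.trans ?_
      refine (Finset.sum_le_card_nsmul _ _ (2 * Λ) fun x _ => ?_).trans_eq (by simp [ZMod.card])
      split_ifs with h
      · simp
      · exact hpair m m' h x _
    have h3 := (Finset.card_le_card hsub).trans ((Finset.card_union_le _ _).trans
      (Nat.add_le_add_left ((Finset.card_union_le _ _).trans (add_le_add h1 h2)) _))
    rw [card_univ, Fintype.card_prod, ZMod.card] at h3
    have h4 : (P : ℝ) * P ≤ Adm.card + (∑ m, ((Bad m).card : ℝ) * P + c * (c * (P * (2 * Λ)))) := by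
      rw [hc]; exact_mod_cast h3
    have h5 : ∑ m, ((Bad m).card : ℝ) * P ≤ (2 * P / Λ + 3) * Ls * P := by
      rw [← Finset.sum_mul, hLs, Finset.mul_sum]
      exact mul_le_mul_of_nonneg_right (Finset.sum_le_sum fun m _ => card_bad hΛ (hL m)) hP0.le
    have h6 : (2 * P / Λ + 3) * Ls * P = (2 * Ls / Λ) * P ^ 2 + 3 * Ls * P := by ring
    have h7 : (2 * Ls / Λ) * (P : ℝ) ^ 2 ≤ δ * P ^ 2 := mul_le_mul_of_nonneg_right hΛ2 (by positivity)
    have h8 : c * (c * (P * (2 * Λ))) = C * P := by rw [hC]; ring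
    nlinarith
  obtain ⟨𝒥, h𝒥, hcons, hfibre, hcard⟩ := core (bb := bb) (vv := vv) hp (fun _ _ => rfl) hw a Adm
    P C δ hP0 hC0 hδ (by simp [ZMod.card]) (fun J hJ => (mem_filter.1 hJ).2.2)
    (fun m x => by
      have : (Adm.filter fun J => a m J = x).card ≤ P :=
        (Finset.card_le_card (Finset.filter_subset_filter _ (subset_univ _))).trans (hfib m x)
      exact_mod_cast this)
    (fun m J _ => by
      have hsub : (Adm.filter fun J' => a m J' = a m J ∧
          ∃ m' m'', m'' ≠ m ∧ bb m' J = bb m'' J') ⊆ univ.biUnion fun m' => univ.biUnion fun m'' =>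
            if m = m'' then ∅ else
              univ.filter fun J' => a m J' = a m J ∧ β (a m'' J') = β (a m' J) := by
        intro J' hJ'
        obtain ⟨-, h1, m', m'', h2, h3⟩ := mem_filter.1 hJ'
        refine mem_biUnion.2 ⟨m', mem_univ _, mem_biUnion.2 ⟨m'', mem_univ _, ?_⟩⟩
        rw [if_neg (Ne.symm h2)]
        exact mem_filter.2 ⟨mem_univ _, h1, (congrArg Subtype.val h3).symm⟩
      have h2 : (Adm.filter fun J' => a m J' = a m J ∧
          ∃ m' m'', m'' ≠ m ∧ bb m' J = bb m'' J').card ≤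
          Fintype.card M * (Fintype.card M * (2 * Λ)) := by
        refine (Finset.card_le_card hsub).trans (Finset.card_biUnion_le.trans ?_)
        refine (Finset.sum_le_card_nsmul _ _ (Fintype.card M * (2 * Λ)) fun m' _ => ?_).trans_eq
          (by simp)
        refine Finset.card_biUnion_le.trans ?_
        refine (Finset.sum_le_card_nsmul _ _ (2 * Λ) fun m'' _ => ?_).trans_eq (by simp)
        split_ifs with h
        · simp
        · exact hpair m m'' h _ _
      have h3 : ((Adm.filter fun J' => a m J' = a m J ∧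
          ∃ m' m'', m'' ≠ m ∧ bb m' J = bb m'' J').card : ℝ) ≤ c * (c * (2 * Λ)) := by
        rw [hc]; exact_mod_cast h2
      refine h3.trans (le_of_eq ?_)
      rw [hC]; ring)
  let ι : ZMod P × ZMod P → ℤ × ℤ := fun J => ((J.1.val : ℤ), (J.2.val : ℤ))
  have hι : Function.Injective ι := by
    intro J J' h
    simp only [ι, Prod.mk.injEq, Nat.cast_inj] at h
    exact Prod.ext (ZMod.val_injective _ h.1) (ZMod.val_injective _ h.2)
  let A : ℤ × ℤ → M → ℤ := fun J m => (a m ((J.1 : ZMod P), (J.2 : ZMod P))).valMinAbs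
  have hA : ∀ J m, A (ι J) m = (a m J).valMinAbs := by
    intro J m
    simp [A, ι]
  refine ⟨P, (1 + δ) * P * π, 𝒥.image ι, A, hPp.pos, by positivity, ?_, ?_, ?_, ?_⟩
  · intro J _ m
    rw [← ZMod.intCast_eq_intCast_iff]
    simp [A, a]
  · intro J0 hJ0 J0' hJ0' m m' k k' hk0 hk hk0' hk'
    obtain ⟨J, hJ, rfl⟩ := mem_image.1 hJ0
    obtain ⟨J', hJ', rfl⟩ := mem_image.1 hJ0'
    rw [hA, hA]
    have hb : ∀ J ∈ 𝒥, ∀ m, 2 * ((a m J).valMinAbs + L m) ≤ P ∧
        (a m J).valMinAbs % Λ + L m ≤ Λ := by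
      intro J hJ m
      have := (mem_filter.1 (h𝒥 hJ)).2.1 m
      by_contra h
      exact this (mem_filter.2 ⟨mem_univ _, h⟩)
    obtain ⟨h1, h2⟩ := hb J hJ m
    obtain ⟨h1', h2'⟩ := hb J' hJ' m'
    have h3 := (ZMod.valMinAbs_mem_Ioc (a m J)).1
    have h3' := (ZMod.valMinAbs_mem_Ioc (a m' J')).1
    have h4 := add_ediv' hΛ' (y := (a m J).valMinAbs) hk0 (by omega)
    have h4' := add_ediv' hΛ' (y := (a m' J').valMinAbs) hk0' (by omega)
    have hcons' := hcons J hJ J' hJ' m m'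
    constructor
    · intro h
      have h5 : (a m J).valMinAbs + k = (a m' J').valMinAbs + k' := by
        have := Int.eq_zero_of_abs_lt_dvd h.dvd (by rw [abs_lt]; constructor <;> omega)
        omega
      refine ⟨?_, h5⟩
      have h6 : (a m J).valMinAbs / Λ = (a m' J').valMinAbs / Λ := by rw [← h4, ← h4', h5]
      have := hcons' (Subtype.ext (by simp only [bb, β, h6]))
      exact congrArg Prod.fst this
    · intro h
      have h5 : (a m J).valMinAbs + k = -1 - ((a m' J').valMinAbs + k') := by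
        have := Int.eq_zero_of_abs_lt_dvd h.dvd (by rw [abs_lt]; constructor <;> omega)
        omega
      have h6 : (a m J).valMinAbs / Λ = -1 - (a m' J').valMinAbs / Λ := by
        rw [← h4, ← h4', h5, neg_ediv' hΛ']
      have h7 := hcons' (Subtype.ext (by
        simp only [bb, β, h6, Kaux.fold]
        split_ifs <;> omega))
      have h8 := congrArg Prod.snd h7
      simp only [vv, h6, decide_eq_decide] at h8
      omega
  · intro m a0
    refine le_trans ?_ (hfibre m (a0 : ZMod P))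
    rw [Finset.filter_image, Finset.card_image_of_injective _ hι]
    norm_cast
    refine Finset.card_le_card fun J hJ => ?_
    obtain ⟨h1, h2⟩ := mem_filter.1 hJ
    refine mem_filter.2 ⟨h1, ?_⟩
    rw [← h2, hA, ZMod.coe_valMinAbs]
  · rw [Finset.card_image_of_injective _ hι]
    refine le_trans ?_ hcard
    have h1 : P * C * (1 + δ) * (∑ m, w m) / (δ ^ 2 * π) = P * (K - π * (3 * Ls + C)) := by
      rw [hK]; ring
    rw [h1]
    have h2 := mul_le_mul_of_nonneg_left hAdm hπ0.le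
    have h3 := mul_le_mul_of_nonneg_left hPK hP0.le
    have hε3 : ε = 3 * δ := by rw [hδdef]; ring
    have h4 : 0 ≤ δ ^ 2 * π * (P : ℝ) ^ 2 := by positivity
    rw [hε3]
    nlinarith

end Crest.Agent.R75
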