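import Crest.Agent.R75.Defs
import Crest.Agent.R75.F2
import Crest.Agent.R75.K
import Crest.Agent.R75.Gauss

/-!
# Row 75: a dense finite model

Proof plan.  WLOG `ε ≤ 1`.  `F2 (ε/2)` gives `M, L, n, c`; `w m = ‖c m‖²`; `ε₁` small (depending on
`ε` and `∑ ‖c m‖`).  `Klemma … ε₁` gives `P, D, 𝒥, A`.  `exists_moduli` with
`B = 2 P ∏ L m ∏_{m ≠ m'} |L m n m' - L m' n m|`, `r m = L m / w m`, `R ≥ D / ε₁` gives `R, q`.
`Q = ∏ q m`, `Qm m = ∏_{m' ≠ m} q m'`, `W = Q P`, `μ₀ = ⌊R / D⌋₊`, segments `S = 𝒥 × Fin μ₀`,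
`lam = 1 / (R P)`, tiles `T = S × Σ m, Fin (Qm m)` (or a subtype of `S × M × Fin Q`).
* colours: `cap m = ⌊R / w m⌋₊ ≥ #{s | A s.1 m = a}`; `rank s m < cap m` injective in `s` on each
  such fibre; `col s m = (A s.1 m % L m) * cap m + rank s m < L m * cap m ≤ q m`.
  CRT: `z s` with `L m (J.1 + P z) + n m J.2 ≡ col s m + A J m [ZMOD q m]` for all `m`
  (`L m P` is invertible mod `q m`).
* tile `(s, m, j)`: `st = L m (J.1 + P z s) + n m J.2 + j * q m * P`, `len = L m`.
  `inj`: mod `P` gives `m = m'` and `A + k = A' + k'`; mod `q m` gives `col = col'`, so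
  `A ≡ A' mod L m`, hence `A = A'`, `k = k'`, equal ranks, `s = s'`; finally `j q P ≡ j' q P mod Q P`.
  `mir`: mod `P`.
* `α m = ∑_{m₀ ≠ m} (L m n m₀ - L m₀ n m) ∏_{m₁ ≠ m, m₀} q m₁` is coprime to `Qm m` (odd), and
  `α m / Qm m = L m ψ₁ + n m ψ₂` with `ψ₁ = ∑_{m₀} n m₀ / q m₀`, `ψ₂ = -∑_{m₀} L m₀ / q m₀`.
  `gauss_flat (Qm m) (α m)` gives `v m`; `u (s,m,j) = c m / ‖c m‖ * v m j`.
  `t st / W = t (L m ω₁ + n m ω₂) + t j / Qm m` with `ω = (J.1 + P z, J.2) / (Q P)`, so the sum in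
  `bound` is `∑_m 2 Re (c' m e (L m x + n m y))` with `x = -t ω₁ - γ + t² ψ₁`, `y = -t ω₂ + t² ψ₂`,
  `c' m = c m / ‖c m‖ * √(L m R / q m)`, `L m R / q m ∈ [w m / (1+ε₁), w m]`, so
  `‖c' m - c m‖ ≤ ε₁ ‖c m‖`.
* `∑ len = #S ∑_m Qm m L m`, `Qm m L m = Q L m / q m ≥ Q w m / ((1+ε₁) R)`;
  `#S = #𝒥 μ₀ ≥ (1-ε₁) P D (R/D - 1)`: density.  `packing_card` (in `Defs`) gives `2 ∑ len ≤ W`,
  so `∑ lam = #S / (R P) ≤ 1 + ε₁`.
-/

set_option autoImplicit false

open Finset

namespace Crest.Agent.R75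

namespace FM0aux

theorem exists_rank {S X : Type} [Fintype S] [DecidableEq X] (f : S → X) (cap : ℕ)
    (h : ∀ a, (univ.filter fun s => f s = a).card ≤ cap) :
    ∃ r : S → ℕ, (∀ s, r s < cap) ∧ ∀ s s', f s = f s' → r s = r s' → s = s' := by
  classical
  have h1 : ∀ a, ∃ g : S → ℕ, (∀ s, f s = a → g s < cap) ∧
      ∀ s s', f s = a → f s' = a → g s = g s' → s = s' := by
    intro a
    let F := univ.filter fun s => f s = a
    have hm : ∀ s, f s = a → s ∈ F := fun s hs => mem_filter.2 ⟨mem_univ _, hs⟩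
    refine ⟨fun s => if hs : f s = a then (F.equivFin ⟨s, hm s hs⟩ : ℕ) else 0, ?_, ?_⟩
    · intro s hs
      simp only [dif_pos hs]
      exact (F.equivFin ⟨s, hm s hs⟩).2.trans_le (h a)
    · intro s s' hs hs' hg
      simp only [dif_pos hs, dif_pos hs'] at hg
      exact congrArg Subtype.val (F.equivFin.injective (Fin.ext hg))
  choose g hg1 hg2 using h1
  refine ⟨fun s => g (f s) s, fun s => hg1 _ s rfl, fun s s' hf hr => ?_⟩
  refine hg2 (f s) s s' rfl hf.symm ?_
  simp only at hr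
  rw [hr, hf]

theorem crt {M : Type} [Fintype M] (q : M → ℕ) (hq : ∀ m m', m ≠ m' → Nat.Coprime (q m) (q m'))
    (b τ : M → ℤ) (hb : ∀ m, IsCoprime (b m) (q m)) :
    ∃ z : ℤ, ∀ m, b m * z ≡ τ m [ZMOD q m] := by
  choose u v huv using hb
  obtain ⟨z, hz⟩ := Ideal.exists_forall_sub_mem_ideal
    (I := fun m => Ideal.span {(q m : ℤ)}) (fun m m' h => by
      simp only [Function.onFun]
      rw [Ideal.isCoprime_span_singleton_iff]
      exact Nat.isCoprime_iff_coprime.2 (hq m m' h)) (fun m => u m * τ m)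
  refine ⟨z, fun m => ?_⟩
  obtain ⟨k, hk⟩ := Ideal.mem_span_singleton.1 (hz m)
  rw [Int.modEq_iff_dvd]
  refine ⟨v m * τ m - b m * k, ?_⟩
  have := huv m
  linear_combination (-τ m) * this - b m * hk

section alpha

variable {M : Type} [Fintype M] [DecidableEq M]

/-- the quadratic coefficient -/
def alpha (d : M → M → ℤ) (q : M → ℕ) (m : M) : ℤ :=
  ∑ m₀ ∈ univ.erase m, d m m₀ * ∏ m₁ ∈ (univ.erase m).erase m₀, (q m₁ : ℤ)

theorem alpha_coprime (d : M → M → ℤ) (q : M → ℕ)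
    (hq : ∀ m m', m ≠ m' → Nat.Coprime (q m) (q m'))
    (hd : ∀ m m', m ≠ m' → IsCoprime (d m m') (q m')) (m : M) :
    IsCoprime (alpha d q m) ((∏ m' ∈ univ.erase m, q m' : ℕ) : ℤ) := by
  push_cast
  refine IsCoprime.prod_right fun m' hm' => ?_
  unfold alpha
  rw [← Finset.add_sum_erase _ _ hm']
  have hdvd : (q m' : ℤ) ∣ ∑ m₀ ∈ (univ.erase m).erase m',
      d m m₀ * ∏ m₁ ∈ (univ.erase m).erase m₀, (q m₁ : ℤ) := by
    refine Finset.dvd_sum fun m₀ hm₀ => Dvd.dvd.mul_left ?_ _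
    exact Finset.dvd_prod_of_mem _ (mem_erase.2 ⟨(mem_erase.1 hm₀).1.symm, hm'⟩)
  obtain ⟨k, hk⟩ := hdvd
  rw [hk]
  refine IsCoprime.add_mul_left_left ?_ k
  refine IsCoprime.mul_left (hd m m' (mem_erase.1 hm').1.symm) ?_
  exact IsCoprime.prod_left fun m₁ hm₁ =>
    Nat.isCoprime_iff_coprime.2 (hq m₁ m' (mem_erase.1 hm₁).1)

theorem alpha_div (L n : M → ℤ) (q : M → ℕ) (hq : ∀ m, 0 < q m) (m : M) :
    (alpha (fun m m' => L m * n m' - L m' * n m) q m : ℝ) / ((∏ m' ∈ univ.erase m, q m' : ℕ) : ℝ) =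
      L m * (∑ m₀, (n m₀ : ℝ) / q m₀) + n m * (-∑ m₀, (L m₀ : ℝ) / q m₀) := by
  have h1 : L m * (∑ m₀, (n m₀ : ℝ) / q m₀) + n m * (-∑ m₀, (L m₀ : ℝ) / q m₀) =
      ∑ m₀ ∈ univ.erase m, ((L m : ℝ) * n m₀ - L m₀ * n m) / q m₀ := by
    rw [Finset.sum_erase _ (by simp), mul_neg, Finset.mul_sum, Finset.mul_sum, ← sub_eq_add_neg,
      ← Finset.sum_sub_distrib]
    exact Finset.sum_congr rfl fun m₀ _ => by ring
  rw [h1]
  unfold alpha
  push_cast
  rw [Finset.sum_div]
  refine Finset.sum_congr rfl fun m₀ hm₀ => ?_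
  rw [← Finset.mul_prod_erase _ _ hm₀]
  have h2 : (q m₀ : ℝ) ≠ 0 := by exact_mod_cast (hq m₀).ne'
  have h3 : ∏ m₁ ∈ (univ.erase m).erase m₀, (q m₁ : ℝ) ≠ 0 :=
    Finset.prod_ne_zero_iff.2 fun m₁ _ => by exact_mod_cast (hq m₁).ne'
  field_simp

end alpha

theorem perturb {M : Type} [Fintype M] (c E : M → ℂ) (hE : ∀ m, ‖E m‖ = 1) (ρ : M → ℝ) (η : ℝ)
    (hρ : ∀ m, |ρ m - 1| ≤ η) :
    |∑ m, 2 * (((ρ m : ℝ) : ℂ) * (c m * E m)).re| ≤
      |∑ m, 2 * (c m * E m).re| + 2 * η * ∑ m, ‖c m‖ := by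
  have h1 : ∑ m, 2 * (((ρ m : ℝ) : ℂ) * (c m * E m)).re =
      ∑ m, 2 * (c m * E m).re + ∑ m, 2 * ((ρ m - 1) * (c m * E m).re) := by
    rw [← Finset.sum_add_distrib]
    exact Finset.sum_congr rfl fun m _ => by rw [Complex.re_ofReal_mul]; ring
  rw [h1]
  refine (abs_add_le _ _).trans (add_le_add le_rfl ?_)
  refine (Finset.abs_sum_le_sum_abs _ _).trans ?_
  rw [Finset.mul_sum]
  refine Finset.sum_le_sum fun m _ => ?_
  have h2 : |(c m * E m).re| ≤ ‖c m‖ :=
    (Complex.abs_re_le_norm _).trans (by rw [norm_mul, hE, mul_one])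
  rw [abs_mul, abs_mul, abs_two, mul_assoc]
  exact mul_le_mul_of_nonneg_left (mul_le_mul (hρ m) h2 (abs_nonneg _)
    ((abs_nonneg _).trans (hρ m))) zero_le_two

theorem rho_bound {x w η : ℝ} (hw : 0 < w) (hη : 0 < η) (h1 : x ≤ w ^ 2)
    (h2 : w ^ 2 ≤ (1 + η) * x) : |Real.sqrt x / w - 1| ≤ η := by
  have hx : 0 ≤ x := by nlinarith [sq_nonneg w]
  have h3 : Real.sqrt x ≤ w := Real.sqrt_le_iff.2 ⟨hw.le, h1⟩
  have h4 := Real.sq_sqrt hx
  have h5 := Real.sqrt_nonneg x
  have h6 : Real.sqrt x / w ≤ 1 := (div_le_one hw).2 h3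
  have h7 : 1 - η ≤ Real.sqrt x / w := by
    rw [le_div_iff₀ hw]
    by_contra h
    push Not at h
    have h8 : Real.sqrt x * w < (1 - η) * w * w := mul_lt_mul_of_pos_right h hw
    have h9 : x ≤ Real.sqrt x * w := by nlinarith
    have h10 : x < (1 - η) * w ^ 2 := by nlinarith
    have h11 : (1 + η) * x < (1 + η) * ((1 - η) * w ^ 2) := mul_lt_mul_of_pos_left h10 (by linarith)
    nlinarith [mul_pos (mul_pos hη hη) (pow_pos hw 2)]
  rw [abs_le]
  constructor <;> linarith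

end FM0aux

open FM0aux in
theorem exists_dense_model (ε : ℝ) (hε : 0 < ε) : ∃ F : Model ε, F.Dense := by
  classical
  obtain ⟨M, _, _, L, n, c, hL, hc, hdet, hsum, hbd⟩ := F2 (ε / 2) (by positivity)
  have hcn : ∀ m, 0 < ‖c m‖ := fun m => norm_pos_iff.2 (hc m)
  set Sc : ℝ := ∑ m, ‖c m‖ with hSc
  have hSc0 : 0 ≤ Sc := Finset.sum_nonneg fun m _ => norm_nonneg _
  set η : ℝ := ε / (4 * Sc + 3 + ε) with hη
  have hη0 : 0 < η := by positivity
  have hηm : η * (4 * Sc + 3 + ε) = ε := by rw [hη]; field_simp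
  have hη1 : η ≤ 1 := by rw [hη, div_le_one (by positivity)]; linarith
  have hη3 : 3 * η ≤ ε := by nlinarith [mul_nonneg hη0.le hSc0, mul_pos hη0 hε]
  have hη4 : 2 * η * Sc ≤ ε / 2 := by nlinarith [mul_pos hη0 hε]
  let w : M → ℝ := fun m => ‖c m‖ ^ 2
  have hw : ∀ m, 0 < w m := fun m => pow_pos (hcn m) 2
  obtain ⟨P, D, 𝒥, A, hP, hD, hA, hdisj, hfib, hcard⟩ := Klemma L n w hL hdet hw hsum η hη0
  have hLr : ∀ m, (0 : ℝ) < L m := fun m => by exact_mod_cast hL m
  let d : M → M → ℤ := fun m m' => L m * n m' - L m' * n m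
  let d' : M → M → ℕ := fun m m' => if m = m' then 1 else (d m m').natAbs
  have hd' : ∀ m m', 0 < d' m m' := by
    intro m m'
    simp only [d']
    split_ifs with h
    · exact one_pos
    · exact Int.natAbs_pos.2 (sub_ne_zero.2 (hdet m m' h))
  obtain ⟨R, q, hR1, hR0, hq0, hqB, hqq, hqr⟩ := exists_moduli
    (2 * (P * ((∏ m, (L m).natAbs) * ∏ m, ∏ m', d' m m')))
    (by
      have h1 : 0 < ∏ m, (L m).natAbs :=
        Finset.prod_pos fun m _ => Int.natAbs_pos.2 (hL m).ne'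
      have h2 : 0 < ∏ m, ∏ m', d' m m' :=
        Finset.prod_pos fun m _ => Finset.prod_pos fun m' _ => hd' m m'
      positivity)
    (fun m => L m / w m) (fun m => div_pos (hLr m) (hw m)) η hη0 (D / η)
  have hq2 : ∀ m, Nat.Coprime (q m) 2 := fun m => (hqB m).coprime_dvd_right (dvd_mul_right _ _)
  have hqP : ∀ m, Nat.Coprime (q m) P := fun m =>
    (hqB m).coprime_dvd_right ((dvd_mul_right _ _).mul_left _)
  have hqL : ∀ m, IsCoprime (L m) (q m) := by
    intro m
    have : Nat.Coprime (q m) (L m).natAbs := (hqB m).coprime_dvd_right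
      ((((Finset.dvd_prod_of_mem (fun m => (L m).natAbs) (mem_univ m)).mul_right _).mul_left
        _).mul_left _)
    rw [Int.isCoprime_iff_gcd_eq_one, Int.gcd_comm]
    simpa [Int.gcd] using this
  have hqd : ∀ m m', m ≠ m' → IsCoprime (d m m') (q m') := by
    intro m m' h
    have h1 : d' m m' ∣ ∏ m, ∏ m', d' m m' :=
      (Finset.dvd_prod_of_mem (fun m' => d' m m') (mem_univ m')).trans
        (Finset.dvd_prod_of_mem (fun m => ∏ m', d' m m') (mem_univ m))
    have : Nat.Coprime (q m') (d' m m') := (hqB m').coprime_dvd_right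
      (((h1.mul_left _).mul_left _).mul_left _)
    simp only [d', if_neg h] at this
    rw [Int.isCoprime_iff_gcd_eq_one, Int.gcd_comm]
    simpa [Int.gcd] using this
  have hqr0 : ∀ m, (0 : ℝ) < q m := fun m => by exact_mod_cast hq0 m
  have hPr : (0 : ℝ) < P := by exact_mod_cast hP
  let Qm : M → ℕ := fun m => ∏ m' ∈ univ.erase m, q m'
  let Q : ℕ := ∏ m, q m
  have hQ : ∀ m, Q = Qm m * q m := fun m => (Finset.prod_erase_mul _ _ (mem_univ m)).symm
  have hQ0 : 0 < Q := Finset.prod_pos fun m _ => hq0 m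
  have hQm0 : ∀ m, 0 < Qm m := fun m => Finset.prod_pos fun m _ => hq0 m
  have hQr : (0 : ℝ) < Q := by exact_mod_cast hQ0
  have hQmr : ∀ m, (0 : ℝ) < Qm m := fun m => by exact_mod_cast hQm0 m
  have hQR : ∀ m, (Q : ℝ) = Qm m * q m := fun m => by exact_mod_cast hQ m
  have hodd : ∀ m, Odd (Qm m) := fun m =>
    Nat.coprime_two_right.1 (Nat.Coprime.prod_left fun m' _ => hq2 m')
  choose v hv1 hv2 using fun m => gauss_flat (Qm m) (hodd m) (alpha d q m)
    (alpha_coprime d q hqq hqd m)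
  let μ₀ : ℕ := ⌊R / D⌋₊
  let S : Type := {J // J ∈ 𝒥} × Fin μ₀
  let cap : M → ℕ := fun m => ⌊R / w m⌋₊
  have hcap : ∀ m a, ((univ : Finset S).filter fun s => A s.1.1 m = a).card ≤ cap m := by
    intro m a
    have h1 : ((univ : Finset S).filter fun s => A s.1.1 m = a).card ≤
        ((𝒥.filter fun J => A J m = a) ×ˢ (univ : Finset (Fin μ₀))).card := by
      refine Finset.card_le_card_of_injOn (fun s => (s.1.1, s.2)) ?_ ?_
      · intro s hs
        exact mem_coe.2 (mem_product.2 ⟨mem_filter.2 ⟨s.1.2, (mem_filter.1 hs).2⟩, mem_univ _⟩)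
      · intro s _ s' _ h
        simp only [Prod.mk.injEq] at h
        exact Prod.ext (Subtype.ext h.1) h.2
    refine h1.trans (Nat.le_floor ?_)
    rw [Finset.card_product, card_univ, Fintype.card_fin]
    push_cast
    have h2 : (μ₀ : ℝ) ≤ R / D := Nat.floor_le (by positivity)
    have h3 := hw m
    refine (mul_le_mul (hfib m a) h2 (by positivity) (by positivity)).trans (le_of_eq ?_)
    field_simp
  choose rank hrank1 hrank2 using fun m => exists_rank (fun s : S => A s.1.1 m) (cap m) (hcap m)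
  have hcapq : ∀ m, L m * cap m ≤ q m := by
    intro m
    have h1 : (cap m : ℝ) ≤ R / w m := Nat.floor_le (by have := hw m; positivity)
    have h2 : (L m : ℝ) * cap m ≤ q m := by
      refine (mul_le_mul_of_nonneg_left h1 (hLr m).le).trans (le_trans (le_of_eq ?_) (hqr m).1)
      ring
    exact_mod_cast h2
  let col : S → M → ℤ := fun s m => (A s.1.1 m % L m) * cap m + rank m s
  have hcol : ∀ s m, 0 ≤ col s m ∧ col s m < q m := by
    intro s m
    have h1 := Int.emod_nonneg (A s.1.1 m) (hL m).ne'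
    have h2 := Int.emod_lt_of_pos (A s.1.1 m) (hL m)
    have h3 : (rank m s : ℤ) < cap m := by exact_mod_cast hrank1 m s
    have h4 : (0 : ℤ) ≤ cap m := by positivity
    have h5 := hcapq m
    simp only [col]
    constructor
    · positivity
    · nlinarith
  choose z hz using fun s : S => crt q hqq (fun m => L m * P)
    (fun m => col s m + A s.1.1 m - (L m * s.1.1.1 + n m * s.1.1.2))
    (fun m => (hqL m).mul_left (Nat.isCoprime_iff_coprime.2 (hqP m).symm))
  let ω : S → M → ℤ := fun s m => L m * (s.1.1.1 + P * z s) + n m * s.1.1.2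
  let T : Type := S × (Σ m : M, Fin (Qm m))
  let st : T → ℤ := fun i => ω i.1 i.2.1 + (i.2.2 : ℕ) * q i.2.1 * P
  let len : T → ℕ := fun i => (L i.2.1).toNat
  have hlen : ∀ i : T, (len i : ℤ) = L i.2.1 := fun i => Int.toNat_of_nonneg (hL _).le
  have hstP : ∀ i : T, st i ≡ A i.1.1.1 i.2.1 [ZMOD P] := by
    intro i
    refine Int.ModEq.trans ?_ (hA _ i.1.1.2 _).symm
    rw [Int.modEq_iff_dvd]
    exact ⟨-(L i.2.1 * z i.1) - (i.2.2 : ℕ) * q i.2.1, by simp only [st, ω]; ring⟩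
  have hstq : ∀ i : T, st i ≡ col i.1 i.2.1 + A i.1.1.1 i.2.1 [ZMOD q i.2.1] := by
    intro i
    obtain ⟨k, hk⟩ := (hz i.1 i.2.1).dvd
    rw [Int.modEq_iff_dvd]
    exact ⟨k - (i.2.2 : ℕ) * P, by simp only [st, ω]; linear_combination hk⟩
  have hPW : (P : ℤ) ∣ ((Q * P : ℕ) : ℤ) := by exact_mod_cast dvd_mul_left P Q
  have hinj : ∀ (i j : T) (k l : ℕ), k < len i → l < len j →
      st i + k ≡ st j + l [ZMOD ((Q * P : ℕ) : ℤ)] → i = j ∧ k = l := by
    rintro ⟨s, m, j⟩ ⟨s', m', j'⟩ k l hk hl h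
    have hk' : (k : ℤ) < L m := by rw [← hlen (s, ⟨m, j⟩)]; exact_mod_cast hk
    have hl' : (l : ℤ) < L m' := by rw [← hlen (s', ⟨m', j'⟩)]; exact_mod_cast hl
    have h1 : A s.1.1 m + k ≡ A s'.1.1 m' + l [ZMOD P] :=
      ((hstP (s, ⟨m, j⟩)).symm.add_right _).trans
        ((h.of_dvd hPW).trans ((hstP (s', ⟨m', j'⟩)).add_right _))
    obtain ⟨rfl, h2⟩ := (hdisj _ s.1.2 _ s'.1.2 m m' k l (by positivity) hk' (by positivity)
      hl').1 h1
    have hqW : (q m : ℤ) ∣ ((Q * P : ℕ) : ℤ) := by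
      rw [hQ m]; exact_mod_cast (dvd_mul_left _ _).mul_right P
    have h3 : col s m + A s.1.1 m + k ≡ col s' m + A s'.1.1 m + l [ZMOD q m] :=
      ((hstq (s, ⟨m, j⟩)).symm.add_right _).trans
        ((h.of_dvd hqW).trans ((hstq (s', ⟨m, j'⟩)).add_right _))
    have h4 : col s m = col s' m := by
      have h5 := h3.dvd
      have h6 : col s' m + A s'.1.1 m + l - (col s m + A s.1.1 m + k) = col s' m - col s m := by
        linear_combination -h2
      rw [h6] at h5
      have h7 := hcol s m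
      have h8 := hcol s' m
      have := Int.eq_zero_of_abs_lt_dvd h5 (by rw [abs_lt]; constructor <;> omega)
      omega
    have hr : (rank m s : ℤ) < cap m := by exact_mod_cast hrank1 m s
    have hr' : (rank m s' : ℤ) < cap m := by exact_mod_cast hrank1 m s'
    have h5 : (rank m s : ℤ) = rank m s' := by
      have h6 : (cap m : ℤ) ∣ (rank m s : ℤ) - rank m s' :=
        ⟨A s'.1.1 m % L m - A s.1.1 m % L m, by simp only [col] at h4; linear_combination h4⟩
      have := Int.eq_zero_of_abs_lt_dvd h6 (by rw [abs_lt]; constructor <;> omega)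
      omega
    have h6 : A s.1.1 m % L m = A s'.1.1 m % L m := by
      simp only [col] at h4
      have : (cap m : ℤ) ≠ 0 := by omega
      exact mul_right_cancel₀ this (by linear_combination h4 - h5)
    have h7 : (k : ℤ) = l := by
      have h8 : L m ∣ A s'.1.1 m - A s.1.1 m := Int.ModEq.dvd h6
      have h9 : A s'.1.1 m - A s.1.1 m = k - l := by linear_combination -h2
      rw [h9] at h8
      have := Int.eq_zero_of_abs_lt_dvd h8 (by rw [abs_lt]; constructor <;> omega)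
      omega
    have h8 : A s.1.1 m = A s'.1.1 m := by omega
    obtain rfl : s = s' := hrank2 m s s' h8 (by exact_mod_cast h5)
    have h9 : (Qm m : ℤ) ∣ ((j' : ℕ) : ℤ) - (j : ℕ) := by
      have h10 := h.dvd
      have h11 : st (s, ⟨m, j'⟩) + l - (st (s, ⟨m, j⟩) + k) =
          (((j' : ℕ) : ℤ) - (j : ℕ)) * (q m * P) := by
        simp only [st]; linear_combination -h7
      rw [h11, hQ m] at h10
      push_cast at h10
      rw [mul_assoc] at h10
      have h12 : (q m : ℤ) * P ≠ 0 := by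
        have := hq0 m
        positivity
      exact (mul_dvd_mul_iff_right h12).1 h10
    have h10 : j = j' := by
      have h11 := j.2
      have h12 := j'.2
      have := Int.eq_zero_of_abs_lt_dvd h9 (by rw [abs_lt]; constructor <;> omega)
      exact Fin.ext (by omega)
    subst h10
    exact ⟨rfl, by omega⟩
  have hmir : ∀ (i j : T) (k l : ℕ), k < len i → l < len j →
      ¬ st i + k ≡ -1 - (st j + l) [ZMOD ((Q * P : ℕ) : ℤ)] := by
    intro i j k l hk hl h
    have hk' : (k : ℤ) < L i.2.1 := by rw [← hlen i]; exact_mod_cast hk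
    have hl' : (l : ℤ) < L j.2.1 := by rw [← hlen j]; exact_mod_cast hl
    refine (hdisj _ i.1.1.2 _ j.1.1.2 i.2.1 j.2.1 k l (by positivity) hk' (by positivity)
      hl').2 ?_
    exact ((hstP i).symm.add_right _).trans
      ((h.of_dvd hPW).trans (((hstP j).add_right _).sub_left _))
  have hpack := packing_card (Q * P) (Nat.mul_pos hQ0 hP) st len hinj hmir
  have hlenr : ∀ i : T, (len i : ℝ) = L i.2.1 := fun i => by exact_mod_cast hlen i
  have hsumlen : (Fintype.card S : ℝ) * Q / ((1 + η) * R) ≤ 2 * ∑ i, (len i : ℝ) := by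
    have h1 : ∑ i, (len i : ℝ) = Fintype.card S * ∑ m, (Qm m : ℝ) * L m := by
      simp only [hlenr]
      rw [Fintype.sum_prod_type]
      simp only [Fintype.sum_sigma, Finset.sum_const, card_univ, Fintype.card_fin, nsmul_eq_mul]
    have h2 : ∀ m, (Q : ℝ) / ((1 + η) * R) * w m ≤ (Qm m : ℝ) * L m := by
      intro m
      have h3 := (hqr m).2
      have h4 := hw m
      rw [hQR m, div_mul_eq_mul_div, div_le_iff₀ (by positivity)]
      have h5 : (q m : ℝ) * w m ≤ (1 + η) * (R * L m) := by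
        refine (mul_le_mul_of_nonneg_right h3 h4.le).trans (le_of_eq ?_)
        field_simp
      have := mul_le_mul_of_nonneg_left h5 (hQmr m).le
      nlinarith
    have h3 := Finset.sum_le_sum fun m (_ : m ∈ univ) => h2 m
    rw [← Finset.mul_sum] at h3
    have h4 : ∑ m, w m = 1 / 2 := by simp only [w]; linarith
    rw [h4] at h3
    rw [h1, mul_div_assoc]
    have h5 : (0 : ℝ) ≤ Fintype.card S := by positivity
    nlinarith
  have hS : (Fintype.card S : ℝ) = 𝒥.card * μ₀ := by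
    simp [S]
  refine ⟨{
    W := Q * P, S := S, T := T, seg := Prod.fst, st := st, len := len
    u := fun i => c i.2.1 / (‖c i.2.1‖ : ℝ) * v i.2.1 i.2.2
    lam := fun _ => 1 / (R * P)
    hW := Nat.mul_pos hQ0 hP
    hlen := fun i => by have := hlen i; have := hL i.2.1; omega
    hu := fun i => by
      rw [norm_mul, hv1, norm_div, Complex.norm_real, Real.norm_of_nonneg (norm_nonneg _),
        div_self (hcn _).ne', one_mul]
    hlam := fun _ => by positivity
    hsum := ?_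
    inj := hinj
    mir := hmir
    bound := ?_ }, ?_⟩
  · have h1 : 2 * ∑ i, (len i : ℝ) ≤ Q * P := by exact_mod_cast hpack
    have h2 := hsumlen.trans h1
    rw [div_le_iff₀ (by positivity)] at h2
    simp only [Finset.sum_const, card_univ, nsmul_eq_mul]
    rw [mul_one_div, div_le_iff₀ (by positivity)]
    have h3 : (Fintype.card S : ℝ) ≤ P * ((1 + η) * R) := by
      refine le_of_mul_le_mul_right ?_ hQr
      linarith
    have h4 : 0 < R * P := by positivity
    nlinarith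
  · intro s t γ
    let x : ℝ := -(t * ((s.1.1.1 + P * z s : ℤ) : ℝ) / (Q * P)) - γ +
      t ^ 2 * ∑ m₀, (n m₀ : ℝ) / q m₀
    let y : ℝ := -(t * (s.1.1.2 : ℝ) / (Q * P)) + t ^ 2 * (-∑ m₀, (L m₀ : ℝ) / q m₀)
    let ρ : M → ℝ := fun m => Real.sqrt (L m * R / q m) / ‖c m‖
    have hρ : ∀ m, |ρ m - 1| ≤ η := by
      intro m
      have h1 := hw m
      have h2 := hqr0 m
      refine rho_bound (hcn m) hη0 ?_ ?_
      · have h3 := (hqr m).1
        rw [div_le_iff₀ h2]
        rw [mul_div_assoc', div_le_iff₀ h1] at h3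
        simp only [w] at h3
        linarith
      · have h3 := (hqr m).2
        rw [← mul_div_assoc, le_div_iff₀ h2]
        rw [mul_div_assoc', mul_div_assoc', le_div_iff₀ h1] at h3
        simp only [w] at h3
        linarith
    have hm : ∀ m, ∑ j : Fin (Qm m), 2 * (((Real.sqrt (len (s, ⟨m, j⟩) /
        (((Q * P : ℕ) : ℝ) * (1 / (R * P)))) : ℝ) : ℂ) * (c m / (‖c m‖ : ℝ) * v m j) *
        e (-(t * st (s, ⟨m, j⟩) / ((Q * P : ℕ) : ℝ)) - len (s, ⟨m, j⟩) * γ)).re =
        2 * (((ρ m : ℝ) : ℂ) * (c m * e (L m * x + n m * y))).re := by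
      intro m
      rw [← Finset.mul_sum, ← Complex.re_sum]
      congr 2
      have h1 := hqr0 m
      have h2 := hQmr m
      have h3 : ∀ j : Fin (Qm m), ((Real.sqrt (len (s, ⟨m, j⟩) /
          (((Q * P : ℕ) : ℝ) * (1 / (R * P)))) : ℝ) : ℂ) * (c m / (‖c m‖ : ℝ) * v m j) *
          e (-(t * st (s, ⟨m, j⟩) / ((Q * P : ℕ) : ℝ)) - len (s, ⟨m, j⟩) * γ) =
          (((Real.sqrt (L m * R / Q) : ℝ) : ℂ) * (c m / (‖c m‖ : ℝ)) *
            e (-(t * ω s m / (Q * P)) - L m * γ)) * (v m j * e (-(t * (j : ℕ) / Qm m))) := by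
        intro j
        have h4 : (len (s, ⟨m, j⟩) : ℝ) / (((Q * P : ℕ) : ℝ) * (1 / (R * P))) = L m * R / Q := by
          rw [hlenr]; push_cast; field_simp
        have h5 : -(t * st (s, ⟨m, j⟩) / ((Q * P : ℕ) : ℝ)) - len (s, ⟨m, j⟩) * γ =
            (-(t * ω s m / (Q * P)) - L m * γ) + -(t * (j : ℕ) / Qm m) := by
          rw [hlenr]
          simp only [st]
          push_cast
          rw [hQR m]
          field_simp
          ring
        rw [h4, h5, e_add]
        ring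
      rw [Finset.sum_congr rfl fun j _ => h3 j, ← Finset.mul_sum,
        Fin.sum_univ_eq_sum_range (fun j => v m j * e (-(t * (j : ℕ) / Qm m))), hv2]
      have h6 : (L m : ℝ) * x + n m * y =
          (-(t * ω s m / (Q * P)) - L m * γ) + alpha d q m * t ^ 2 / Qm m := by
        have h7 := alpha_div L n q hq0 m
        have h8 : (alpha d q m : ℝ) * t ^ 2 / Qm m = t ^ 2 * (alpha d q m / Qm m) := by ring
        rw [h8, h7]
        simp only [x, y, ω]
        push_cast
        ring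
      have h9 : Real.sqrt (L m * R / q m) = Real.sqrt (L m * R / Q) * Real.sqrt (Qm m) := by
        rw [← Real.sqrt_mul (by have := hLr m; positivity), hQR m]
        congr 1
        field_simp
      rw [h6, e_add]
      simp only [ρ, h9]
      push_cast
      ring
    rw [Finset.sum_filter, Fintype.sum_prod_type]
    rw [Finset.sum_eq_single s (fun s' _ h => by simp [h]) (by simp)]
    simp only [if_true]
    rw [Fintype.sum_sigma, Finset.sum_congr rfl fun m _ => hm m]
    refine (perturb c (fun m => e (L m * x + n m * y)) (fun m => norm_e _) ρ η hρ).trans ?_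
    have := hbd x y
    linarith
  · show (1 - ε) * ((Q * P : ℕ) : ℝ) ≤ 2 * ∑ i, (len i : ℝ)
    refine le_trans ?_ hsumlen
    rw [le_div_iff₀ (by positivity), hS]
    have h1 : R / D - 1 ≤ μ₀ := (Nat.sub_one_lt_floor _).le
    have h2 : D ≤ η * R := by rw [div_le_iff₀ hη0] at hR1; linarith
    have h3 : (1 - η) * R ≤ D * μ₀ := by
      have := mul_le_mul_of_nonneg_left h1 hD.le
      rw [mul_sub, mul_div_cancel₀ _ hD.ne'] at this
      linarith
    have h4 : (1 - η) * P * ((1 - η) * R) ≤ 𝒥.card * μ₀ := by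
      calc (1 - η) * P * ((1 - η) * R) ≤ (1 - η) * P * (D * μ₀) :=
            mul_le_mul_of_nonneg_left h3 (mul_nonneg (by linarith) hPr.le)
        _ = ((1 - η) * P * D) * μ₀ := by ring
        _ ≤ 𝒥.card * μ₀ := mul_le_mul_of_nonneg_right hcard (by positivity)
    have h5 : (1 - ε) * (1 + η) ≤ (1 - η) * (1 - η) := by nlinarith
    push_cast
    have h6 : 0 < (P : ℝ) * R * Q := by positivity
    calc (1 - ε) * (Q * P) * ((1 + η) * R) = ((1 - ε) * (1 + η)) * (P * R * Q) := by ring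
      _ ≤ ((1 - η) * (1 - η)) * (P * R * Q) := mul_le_mul_of_nonneg_right h5 h6.le
      _ = ((1 - η) * P * ((1 - η) * R)) * Q := by ring
      _ ≤ 𝒥.card * μ₀ * Q := mul_le_mul_of_nonneg_right h4 hQr.le

end Crest.Agent.R75
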