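import Crest.Agent.R75.Defs

/-!
# Row 75: filling the gaps of a dense finite model

Double the cells: `W' = 2W`, `st' = 2 st`, `len' = 2 len` (`inj`, `mir` persist: look at `y / 2` and
`y % 2`; note `(-1-y)/2 = -1 - y/2` for floor division; `bound` persists with `γ ↦ 2γ`).
Let `U ⊆ range W` be the set of `x` that are not congruent mod `2W` to any `st' i + k` or
`-1 - (st' i + k)` (`k < len' i`).  Add every `x ∈ U` as a unit tile (`st = x`, `len = 1`, `u = 1`) in a
segment of its own with `lam = 4 / W'`, so that its amplitude is `1/2`.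
`packing_card` (in `Defs`) applied to the new family gives `2 (#U + 2 ∑ len) ≤ 2W`, so `#U ≤ ε W` and
`∑ lam' ≤ 1 + ε + 2 ε`.  A residue in `[W, 2W)` that is not covered has its mirror image
`2W - 1 - x` in `U`.
-/

set_option autoImplicit false

open Finset

namespace Crest.Agent.R75

namespace Fillaux

variable {ε : ℝ} (F : Model ε)

/-- Covered by a doubled tile or its mirror image. -/
def Cov (x : ℤ) : Prop :=
  ∃ (i : F.T) (k : ℕ), k < 2 * F.len i ∧
    (x ≡ 2 * F.st i + k [ZMOD (2 * F.W : ℕ)] ∨ x ≡ -1 - (2 * F.st i + k) [ZMOD (2 * F.W : ℕ)])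

open Classical in
/-- The uncovered cells in the first half. -/
noncomputable def U : Finset ℕ := (range F.W).filter fun x => ¬ Cov F x

lemma mem_U {x : ℕ} : x ∈ U F ↔ x < F.W ∧ ¬ Cov F x := by simp [U]

/-- Starting cells. -/
def st' : F.T ⊕ U F → ℤ := Sum.elim (fun i => 2 * F.st i) fun x => (x.1 : ℤ)

/-- Lengths. -/
def len' : F.T ⊕ U F → ℕ := Sum.elim (fun i => 2 * F.len i) fun _ => 1

lemma inj' (i j : F.T ⊕ U F) (k l : ℕ) (hk : k < len' F i) (hl : l < len' F j)
    (h : st' F i + k ≡ st' F j + l [ZMOD (2 * F.W : ℕ)]) : i = j ∧ k = l := by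
  rcases i with i | ⟨x, hx⟩ <;> rcases j with j | ⟨y, hy⟩ <;>
    simp only [st', len', Sum.elim_inl, Sum.elim_inr, Nat.lt_one_iff] at hk hl h
  · obtain ⟨c, hc⟩ := h.dvd
    push_cast at hc
    rw [mul_assoc] at hc
    obtain ⟨h1, h2⟩ := F.inj i j (k / 2) (l / 2) (by omega) (by omega)
      (Int.modEq_iff_dvd.mpr ⟨c, by push_cast; omega⟩)
    exact ⟨by rw [h1], by subst h1; omega⟩
  · subst hl
    exact absurd ⟨i, k, hk, Or.inl (by simpa using h.symm)⟩ ((mem_U F).mp hy).2
  · subst hk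
    exact absurd ⟨j, l, hl, Or.inl (by simpa using h)⟩ ((mem_U F).mp hx).2
  · subst hk hl
    have h1 := ((mem_U F).mp hx).1
    have h2 := ((mem_U F).mp hy).1
    have h3 := Int.eq_zero_of_abs_lt_dvd h.dvd (abs_lt.mpr ⟨by push_cast; omega, by push_cast; omega⟩)
    have : x = y := by omega
    exact ⟨by subst this; rfl, rfl⟩

lemma mir' (i j : F.T ⊕ U F) (k l : ℕ) (hk : k < len' F i) (hl : l < len' F j) :
    ¬ st' F i + k ≡ -1 - (st' F j + l) [ZMOD (2 * F.W : ℕ)] := by
  intro h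
  rcases i with i | ⟨x, hx⟩ <;> rcases j with j | ⟨y, hy⟩ <;>
    simp only [st', len', Sum.elim_inl, Sum.elim_inr, Nat.lt_one_iff] at hk hl h
  · obtain ⟨c, hc⟩ := h.dvd
    push_cast at hc
    rw [mul_assoc] at hc
    exact F.mir i j (k / 2) (l / 2) (by omega) (by omega)
      (Int.modEq_iff_dvd.mpr ⟨c, by push_cast; omega⟩)
  · subst hl
    refine ((mem_U F).mp hy).2 ⟨i, k, hk, Or.inr ?_⟩
    have := (Int.ModEq.refl (-1 : ℤ)).sub h
    simpa using this.symm
  · subst hk
    exact ((mem_U F).mp hx).2 ⟨j, l, hl, Or.inr (by simpa using h)⟩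
  · subst hk hl
    have h1 := ((mem_U F).mp hx).1
    have h2 := ((mem_U F).mp hy).1
    have h3 := Int.eq_zero_of_abs_lt_dvd h.dvd (abs_lt.mpr ⟨by push_cast; omega, by push_cast; omega⟩)
    omega

lemma card_U (hF : F.Dense) : ((U F).card : ℝ) ≤ ε * F.W := by
  have h := packing_card (2 * F.W) (by have := F.hW; omega) (st' F) (len' F) (inj' F) (mir' F)
  simp only [len', Fintype.sum_sum_type, Sum.elim_inl, Sum.elim_inr, sum_const, card_univ,
    Fintype.card_coe, smul_eq_mul, mul_one, ← Finset.mul_sum] at h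
  have h' : (2 : ℝ) * (2 * ∑ i, (F.len i : ℝ) + (U F).card) ≤ 2 * F.W := by exact_mod_cast h
  unfold Model.Dense at hF
  linarith

/-- The filled model. -/
noncomputable def fill (hε : 0 < ε) (hF : F.Dense) : Model (5 * ε) where
  W := 2 * F.W
  S := F.S ⊕ U F
  T := F.T ⊕ U F
  seg := Sum.map F.seg id
  st := st' F
  len := len' F
  u := Sum.elim F.u fun _ => 1
  lam := Sum.elim F.lam fun _ => 2 / F.W
  hW := by have := F.hW; omega
  hlen := by
    rintro (i | x)
    · have := F.hlen i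
      simp only [len', Sum.elim_inl]; omega
    · exact Nat.one_pos
  hu := by
    rintro (i | x)
    · exact F.hu i
    · simp
  hlam := by
    rintro (s | x)
    · exact F.hlam s
    · have : (0 : ℝ) < F.W := by exact_mod_cast F.hW
      simp only [Sum.elim_inr]; positivity
  hsum := by
    have hW : (0 : ℝ) < F.W := by exact_mod_cast F.hW
    have h1 := F.hsum
    have h2 := card_U F hF
    simp only [Fintype.sum_sum_type, Sum.elim_inl, Sum.elim_inr, sum_const, card_univ,
      Fintype.card_coe, nsmul_eq_mul]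
    have h3 : ((U F).card : ℝ) * (2 / F.W) ≤ 2 * ε := by
      rw [← mul_div_assoc, div_le_iff₀ hW]; linarith
    linarith
  inj := inj' F
  mir := mir' F
  bound := by
    have hW : (0 : ℝ) < F.W := by exact_mod_cast F.hW
    rintro (s | x) t γ
    · refine le_trans (le_of_eq ?_) ((F.bound s t (2 * γ)).trans (by linarith))
      congr 1
      rw [Finset.sum_filter, Finset.sum_filter, Fintype.sum_sum_type]
      simp only [Sum.map_inl, Sum.inl.injEq, Sum.map_inr, reduceCtorEq, if_false, sum_const_zero,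
        add_zero, st', len', Sum.elim_inl]
      refine Finset.sum_congr rfl fun i _ => ?_
      have h1 : ((2 * F.len i : ℕ) : ℝ) / (((2 * F.W : ℕ) : ℝ) * F.lam s) =
          F.len i / (F.W * F.lam s) := by
        have := F.hlam s
        push_cast; field_simp
      have h2 : -((t : ℝ) * ((2 * F.st i : ℤ) : ℝ) / ((2 * F.W : ℕ) : ℝ)) -
          ((2 * F.len i : ℕ) : ℝ) * γ = -(t * F.st i / F.W) - F.len i * (2 * γ) := by
        push_cast; field_simp
      rw [h1, h2]
    · rw [Finset.sum_filter, Fintype.sum_sum_type]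
      simp only [Sum.map_inl, Sum.map_inr, reduceCtorEq, if_false, sum_const_zero, zero_add,
        Sum.inr.injEq, id, Finset.sum_ite_eq', mem_univ, if_true, len', Sum.elim_inr]
      have h1 : ((1 : ℕ) : ℝ) / (((2 * F.W : ℕ) : ℝ) * (2 / F.W)) = (1 / 2) ^ 2 := by
        push_cast; field_simp
      rw [h1, Real.sqrt_sq (by norm_num), mul_one, Complex.re_ofReal_mul, ← mul_assoc]
      norm_num
      refine ((Complex.abs_re_le_norm _).trans (norm_e _).le).trans (by linarith)

lemma fill_covers (hε : 0 < ε) (hF : F.Dense) : (fill F hε hF).Covers := by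
  intro x
  by_cases hx : Cov F x
  · obtain ⟨i, k, hk, h⟩ := hx
    exact ⟨Sum.inl i, k, hk, h⟩
  · have hW := F.hW
    have h0 : 0 ≤ x % (2 * F.W : ℕ) := Int.emod_nonneg _ (by push_cast; omega)
    have h1 : x % (2 * F.W : ℕ) < (2 * F.W : ℕ) := Int.emod_lt_of_pos _ (by push_cast; omega)
    have h2 : x % (2 * F.W : ℕ) ≡ x [ZMOD (2 * F.W : ℕ)] := Int.mod_modEq _ _
    obtain ⟨r, hr⟩ := Int.eq_ofNat_of_zero_le h0
    rw [hr] at h1 h2
    by_cases h3 : r < F.W
    · have : r ∈ U F := (mem_U F).mpr ⟨h3, fun ⟨i, k, hk, h⟩ =>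
        hx ⟨i, k, hk, h.imp h2.symm.trans h2.symm.trans⟩⟩
      refine ⟨Sum.inr ⟨r, this⟩, 0, Nat.one_pos, Or.inl ?_⟩
      change x ≡ (r : ℤ) + (0 : ℕ) [ZMOD (2 * F.W : ℕ)]
      simpa using h2.symm
    · have h4 : x ≡ -1 - ((2 * F.W - 1 - r : ℕ) : ℤ) [ZMOD (2 * F.W : ℕ)] :=
        h2.symm.trans (Int.modEq_iff_dvd.mpr ⟨-1, by omega⟩)
      have : 2 * F.W - 1 - r ∈ U F := by
        refine (mem_U F).mpr ⟨by omega, fun ⟨i, k, hk, h⟩ => hx ⟨i, k, hk, ?_⟩⟩
        rcases h with h | h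
        · exact Or.inr (h4.trans ((Int.ModEq.refl _).sub h))
        · refine Or.inl (h4.trans ?_)
          have := (Int.ModEq.refl (-1 : ℤ)).sub h
          simpa using this
      refine ⟨Sum.inr ⟨_, this⟩, 0, Nat.one_pos, Or.inr ?_⟩
      change x ≡ -1 - (((2 * F.W - 1 - r : ℕ) : ℤ) + (0 : ℕ)) [ZMOD (2 * F.W : ℕ)]
      simpa using h4

end Fillaux

theorem Model.fill {ε : ℝ} (hε : 0 < ε) (F : Model ε) (hF : F.Dense) :
    ∃ G : Model (5 * ε), G.Covers :=
  ⟨Fillaux.fill F hε hF, Fillaux.fill_covers F hε hF⟩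

end Crest.Agent.R75
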