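import Crest.Agent.R75.AN
import Crest.Agent.R75.FM0
import Crest.Agent.R75.Fill
import Crest.Agent.R75.D

/-! Row 75: final assembly (finite model, analysis, Parseval, rounding). -/

set_option autoImplicit false

open Finset

namespace Crest.Agent.R75

theorem final (ε : ℝ) (hε : 0 < ε) :
    ∃ N₀ : ℕ, ∀ N ≥ N₀, ∃ c : Fin N → ℤˣ, ∀ z : ℂ, ‖z‖ = 1 →
      (1 - ε) * Real.sqrt N ≤ ‖∑ k : Fin N, ((c k : ℤ) : ℂ) * z ^ (k : ℕ)‖ ∧
        ‖∑ k : Fin N, ((c k : ℤ) : ℂ) * z ^ (k : ℕ)‖ ≤ (1 + ε) * Real.sqrt N := by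
  obtain ⟨e₀, he₀, hr⟩ := rounding (ε / 2) (by positivity)
  set δ : ℝ := min (min (ε / 80) (e₀ / 80)) (1 / 50) with hδ
  have hδ0 : 0 < δ := by positivity
  have hδ1 : δ ≤ ε / 80 := (min_le_left _ _).trans (min_le_left _ _)
  have hδ2 : δ ≤ e₀ / 80 := (min_le_left _ _).trans (min_le_right _ _)
  have hδ3 : δ ≤ 1 / 50 := min_le_right _ _
  obtain ⟨F, hF⟩ := exists_dense_model δ hδ0
  obtain ⟨G, hG⟩ := F.fill hδ0 hF
  obtain ⟨N₀, hN₀⟩ := AN (ε := 5 * δ) (by positivity) (by linarith) G hG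
  refine ⟨max N₀ 1, fun N hN => ?_⟩
  obtain ⟨a, ha, hP⟩ := hN₀ N (le_trans (le_max_left _ _) hN)
  have hN1 : 0 < N := le_trans (le_max_right _ _) hN
  have hNR : (0 : ℝ) < N := by exact_mod_cast hN1
  set s : ℝ := 1 + 4 * (5 * δ) with hs
  have hs0 : 0 < s := by positivity
  have hsq : 0 ≤ Real.sqrt N := Real.sqrt_nonneg _
  let x : Fin N → ℝ := fun k => a k / s
  have hx : ∀ k, |x k| ≤ 1 := fun k => by
    simp only [x]; rw [abs_div, abs_of_pos hs0, div_le_one hs0]; exact ha k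
  have hPx : ∀ θ : ℝ, (1 - 40 * δ) * Real.sqrt N ≤ ‖∑ t : Fin N, (x t : ℂ) * e ((t : ℕ) * θ)‖ ∧
      ‖∑ t : Fin N, (x t : ℂ) * e ((t : ℕ) * θ)‖ ≤ Real.sqrt N := by
    intro θ
    have h1 : ‖∑ t : Fin N, (x t : ℂ) * e ((t : ℕ) * θ)‖ =
        ‖∑ t : Fin N, (a t : ℂ) * e ((t : ℕ) * θ)‖ / s := by
      have : ∑ t : Fin N, (x t : ℂ) * e ((t : ℕ) * θ) =
          (∑ t : Fin N, (a t : ℂ) * e ((t : ℕ) * θ)) / (s : ℂ) := by
        rw [Finset.sum_div]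
        refine Finset.sum_congr rfl fun t _ => ?_
        simp only [x]; push_cast; ring
      rw [this, norm_div, Complex.norm_real, Real.norm_eq_abs, abs_of_pos hs0]
    obtain ⟨h2, h3⟩ := hP θ
    rw [h1, le_div_iff₀ hs0, div_le_iff₀ hs0]
    refine ⟨le_trans ?_ h2, by linarith⟩
    have : (1 - 40 * δ) * s ≤ 1 - 4 * (5 * δ) := by rw [hs]; nlinarith
    nlinarith
  have hpar := discrete_parseval (Finset.univ : Finset (Fin N)) (fun t => ((t : ℕ) : ℤ))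
    (fun t => (x t : ℂ)) N hN1 (by
      intro i _ j _ h
      have hi := i.2; have hj := j.2
      have := Int.eq_zero_of_abs_lt_dvd h (by rw [abs_lt]; constructor <;> omega)
      exact Fin.ext (by omega)) 0
  have hsum : (1 - 80 * δ) * N ≤ ∑ k, x k ^ 2 := by
    have h1 : ∀ l ∈ range N, (1 - 80 * δ) * N ≤
        ‖∑ i : Fin N, (x i : ℂ) * e ((((i : ℕ) : ℤ) : ℝ) * (0 + (l : ℝ) / N))‖ ^ 2 := by
      intro l _
      have h2 := (hPx (0 + (l : ℝ) / N)).1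
      have h3 : 0 ≤ (1 - 40 * δ) * Real.sqrt N := mul_nonneg (by linarith) hsq
      have h4 := pow_le_pow_left₀ h3 h2 2
      rw [mul_pow, Real.sq_sqrt hNR.le] at h4
      push_cast
      nlinarith [mul_nonneg (sq_nonneg δ) hNR.le]
    have h2 := Finset.sum_le_sum h1
    rw [hpar, Finset.sum_const, Finset.card_range, nsmul_eq_mul] at h2
    have h3 := le_of_mul_le_mul_left h2 hNR
    simpa [sq_abs] using h3
  obtain ⟨c, hc⟩ := hr N x hx (by
    have h1 : ∑ k, (1 - |x k|) ≤ ∑ k, (1 - x k ^ 2) := by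
      refine Finset.sum_le_sum fun k _ => ?_
      have := hx k
      have h2 := abs_nonneg (x k)
      rw [← sq_abs]; nlinarith
    rw [Finset.sum_sub_distrib (f := fun _ => (1 : ℝ)) (g := fun k => x k ^ 2)] at h1
    simp only [Finset.sum_const, Finset.card_univ, Fintype.card_fin, nsmul_eq_mul, mul_one] at h1
    nlinarith)
  refine ⟨c, fun z hz => ?_⟩
  obtain ⟨β, -, hβ⟩ := exists_e_eq hz
  have h1 := hc z hz
  obtain ⟨h2, h3⟩ := hPx β
  simp_rw [e_nat_mul, hβ] at h2 h3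
  have h4 : ∑ k : Fin N, (((c k : ℤ) : ℂ) - x k) * z ^ (k : ℕ) =
      ∑ k : Fin N, ((c k : ℤ) : ℂ) * z ^ (k : ℕ) - ∑ k : Fin N, (x k : ℂ) * z ^ (k : ℕ) := by
    rw [← Finset.sum_sub_distrib]
    exact Finset.sum_congr rfl fun k _ => by ring
  rw [h4] at h1
  have h5 := abs_norm_sub_norm_le (∑ k : Fin N, ((c k : ℤ) : ℂ) * z ^ (k : ℕ))
    (∑ k : Fin N, (x k : ℂ) * z ^ (k : ℕ))
  rw [abs_le] at h5
  constructor <;> nlinarith [h5.1, h5.2]

end Crest.Agent.R75
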