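import Crest.Agent.R75.Basic
import Crest.Agent.Lib.Osc.Fresnel

/-!
# Row 75: the truncated Fresnel integral has modulus at most `1 + 1/K`

Suggested proof.  For `a > 0` and `b = π (a - i)`, Mathlib's `integral_gaussian_complex` gives
`∫_ℝ exp (-b s²) = (π/b)^(1/2)`, of modulus `‖a - i‖^(-1/2) ≤ 1`.  Tails: for `K ≤ R`, integration by
parts (`exp (-b s²) = (d/ds exp (-b s²)) / (-2 b s)`) gives
`‖∫_K^R exp (-b s²)‖ ≤ 1/(2‖b‖K) + 1/(2‖b‖R) + (1/(2‖b‖)) (1/K - 1/R) = 1/(‖b‖ K) ≤ 1/(π K)`; let `R → ∞`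
(`intervalIntegral_tendsto_integral`, `integrable_cexp_neg_mul_sq`).  Finally
`‖exp (-b s²) - e (s²/2)‖ ≤ π a K²` on `[-K, K]`; let `a → 0`.
-/

set_option autoImplicit false

namespace Crest.Agent.R75

/-- truncated Fresnel integral -/
noncomputable def Gam (K : ℝ) : ℂ := ∫ s in (-K)..K, e (s ^ 2 / 2)

theorem Fresaux.tail {K R : ℝ} (hK : 0 < K) (hR : K ≤ R) :
    ‖∫ s in K..R, e (s ^ 2 / 2)‖ ≤ 1 / (2 * K) := by
  have hπ := Real.pi_gt_three
  have hW : ∫ x in K..R, |2 * Real.pi| / (2 * Real.pi * x) ^ 2 ≤ 1 / (2 * Real.pi * K) := by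
    have : ∫ x in K..R, |2 * Real.pi| / (2 * Real.pi * x) ^ 2 =
        -(2 * Real.pi * R)⁻¹ - -(2 * Real.pi * K)⁻¹ := by
      apply intervalIntegral.integral_eq_sub_of_hasDerivAt (f := fun x => -(2 * Real.pi * x)⁻¹)
      · intro x hx
        rw [Set.uIcc_of_le hR] at hx
        have hx0 : 0 < x := hK.trans_le hx.1
        refine (((hasDerivAt_id x).const_mul (2 * Real.pi)).fun_inv (by simp; positivity)).fun_neg.congr_deriv ?_
        rw [abs_of_pos (by positivity)]
        simp only [id]; ring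
      · refine Osc.ii_of_contOn hR (continuousOn_const.div (by fun_prop) fun x hx => ?_)
        have hx0 : 0 < x := hK.trans_le hx.1
        positivity
    rw [this, one_div]
    have : 0 < (2 * Real.pi * R)⁻¹ := by have := hK.trans_le hR; positivity
    linarith
  have := Osc.first_deriv_core (L := 2 * Real.pi * K) (A := 1) (V := 0)
    (h := fun x => 2 * Real.pi * (x ^ 2 / 2)) (h1 := fun x => 2 * Real.pi * x)
    (h2 := fun _ => 2 * Real.pi) (g := fun _ => 1) (g1 := fun _ => 0) hR (by positivity)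
    (fun x _ => by
      refine (((hasDerivAt_pow 2 x).div_const 2).const_mul (2 * Real.pi)).congr_deriv ?_
      simp)
    (fun x _ => by simpa using (hasDerivAt_id x).const_mul (2 * Real.pi)) continuousOn_const
    (fun x hx => by
      have hx0 : 0 < x := hK.trans_le hx.1
      rw [abs_of_pos (by positivity)]
      exact mul_le_mul_of_nonneg_left hx.1 (by positivity))
    (fun x _ => hasDerivAt_const x _) continuousOn_const (by simp) (by simp) hW
  simp only [one_mul] at this
  refine this.trans ?_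
  rw [← add_div, div_le_div_iff₀ (by positivity) (by positivity)]
  nlinarith

theorem norm_Gam_le (K : ℝ) (hK : 0 < K) : ‖Gam K‖ ≤ 1 + 1 / K := by
  have hπ := Real.pi_gt_three
  have cF : Continuous fun s : ℝ => e (s ^ 2 / 2) := by unfold e; fun_prop
  have ii : ∀ u v, IntervalIntegrable (fun s : ℝ => e (s ^ 2 / 2)) MeasureTheory.volume u v :=
    fun u v => cF.intervalIntegrable u v
  have key : ∀ R, K ≤ R → ‖Gam K‖ ≤ 1 + 1 / K + 2 / R := by
    intro R hR
    have hR0 : 0 < R := hK.trans_le hR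
    have f := Osc.fresnel (l := 2 * Real.pi) (by positivity) hR0 hR0
    have e0 : (∫ y in (-R)..R, Complex.exp ((2 * Real.pi * y ^ 2 / 2 : ℝ) * Complex.I)) =
        ∫ y in (-R)..R, e (y ^ 2 / 2) := by
      simp only [e, mul_div_assoc]
    rw [e0, ← intervalIntegral.integral_add_adjacent_intervals (ii (-R) K) (ii K R),
      ← intervalIntegral.integral_add_adjacent_intervals (ii (-R) (-K)) (ii (-K) K)] at f
    have e1 : ∫ y in (-R)..(-K), e (y ^ 2 / 2) = ∫ y in K..R, e (y ^ 2 / 2) := by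
      rw [← intervalIntegral.integral_comp_neg]
      simp only [neg_sq]
    rw [e1] at f
    have t := Fresaux.tail hK hR
    have nf : ‖Osc.fres / (Real.sqrt (2 * Real.pi) : ℝ)‖ = 1 := by
      rw [norm_div, Osc.norm_fres, Complex.norm_real, Real.norm_eq_abs,
        abs_of_nonneg (Real.sqrt_nonneg _), div_self (Real.sqrt_pos.2 (by positivity)).ne']
    unfold Gam
    set X := ∫ y in K..R, e (y ^ 2 / 2)
    set G := ∫ y in (-K)..K, e (y ^ 2 / 2)
    set Z := Osc.fres / (Real.sqrt (2 * Real.pi) : ℝ)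
    have e2 : G = (X + G + X - Z) + Z - X - X := by ring
    have s1 := norm_sub_le ((X + G + X - Z) + Z - X) X
    have s2 := norm_sub_le ((X + G + X - Z) + Z) X
    have s3 := norm_add_le (X + G + X - Z) Z
    rw [← e2] at s1
    have b1 : 5 / (2 * Real.pi * R) ≤ 1 / R := by
      rw [div_le_div_iff₀ (by positivity) hR0]; nlinarith
    have e3 : 1 / K = 1 / (2 * K) + 1 / (2 * K) := by field_simp; norm_num
    have e4 : 2 / R = 1 / R + 1 / R := by ring
    linarith
  refine le_of_forall_pos_le_add fun δ hδ => ?_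
  refine (key (max K (2 / δ)) (le_max_left _ _)).trans ?_
  have : 2 / max K (2 / δ) ≤ δ := by
    rw [div_le_iff₀ (hK.trans_le (le_max_left _ _))]
    have := le_max_right K (2 / δ)
    rw [div_le_iff₀ hδ] at this
    linarith
  linarith

theorem integral_quad_eq (α K : ℝ) (hα : 0 < α) :
    ∫ s in (-(K / Real.sqrt α))..(K / Real.sqrt α), e (α * s ^ 2 / 2) =
      Gam K / ((Real.sqrt α : ℝ) : ℂ) := by
  have hs : 0 < Real.sqrt α := Real.sqrt_pos.2 hα
  have e1 : ∀ s : ℝ, e (α * s ^ 2 / 2) = e ((s * Real.sqrt α) ^ 2 / 2) := by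
    intro s
    rw [mul_pow, Real.sq_sqrt hα.le, mul_comm]
  simp only [e1]
  rw [intervalIntegral.integral_comp_mul_right (fun s : ℝ => e (s ^ 2 / 2)) hs.ne', neg_mul,
    div_mul_cancel₀ K hs.ne', Complex.real_smul, Gam]
  push_cast
  ring

end Crest.Agent.R75
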