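import Crest.Agent.R75.Basic
import Crest.Agent.Lib.Osc.Fresnel

/-!
# Row 75: van der Corput lemmas and stationary phase

`vdC1`: `g'` does not vanish on `[a,b]`; integrate by parts:
`∫ e g = [e g / (2π i g')] + ∫ e g * g'' / (2π i g'²)` and `∫_a^b g''/g'² = 1/g' a - 1/g' b`.
`vdC2`: with `δ = 1/√μ` choose `p ∈ [a,b]` (`a` if `g' a ≥ 0`, `b` if `g' b ≤ 0`, else a zero of `g'`)
such that `g' x ≤ -μ δ` for `x ∈ [a, p-δ]` and `g' x ≥ μ δ` for `x ∈ [p+δ, b]`; split at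
`max a (p-δ)` and `min b (p+δ)`.
`stat_phase`: `vdC1` outside the window (`|g' x| ≥ μ δ` there), Taylor inside:
`|g (u₀+s) - g u₀ - g'' u₀ s²/2| ≤ Λ |s|³`, and `norm_e_sub_e_le`.
-/

set_option autoImplicit false

open Set

namespace Crest.Agent.R75

theorem vdC1 {g g' g'' : ℝ → ℝ} (hg : ∀ x, HasDerivAt g (g' x) x)
    (hg' : ∀ x, HasDerivAt g' (g'' x) x) (hc : Continuous g'') {a b lam : ℝ} (hab : a ≤ b)
    (hl : 0 < lam) (h1 : ∀ x ∈ Icc a b, lam ≤ |g' x|) (h2 : ∀ x ∈ Icc a b, 0 ≤ g'' x) :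
    ‖∫ x in a..b, e (g x)‖ ≤ 1 / lam := by
  have hπ := Real.pi_gt_three
  have := Osc.first_deriv_test (L := 2 * Real.pi * lam) (A := 1) (V := 0)
    (h := fun x => 2 * Real.pi * g x) (h1 := fun x => 2 * Real.pi * g' x)
    (h2 := fun x => 2 * Real.pi * g'' x) (g := fun _ => 1) (g1 := fun _ => 0) hab (by positivity)
    (fun x _ => (hg x).const_mul _) (fun x _ => (hg' x).const_mul _) (by fun_prop)
    (Or.inl fun x hx => mul_nonneg (by positivity) (h2 x hx))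
    (fun x hx => by
      rw [abs_mul, abs_of_pos (by positivity : 0 < 2 * Real.pi)]
      exact mul_le_mul_of_nonneg_left (h1 x hx) (by positivity))
    (fun x _ => hasDerivAt_const x _) continuousOn_const (by simp) (by simp)
  simp only [one_mul] at this
  refine this.trans ?_
  rw [div_le_div_iff₀ (by positivity) hl]
  nlinarith

theorem Oscaux.vdC2' {g g' g'' : ℝ → ℝ} (hg : ∀ x, HasDerivAt g (g' x) x)
    (hg' : ∀ x, HasDerivAt g' (g'' x) x) (hc : Continuous g'') {a b μ : ℝ} (hab : a ≤ b)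
    (hμ : 0 < μ) (h2 : (∀ x ∈ Icc a b, μ ≤ g'' x) ∨ (∀ x ∈ Icc a b, g'' x ≤ -μ)) :
    ‖∫ x in a..b, e (g x)‖ ≤ 4 / Real.sqrt μ := by
  have hπ := Real.pi_gt_d2
  have := Osc.second_deriv_test (L := 2 * Real.pi * μ) (A := 1) (V := 0)
    (h := fun x => 2 * Real.pi * g x) (h1 := fun x => 2 * Real.pi * g' x)
    (h2 := fun x => 2 * Real.pi * g'' x) (g := fun _ => 1) (g1 := fun _ => 0) hab (by positivity)
    (fun x _ => (hg x).const_mul _) (fun x _ => (hg' x).const_mul _) (by fun_prop)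
    (h2.imp (fun H x hx => mul_le_mul_of_nonneg_left (H x hx) (by positivity))
      (fun H x hx => by
        have := mul_le_mul_of_nonneg_left (H x hx) (by positivity : 0 ≤ 2 * Real.pi)
        linarith))
    (fun x _ => hasDerivAt_const x _) continuousOn_const (by simp) (by simp)
  simp only [one_mul] at this
  refine this.trans ?_
  have hs : 0 < Real.sqrt μ := Real.sqrt_pos.2 hμ
  have h5 : (5 / 2 : ℝ) ≤ Real.sqrt (2 * Real.pi) := Real.le_sqrt_of_sq_le (by linarith)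
  rw [Real.sqrt_mul (by positivity), div_le_div_iff₀ (by positivity) hs]
  nlinarith

theorem vdC2 {g g' g'' : ℝ → ℝ} (hg : ∀ x, HasDerivAt g (g' x) x)
    (hg' : ∀ x, HasDerivAt g' (g'' x) x) (hc : Continuous g'') {a b μ : ℝ} (hab : a ≤ b)
    (hμ : 0 < μ) (h2 : ∀ x ∈ Icc a b, μ ≤ g'' x) :
    ‖∫ x in a..b, e (g x)‖ ≤ 4 / Real.sqrt μ :=
  Oscaux.vdC2' hg hg' hc hab hμ (Or.inl h2)

/-- the concave version of `vdC2` (complex conjugate) -/
theorem vdC2_neg {g g' g'' : ℝ → ℝ} (hg : ∀ x, HasDerivAt g (g' x) x)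
    (hg' : ∀ x, HasDerivAt g' (g'' x) x) (hc : Continuous g'') {a b μ : ℝ} (hab : a ≤ b)
    (hμ : 0 < μ) (h2 : ∀ x ∈ Icc a b, g'' x ≤ -μ) :
    ‖∫ x in a..b, e (g x)‖ ≤ 4 / Real.sqrt μ :=
  Oscaux.vdC2' hg hg' hc hab hμ (Or.inr h2)

theorem stat_phase {g g' g'' : ℝ → ℝ} (hg : ∀ x, HasDerivAt g (g' x) x)
    (hg' : ∀ x, HasDerivAt g' (g'' x) x) (hc : Continuous g'') {a b μ Λ u₀ δ : ℝ}
    (hμ : 0 < μ) (hδ : 0 < δ) (ha : a ≤ u₀ - δ) (hb : u₀ + δ ≤ b) (h0 : g' u₀ = 0)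
    (h2 : ∀ x ∈ Icc a b, μ ≤ g'' x)
    (h3 : ∀ x ∈ Icc a b, |g'' x - g'' u₀| ≤ Λ * |x - u₀|) :
    ‖(∫ x in a..b, e (g x)) - e (g u₀) * ∫ s in (-δ)..δ, e (g'' u₀ * s ^ 2 / 2)‖ ≤
      2 / (μ * δ) + 13 * Λ * δ ^ 4 := by
  have hx0 : u₀ ∈ Icc a b := ⟨by linarith, by linarith⟩
  have cg : Continuous g := continuous_iff_continuousAt.2 fun x => (hg x).continuousAt
  have cF : Continuous fun x => e (g x) := by unfold e; fun_prop
  have ii : ∀ u v, IntervalIntegrable (fun x => e (g x)) MeasureTheory.volume u v :=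
    fun u v => cF.intervalIntegrable u v
  have grow := fun x y hx hy hxy =>
    Osc.mul_sub_le_of_deriv (fun x _ => hg' x) h2 (x := x) (y := y) hx hy hxy
  have p1 : ‖∫ x in a..(u₀ - δ), e (g x)‖ ≤ 1 / (μ * δ) := by
    refine vdC1 hg hg' hc ha (by positivity) (fun x hx => ?_)
      (fun x hx => hμ.le.trans (h2 x ⟨hx.1, by linarith [hx.2]⟩))
    have := grow x u₀ ⟨hx.1, by linarith [hx.2]⟩ hx0 (by linarith [hx.2])
    have h' : μ * δ ≤ μ * (u₀ - x) := mul_le_mul_of_nonneg_left (by linarith [hx.2]) hμ.le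
    exact le_abs.2 (Or.inr (by linarith))
  have p3 : ‖∫ x in (u₀ + δ)..b, e (g x)‖ ≤ 1 / (μ * δ) := by
    refine vdC1 hg hg' hc hb (by positivity) (fun x hx => ?_)
      (fun x hx => hμ.le.trans (h2 x ⟨by linarith [hx.1], hx.2⟩))
    have := grow u₀ x hx0 ⟨by linarith [hx.1], hx.2⟩ (by linarith [hx.1])
    have h' : μ * δ ≤ μ * (x - u₀) := mul_le_mul_of_nonneg_left (by linarith [hx.1]) hμ.le
    exact le_abs.2 (Or.inl (by linarith))
  set l := g'' u₀ with hl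
  have sub : Icc (u₀ - δ) (u₀ + δ) ⊆ Icc a b := Icc_subset_Icc ha hb
  have hx0' : u₀ ∈ Icc (u₀ - δ) (u₀ + δ) := ⟨by linarith, by linarith⟩
  have habs : ∀ x ∈ Icc (u₀ - δ) (u₀ + δ), |x - u₀| ≤ δ := fun x hx =>
    abs_le.2 ⟨by linarith [hx.1], by linarith [hx.2]⟩
  have hΛ : 0 ≤ Λ := by
    have := (abs_nonneg _).trans (h3 (u₀ + δ) (sub ⟨by linarith, le_rfl⟩))
    rw [add_sub_cancel_left, abs_of_pos hδ] at this
    exact nonneg_of_mul_nonneg_left this hδ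
  have t2 : ∀ x ∈ Icc (u₀ - δ) (u₀ + δ), ‖g'' x - l‖ ≤ Λ * δ := fun x hx =>
    (h3 x (sub hx)).trans (mul_le_mul_of_nonneg_left (habs x hx) hΛ)
  have t1 : ∀ x ∈ Icc (u₀ - δ) (u₀ + δ), ‖g' x - l * (x - u₀)‖ ≤ Λ * δ * δ := by
    intro x hx
    have := Osc.abs_sub_le_of_deriv (f := fun x => g' x - l * (x - u₀)) (f1 := fun x => g'' x - l)
      (fun y _ => by
        simpa using (hg' y).fun_sub (((hasDerivAt_id y).sub_const u₀).const_mul l)) t2 hx0' hx
    simp only [h0, sub_self, mul_zero, sub_zero] at this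
    exact this.trans (mul_le_mul_of_nonneg_left (habs x hx) (by positivity))
  have t0 : ∀ x ∈ Icc (u₀ - δ) (u₀ + δ), |g x - (g u₀ + l * (x - u₀) ^ 2 / 2)| ≤ Λ * δ * δ * δ := by
    intro x hx
    have := Osc.abs_sub_le_of_deriv (f := fun x => g x - l * (x - u₀) ^ 2 / 2)
      (f1 := fun x => g' x - l * (x - u₀))
      (fun y _ => by
        refine ((hg y).fun_sub
          (((((hasDerivAt_id y).sub_const u₀).fun_pow 2).const_mul l).div_const 2)).congr_deriv ?_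
        simp; ring) t1 hx0' hx
    refine le_trans (le_of_eq ?_) (this.trans (mul_le_mul_of_nonneg_left (habs x hx) (by positivity)))
    rw [Real.norm_eq_abs]; congr 1; ring
  have hrr : u₀ - δ ≤ u₀ + δ := by linarith
  have eQ : e (g u₀) * ∫ s in (-δ)..δ, e (l * s ^ 2 / 2) =
      ∫ x in (u₀ - δ)..(u₀ + δ), e (g u₀ + l * (x - u₀) ^ 2 / 2) := by
    simp only [e_add]
    rw [intervalIntegral.integral_const_mul,
      intervalIntegral.integral_comp_sub_right (fun s => e (l * s ^ 2 / 2)) u₀]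
    congr 2 <;> ring
  have iQ : IntervalIntegrable (fun x => e (g u₀ + l * (x - u₀) ^ 2 / 2)) MeasureTheory.volume
      (u₀ - δ) (u₀ + δ) := Continuous.intervalIntegrable (by unfold e; fun_prop) _ _
  have n1 : ‖(∫ x in (u₀ - δ)..(u₀ + δ), e (g x)) -
      ∫ x in (u₀ - δ)..(u₀ + δ), e (g u₀ + l * (x - u₀) ^ 2 / 2)‖ ≤ 13 * Λ * δ ^ 4 := by
    rw [← intervalIntegral.integral_sub (ii _ _) iQ]
    refine (intervalIntegral.norm_integral_le_of_norm_le_const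
      (C := 2 * Real.pi * (Λ * δ * δ * δ)) ?_).trans ?_
    · intro x hx
      rw [uIoc_of_le hrr] at hx
      refine (Osc.norm_cexp_sub_le _ _).trans ?_
      rw [← mul_sub, abs_mul, abs_of_pos (by positivity : 0 < 2 * Real.pi)]
      exact mul_le_mul_of_nonneg_left (t0 x (Ioc_subset_Icc_self hx)) (by positivity)
    · rw [abs_of_nonneg (by linarith)]
      have hπ := Real.pi_lt_d2
      have : 0 ≤ Λ * δ ^ 4 := by positivity
      nlinarith
  rw [eQ, ← intervalIntegral.integral_add_adjacent_intervals (ii a (u₀ + δ)) (ii (u₀ + δ) b),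
    ← intervalIntegral.integral_add_adjacent_intervals (ii a (u₀ - δ)) (ii (u₀ - δ) (u₀ + δ))]
  set X1 := ∫ x in a..(u₀ - δ), e (g x)
  set X2 := ∫ x in (u₀ - δ)..(u₀ + δ), e (g x)
  set X3 := ∫ x in (u₀ + δ)..b, e (g x)
  set Y := ∫ x in (u₀ - δ)..(u₀ + δ), e (g u₀ + l * (x - u₀) ^ 2 / 2)
  have e1 : X1 + X2 + X3 - Y = X1 + X3 + (X2 - Y) := by ring
  rw [e1]
  have s1 := norm_add₃_le (a := X1) (b := X3) (c := X2 - Y)
  have e3 : 2 / (μ * δ) = 1 / (μ * δ) + 1 / (μ * δ) := by ring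
  linarith

end Crest.Agent.R75
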