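import Crest.Agent.R75.Osc
import Crest.Agent.R75.Fresnel

/-!
# Row 75: the slow part of the phase profile
-/

set_option autoImplicit false

open Set

namespace Crest.Agent.R75.Prof

lemma abs_exp_neg_sub_le {s t : ℝ} (hs : 0 ≤ s) (ht : 0 ≤ t) :
    |Real.exp (-s) - Real.exp (-t)| ≤ |s - t| := by
  wlog h : s ≤ t generalizing s t
  · have := this ht hs (le_of_not_ge h)
    rwa [abs_sub_comm, abs_sub_comm t s] at this
  have h1 : Real.exp (-t) = Real.exp (-s) * Real.exp (-(t - s)) := by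
    rw [← Real.exp_add]; congr 1; ring
  have h2 : Real.exp (-s) ≤ 1 := Real.exp_le_one_iff.mpr (by linarith)
  have h3 : 1 - (t - s) ≤ Real.exp (-(t - s)) := by
    have := Real.add_one_le_exp (-(t - s)); linarith
  have h4 : Real.exp (-(t - s)) ≤ 1 := Real.exp_le_one_iff.mpr (by linarith)
  have h5 := Real.exp_pos (-s)
  rw [abs_sub_comm s t, abs_of_nonneg (by linarith : 0 ≤ t - s), h1,
    abs_of_nonneg (by nlinarith)]
  nlinarith

/-- a time change that is fast near both ends and almost of unit speed elsewhere -/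
lemma exists_sigma {ε₀ B a b : ℝ} (hε : 0 < ε₀) (hε1 : ε₀ < 1) (hB : 0 < B) (hab : a < b)
    (hab1 : b - a ≤ 1) :
    ∃ (σ σ' : ℝ → ℝ) (r Λ M : ℝ), 0 < r ∧ r ≤ (b - a) / 4 ∧ 0 ≤ Λ ∧
      (∀ x, HasDerivAt σ (σ' x) x) ∧ Continuous σ' ∧ σ a = 0 ∧ σ b ≤ 1 ∧
      (∀ x, 1 - ε₀ ≤ σ' x) ∧ (∀ x ∈ Icc a b, σ' x ≤ M) ∧
      (∀ x ∈ Icc a b, x ≤ a + r ∨ b - r ≤ x → B ≤ σ' x) ∧
      ∀ x ∈ Icc a b, ∀ y ∈ Icc a b, |σ' x - σ' y| ≤ Λ * |x - y| := by
  set c : ℝ := ε₀ / 2 with hc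
  have hc0 : 0 < c := by positivity
  set k : ℝ := 4 * B / c with hk
  have hk0 : 0 < k := by positivity
  refine ⟨fun x => (1 - ε₀) * (x - a) + c * (1 - Real.exp (-(k * (x - a))) +
      Real.exp (-(k * (b - x))) - Real.exp (-(k * (b - a)))),
    fun x => (1 - ε₀) + c * k * (Real.exp (-(k * (x - a))) + Real.exp (-(k * (b - x)))),
    min (1 / (2 * k)) ((b - a) / 4), 2 * c * k * k, 1 + 2 * c * k, ?_, min_le_right _ _,
    by positivity, ?_, by fun_prop, by simp, ?_, ?_, ?_, ?_, ?_⟩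
  · exact lt_min (by positivity) (by linarith)
  · intro x
    have h1 : HasDerivAt (fun x => Real.exp (-(k * (x - a)))) (Real.exp (-(k * (x - a))) * (-k)) x := by
      have : HasDerivAt (fun x => -(k * (x - a))) (-k) x := by
        simpa using (((hasDerivAt_id x).sub_const a).const_mul k).fun_neg
      exact this.exp
    have h2 : HasDerivAt (fun x => Real.exp (-(k * (b - x)))) (Real.exp (-(k * (b - x))) * k) x := by
      have : HasDerivAt (fun x => -(k * (b - x))) k x := by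
        simpa using (((hasDerivAt_id x).const_sub b).const_mul k).fun_neg
      exact this.exp
    have h3 : HasDerivAt (fun x => (1 - ε₀) * (x - a)) (1 - ε₀) x := by
      simpa using ((hasDerivAt_id x).sub_const a).const_mul (1 - ε₀)
    have h4 := h3.add ((((h1.const_sub 1).add h2).sub_const
      (Real.exp (-(k * (b - a))))).const_mul c)
    refine HasDerivAt.congr_deriv h4 ?_
    ring
  · have h1 := Real.exp_pos (-(k * (b - a)))
    simp only [sub_self, mul_zero, neg_zero, Real.exp_zero]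
    nlinarith
  · intro x
    have := Real.exp_pos (-(k * (x - a)))
    have := Real.exp_pos (-(k * (b - x)))
    have : 0 ≤ c * k * (Real.exp (-(k * (x - a))) + Real.exp (-(k * (b - x)))) := by positivity
    linarith
  · intro x hx
    have h1 : Real.exp (-(k * (x - a))) ≤ 1 :=
      Real.exp_le_one_iff.mpr (by nlinarith [hx.1])
    have h2 : Real.exp (-(k * (b - x))) ≤ 1 :=
      Real.exp_le_one_iff.mpr (by nlinarith [hx.2])
    have h3 : c * k * (Real.exp (-(k * (x - a))) + Real.exp (-(k * (b - x)))) ≤ c * k * 2 :=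
      mul_le_mul_of_nonneg_left (by linarith) (by positivity)
    linarith
  · intro x hx h
    have hr : min (1 / (2 * k)) ((b - a) / 4) ≤ 1 / (2 * k) := min_le_left _ _
    have hck : c * k = 4 * B := by rw [hk]; field_simp
    have key : ∀ s, s ≤ 1 / (2 * k) → 1 / 2 ≤ Real.exp (-(k * s)) := by
      intro s hs
      have h1 := Real.add_one_le_exp (-(k * s))
      have h2 : k * s ≤ 1 / 2 := by
        have := mul_le_mul_of_nonneg_left hs hk0.le
        rwa [show k * (1 / (2 * k)) = 1 / 2 by field_simp] at this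
      linarith
    have h1 := Real.exp_pos (-(k * (x - a)))
    have h2 := Real.exp_pos (-(k * (b - x)))
    rw [hck]
    rcases h with h | h
    · have := key (x - a) (by linarith)
      nlinarith
    · have := key (b - x) (by linarith)
      nlinarith
  · intro x hx y hy
    have h1 := abs_exp_neg_sub_le (s := k * (x - a)) (t := k * (y - a))
      (by nlinarith [hx.1]) (by nlinarith [hy.1])
    have h2 := abs_exp_neg_sub_le (s := k * (b - x)) (t := k * (b - y))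
      (by nlinarith [hx.2]) (by nlinarith [hy.2])
    rw [show k * (x - a) - k * (y - a) = k * (x - y) by ring, abs_mul, abs_of_pos hk0] at h1
    rw [show k * (b - x) - k * (b - y) = -(k * (x - y)) by ring, abs_neg, abs_mul,
      abs_of_pos hk0] at h2
    have h3 : (1 - ε₀ + c * k * (Real.exp (-(k * (x - a))) + Real.exp (-(k * (b - x))))) -
        (1 - ε₀ + c * k * (Real.exp (-(k * (y - a))) + Real.exp (-(k * (b - y))))) =
        c * k * ((Real.exp (-(k * (x - a))) - Real.exp (-(k * (y - a)))) +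
          (Real.exp (-(k * (b - x))) - Real.exp (-(k * (b - y))))) := by ring
    rw [h3, abs_mul, abs_of_pos (by positivity : 0 < c * k)]
    have h4 := (abs_add_le _ _).trans (add_le_add h1 h2)
    calc _ ≤ c * k * (k * |x - y| + k * |x - y|) := mul_le_mul_of_nonneg_left h4 (by positivity)
      _ = _ := by ring

lemma mul_four_div_sqrt_le {s c d : ℝ} (hs : 0 < s) (hd : 0 < d) (hc : 16 / d ^ 2 ≤ c) :
    s * (4 / Real.sqrt (s ^ 2 * c)) ≤ d := by
  have hc0 : 0 < c := lt_of_lt_of_le (by positivity) hc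
  rw [Real.sqrt_mul (sq_nonneg s), Real.sqrt_sq hs.le]
  have h1 : 4 / d ≤ Real.sqrt c := by
    apply Real.le_sqrt_of_sq_le
    rw [div_pow]; norm_num; exact hc
  have h2 : 0 < Real.sqrt c := Real.sqrt_pos.mpr hc0
  rw [div_le_iff₀ hd] at h1
  rw [show s * (4 / (s * Real.sqrt c)) = 4 / Real.sqrt c by field_simp, div_le_iff₀ h2]
  linarith

lemma sub_le_of_deriv_ge {σ σ' : ℝ → ℝ} (hσ : ∀ x, HasDerivAt σ (σ' x) x) {m : ℝ}
    (hm : ∀ x, m ≤ σ' x) {x y : ℝ} (hxy : x ≤ y) : m * (y - x) ≤ σ y - σ x := by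
  have h1 : Differentiable ℝ σ := fun x => (hσ x).differentiableAt
  exact mul_sub_le_image_sub_of_le_deriv h1 (fun x => by rw [(hσ x).deriv]; exact hm x) hxy

lemma caseA {T lam η a b r Λ M K₀ s τ v : ℝ} {σ σ' g : ℝ → ℝ} (hl : 0 < lam) (hη : 0 < η)
    (hr : 0 < r) (hΛ : 0 ≤ Λ) (hK₀0 : 0 < K₀) (hs0 : 0 < s)
    (hσ : ∀ x, HasDerivAt σ (σ' x) x) (hσc : Continuous σ') (hσh : ∀ x, 1 / 2 ≤ σ' x)
    (hσM : ∀ x ∈ Icc a b, σ' x ≤ M)
    (hσL : ∀ x ∈ Icc a b, ∀ y ∈ Icc a b, |σ' x - σ' y| ≤ Λ * |x - y|)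
    (hK₀2 : 8 * Real.sqrt (lam * M) / (lam * η) ≤ K₀)
    (hs1 : 2 * K₀ / (r * Real.sqrt (lam / 2)) ≤ s) (hs2 : 104 * Λ * K₀ ^ 4 / (lam * η) ≤ s)
    (h1 : a + r / 2 ≤ v) (h2 : v ≤ b - r / 2) (h3 : T + lam * σ v = τ)
    (hg : ∀ x, HasDerivAt g (s ^ 2 * (T + lam * σ x - τ)) x) :
    ‖(s : ℂ) * (∫ x in a..b, e (g x)) -
      ((1 / Real.sqrt (σ' v) / Real.sqrt lam : ℝ) : ℂ) * Gam K₀ * e (g v)‖ ≤ η := by
  have hsl : 0 < Real.sqrt (lam / 2) := Real.sqrt_pos.mpr (by positivity)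
  have hg' : ∀ x, HasDerivAt (fun x => s ^ 2 * (T + lam * σ x - τ)) (s ^ 2 * (lam * σ' x)) x := by
    intro x
    exact ((((hσ x).const_mul lam).const_add T).sub_const τ).const_mul (s ^ 2)
  have hc : Continuous fun x => s ^ 2 * (lam * σ' x) := by fun_prop
  have hvI : v ∈ Icc a b := ⟨by linarith, by linarith⟩
  have hσv : 0 < σ' v := by linarith [hσh v]
  set α : ℝ := s ^ 2 * (lam * σ' v) with hα
  have hα0 : 0 < α := by positivity
  have hsα : Real.sqrt α = s * (Real.sqrt lam * Real.sqrt (σ' v)) := by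
    rw [hα, Real.sqrt_mul (sq_nonneg s), Real.sqrt_sq hs0.le, Real.sqrt_mul hl.le]
  have hsα0 : 0 < Real.sqrt α := Real.sqrt_pos.mpr hα0
  have hαl : s * Real.sqrt (lam / 2) ≤ Real.sqrt α := by
    apply Real.le_sqrt_of_sq_le
    rw [mul_pow, Real.sq_sqrt (by positivity), hα]
    have := hσh v
    have : lam / 2 ≤ lam * σ' v := by nlinarith
    exact mul_le_mul_of_nonneg_left this (sq_nonneg s)
  have hαu : Real.sqrt α ≤ s * Real.sqrt (lam * M) := by
    rw [hα, Real.sqrt_mul (sq_nonneg s), Real.sqrt_sq hs0.le]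
    refine mul_le_mul_of_nonneg_left (Real.sqrt_le_sqrt ?_) hs0.le
    exact mul_le_mul_of_nonneg_left (hσM v hvI) hl.le
  set δ : ℝ := K₀ / Real.sqrt α with hδ
  have hδ0 : 0 < δ := by positivity
  have hδr : δ ≤ r / 2 := by
    rw [hδ, div_le_iff₀ hsα0]
    rw [div_le_iff₀ (by positivity)] at hs1
    nlinarith
  have key := stat_phase hg hg' hc (a := a) (b := b) (μ := s ^ 2 * (lam / 2))
    (Λ := s ^ 2 * (lam * Λ)) (u₀ := v) (δ := δ) (by positivity) hδ0 (by linarith) (by linarith)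
    (by rw [h3, sub_self, mul_zero])
    (fun x _ => mul_le_mul_of_nonneg_left (by nlinarith [hσh x]) (sq_nonneg s))
    (fun x hx => by
      rw [← mul_sub, ← mul_sub, abs_mul, abs_mul, abs_of_pos hl, abs_of_nonneg (sq_nonneg s),
        mul_assoc, mul_assoc]
      exact mul_le_mul_of_nonneg_left
        (mul_le_mul_of_nonneg_left (hσL x hx v hvI) hl.le) (sq_nonneg s))
  rw [← hα, hδ, integral_quad_eq α K₀ hα0, ← hδ] at key
  have h4 : (s : ℂ) * (∫ x in a..b, e (g x)) -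
      ((1 / Real.sqrt (σ' v) / Real.sqrt lam : ℝ) : ℂ) * Gam K₀ * e (g v) =
      (s : ℂ) * ((∫ x in a..b, e (g x)) - e (g v) * (Gam K₀ / ((Real.sqrt α : ℝ) : ℂ))) := by
    rw [hsα]
    have h5 : ((Real.sqrt lam : ℝ) : ℂ) ≠ 0 := by
      exact_mod_cast (Real.sqrt_pos.mpr hl).ne'
    have h6 : ((Real.sqrt (σ' v) : ℝ) : ℂ) ≠ 0 := by
      exact_mod_cast (Real.sqrt_pos.mpr hσv).ne'
    have h7 : (s : ℂ) ≠ 0 := by exact_mod_cast hs0.ne'
    push_cast
    field_simp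
  rw [h4, norm_mul, Complex.norm_real, Real.norm_eq_abs, abs_of_pos hs0]
  refine (mul_le_mul_of_nonneg_left key hs0.le).trans ?_
  have e1 : s * (2 / (s ^ 2 * (lam / 2) * δ)) ≤ η / 2 := by
    have : s * (2 / (s ^ 2 * (lam / 2) * δ)) = 4 * Real.sqrt α / (s * lam * K₀) := by
      rw [hδ]; field_simp; norm_num
    rw [this, div_le_iff₀ (by positivity)]
    rw [div_le_iff₀ (by positivity)] at hK₀2
    nlinarith
  have e2 : s * (13 * (s ^ 2 * (lam * Λ)) * δ ^ 4) ≤ η / 2 := by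
    have h5 : δ ^ 4 = K₀ ^ 4 / α ^ 2 := by
      rw [hδ, div_pow, show (4 : ℕ) = 2 * 2 from rfl, pow_mul (Real.sqrt α), Real.sq_sqrt hα0.le]
    have h6 : s ^ 2 * (lam / 2) ≤ α := by
      rw [hα]; exact mul_le_mul_of_nonneg_left (by nlinarith [hσh v]) (sq_nonneg s)
    have h7 : K₀ ^ 4 / α ^ 2 ≤ K₀ ^ 4 / (s ^ 2 * (lam / 2)) ^ 2 := by gcongr
    calc s * (13 * (s ^ 2 * (lam * Λ)) * δ ^ 4)
        ≤ s * (13 * (s ^ 2 * (lam * Λ)) * (K₀ ^ 4 / (s ^ 2 * (lam / 2)) ^ 2)) := by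
          rw [h5]; gcongr
      _ = 52 * Λ * K₀ ^ 4 / (s * lam) := by field_simp; ring
      _ ≤ η / 2 := by
          rw [div_le_iff₀ (by positivity)]
          rw [div_le_iff₀ (by positivity)] at hs2
          nlinarith
  rw [mul_add]
  linarith

lemma caseB {T lam η a b r s τ : ℝ} {σ σ' g : ℝ → ℝ} (hl : 0 < lam) (hη : 0 < η)
    (hr : 0 < r) (hr4 : r ≤ (b - a) / 4) (hs0 : 0 < s)
    (hσ : ∀ x, HasDerivAt σ (σ' x) x) (hσc : Continuous σ') (hσh : ∀ x, 1 / 2 ≤ σ' x)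
    (hσB : ∀ x ∈ Icc a b, x ≤ a + r ∨ b - r ≤ x → 16 / (η / 4) ^ 2 / lam ≤ σ' x)
    (hs3 : 8 / (lam * r * η) ≤ s)
    (h : ¬ ∃ x ∈ Icc (a + r / 2) (b - r / 2), T + lam * σ x = τ)
    (hg : ∀ x, HasDerivAt g (s ^ 2 * (T + lam * σ x - τ)) x) :
    ‖(s : ℂ) * (∫ x in a..b, e (g x))‖ ≤ η := by
  have hmono : ∀ {x y : ℝ}, x ≤ y → 1 / 2 * (y - x) ≤ σ y - σ x :=
    fun hxy => sub_le_of_deriv_ge hσ hσh hxy
  have hσcont : Continuous σ := continuous_iff_continuousAt.mpr fun x => (hσ x).continuousAt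
  have hg' : ∀ x, HasDerivAt (fun x => s ^ 2 * (T + lam * σ x - τ)) (s ^ 2 * (lam * σ' x)) x := by
    intro x
    exact ((((hσ x).const_mul lam).const_add T).sub_const τ).const_mul (s ^ 2)
  have hc : Continuous fun x => s ^ 2 * (lam * σ' x) := by fun_prop
  have hgc : Continuous g := continuous_iff_continuousAt.mpr fun x => (hg x).continuousAt
  have hint : ∀ p q : ℝ, IntervalIntegrable (fun x => e (g x)) MeasureTheory.volume p q :=
    fun p q => (by fun_prop : Continuous fun x => e (g x)).intervalIntegrable p q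
  rw [← intervalIntegral.integral_add_adjacent_intervals (hint a (a + r)) (hint (a + r) b),
    ← intervalIntegral.integral_add_adjacent_intervals (hint (a + r) (b - r)) (hint (b - r) b)]
  have hB : ∀ x ∈ Icc a b, x ≤ a + r ∨ b - r ≤ x →
      s ^ 2 * (16 / (η / 4) ^ 2) ≤ s ^ 2 * (lam * σ' x) := by
    intro x hx h'
    refine mul_le_mul_of_nonneg_left ?_ (sq_nonneg s)
    have := hσB x hx h'
    rw [div_le_iff₀ hl] at this
    linarith
  have k1 := vdC2 hg hg' hc (a := a) (b := a + r) (μ := s ^ 2 * (16 / (η / 4) ^ 2))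
    (by linarith) (by positivity)
    (fun x hx => hB x ⟨hx.1, by linarith [hx.2]⟩ (Or.inl hx.2))
  have k3 := vdC2 hg hg' hc (a := b - r) (b := b) (μ := s ^ 2 * (16 / (η / 4) ^ 2))
    (by linarith) (by positivity)
    (fun x hx => hB x ⟨by linarith [hx.1], hx.2⟩ (Or.inr hx.1))
  have hside : τ < T + lam * σ (a + r / 2) ∨ T + lam * σ (b - r / 2) < τ := by
    by_contra hcon
    push Not at hcon
    have hcont : ContinuousOn (fun x => T + lam * σ x) (Icc (a + r / 2) (b - r / 2)) :=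
      (by fun_prop : Continuous fun x => T + lam * σ x).continuousOn
    obtain ⟨x, hx, hx'⟩ := intermediate_value_Icc (by linarith) hcont ⟨hcon.1, hcon.2⟩
    exact h ⟨x, hx, hx'⟩
  have k2 := vdC1 hg hg' hc (a := a + r) (b := b - r) (lam := s ^ 2 * (lam * r / 4))
    (by linarith) (by positivity)
    (fun x hx => by
      rw [abs_mul, abs_of_nonneg (sq_nonneg s)]
      refine mul_le_mul_of_nonneg_left ?_ (sq_nonneg s)
      rcases hside with h' | h'
      · have := hmono (show a + r / 2 ≤ x by linarith [hx.1])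
        refine le_trans ?_ (le_abs_self _)
        nlinarith [hx.1]
      · have := hmono (show x ≤ b - r / 2 by linarith [hx.2])
        refine le_trans ?_ (neg_le_abs _)
        nlinarith [hx.2])
    (fun x _ => by have := hσh x; positivity)
  have e1 := mul_four_div_sqrt_le hs0 (d := η / 4) (by positivity) le_rfl
  have e2 : s * (1 / (s ^ 2 * (lam * r / 4))) ≤ η / 2 := by
    rw [show s * (1 / (s ^ 2 * (lam * r / 4))) = 4 / (s * lam * r) by field_simp,
      div_le_iff₀ (by positivity)]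
    rw [div_le_iff₀ (by positivity)] at hs3
    nlinarith
  rw [norm_mul, Complex.norm_real, Real.norm_eq_abs, abs_of_pos hs0]
  have k4 := (norm_add_le _ _).trans (add_le_add k1 ((norm_add_le _ _).trans (add_le_add k2 k3)))
  refine (mul_le_mul_of_nonneg_left k4 hs0.le).trans ?_
  rw [mul_add, mul_add]
  linarith

/-- the slow part of the sweep: stationary phase or van der Corput -/
lemma middle (T lam ε η a b : ℝ) (hl : 0 < lam) (hε : 0 < ε) (hη : 0 < η) (hab : a < b)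
    (hab1 : b - a ≤ 1) :
    ∃ (σ σ' : ℝ → ℝ) (M s₀ : ℝ) (Γ : ℂ) (ρ u₀ : ℝ → ℝ), (∀ x, HasDerivAt σ (σ' x) x) ∧
      Continuous σ' ∧ σ a = 0 ∧ σ b ≤ 1 ∧ (∀ x, 0 ≤ σ' x) ∧ (∀ x ∈ Icc a b, σ' x ≤ M) ∧
      (∀ τ, 0 ≤ ρ τ ∧ ‖Γ‖ * ρ τ ≤ 1 + ε) ∧ (∀ τ, ρ τ ≠ 0 → T < τ ∧ τ < T + lam) ∧
      (∀ τ, u₀ τ ∈ Icc a b) ∧ 0 < s₀ ∧
      ∀ s ≥ s₀, ∀ (τ : ℝ) (g : ℝ → ℝ), (∀ x, HasDerivAt g (s ^ 2 * (T + lam * σ x - τ)) x) →
        ‖(s : ℂ) * (∫ x in a..b, e (g x)) -
          ((ρ τ / Real.sqrt lam : ℝ) : ℂ) * Γ * e (g (u₀ τ))‖ ≤ η := by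
  classical
  set ε₀ : ℝ := min (1 / 2) (ε / 3) with hε₀
  have hε₀0 : 0 < ε₀ := by positivity
  have hε₀1 : ε₀ ≤ 1 / 2 := min_le_left _ _
  have hε₀2 : ε₀ ≤ ε / 3 := min_le_right _ _
  obtain ⟨σ, σ', r, Λ, M, hr, hr4, hΛ, hσ, hσc, hσa, hσb, hσ1, hσM, hσB, hσL⟩ :=
    exists_sigma (B := 16 / (η / 4) ^ 2 / lam) hε₀0 (by linarith) (by positivity) hab hab1
  have hσh : ∀ x, 1 / 2 ≤ σ' x := fun x => by linarith [hσ1 x]
  have hM : 1 / 2 ≤ M := (hσh a).trans (hσM a ⟨le_rfl, hab.le⟩)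
  have hmono : ∀ {x y : ℝ}, x ≤ y → 1 / 2 * (y - x) ≤ σ y - σ x :=
    fun hxy => sub_le_of_deriv_ge hσ hσh hxy
  have hσcont : Continuous σ := continuous_iff_continuousAt.mpr fun x => (hσ x).continuousAt
  -- the window size
  set K₀ : ℝ := 1 / ε₀ + 8 * Real.sqrt (lam * M) / (lam * η) with hK₀
  have hK₀1 : 1 / ε₀ ≤ K₀ := by rw [hK₀]; exact le_add_of_nonneg_right (by positivity)
  have hK₀2 : 8 * Real.sqrt (lam * M) / (lam * η) ≤ K₀ := by
    rw [hK₀]; exact le_add_of_nonneg_left (by positivity)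
  have hK₀0 : 0 < K₀ := by positivity
  -- the stationary point
  let P : ℝ → Prop := fun τ => ∃ x ∈ Icc (a + r / 2) (b - r / 2), T + lam * σ x = τ
  let u₀ : ℝ → ℝ := fun τ => if h : P τ then h.choose else a
  have hu₀ : ∀ τ, P τ → u₀ τ ∈ Icc (a + r / 2) (b - r / 2) ∧ T + lam * σ (u₀ τ) = τ := by
    intro τ h
    simp only [u₀, dif_pos h]
    exact h.choose_spec
  let ρ : ℝ → ℝ := fun τ => if P τ then 1 / Real.sqrt (σ' (u₀ τ)) else 0
  set s₀ : ℝ := 2 * K₀ / (r * Real.sqrt (lam / 2)) + 104 * Λ * K₀ ^ 4 / (lam * η) +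
    8 / (lam * r * η) with hs₀
  have hsl : 0 < Real.sqrt (lam / 2) := Real.sqrt_pos.mpr (by positivity)
  refine ⟨σ, σ', M, s₀, Gam K₀, ρ, u₀, hσ, hσc, hσa, hσb, fun x => by linarith [hσh x], hσM,
    ?_, ?_, ?_, by positivity, ?_⟩
  · intro τ
    by_cases h : P τ
    · simp only [ρ, if_pos h]
      refine ⟨by positivity, ?_⟩
      have h1 : ‖Gam K₀‖ ≤ 1 + ε₀ := by
        refine (norm_Gam_le K₀ hK₀0).trans ?_
        have : 1 / K₀ ≤ ε₀ := by
          rw [div_le_iff₀ hK₀0]; rw [div_le_iff₀ hε₀0] at hK₀1; linarith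
        linarith
      have h2 : 1 / Real.sqrt (σ' (u₀ τ)) ≤ 1 + ε₀ := by
        have h3 : 1 / (1 + ε₀) ≤ Real.sqrt (σ' (u₀ τ)) := by
          apply Real.le_sqrt_of_sq_le
          refine le_trans ?_ (hσ1 _)
          rw [div_pow, div_le_iff₀ (by positivity)]
          nlinarith [mul_nonneg hε₀0.le hε₀0.le, mul_nonneg hε₀0.le (mul_nonneg hε₀0.le hε₀0.le)]
        have h4 : 0 < Real.sqrt (σ' (u₀ τ)) := Real.sqrt_pos.mpr (by linarith [hσh (u₀ τ)])
        rw [div_le_iff₀ h4]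
        rw [div_le_iff₀ (by positivity)] at h3
        linarith
      calc ‖Gam K₀‖ * (1 / Real.sqrt (σ' (u₀ τ))) ≤ (1 + ε₀) * (1 + ε₀) :=
            mul_le_mul h1 h2 (by positivity) (by positivity)
        _ ≤ 1 + ε := by nlinarith
    · simp only [ρ, if_neg h]
      refine ⟨le_rfl, ?_⟩
      rw [mul_zero]; positivity
  · intro τ hτ
    have h : P τ := by
      by_contra h
      exact hτ (by simp only [ρ, if_neg h])
    obtain ⟨⟨h1, h2⟩, h3⟩ := hu₀ τ h
    have h4 := hmono (show a ≤ u₀ τ by linarith)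
    have h5 := hmono (show u₀ τ ≤ b by linarith)
    constructor
    · have : 0 < σ (u₀ τ) := by linarith
      nlinarith
    · have : σ (u₀ τ) < 1 := by linarith
      nlinarith
  · intro τ
    by_cases h : P τ
    · obtain ⟨⟨h1, h2⟩, -⟩ := hu₀ τ h
      exact ⟨by linarith, by linarith⟩
    · simp only [u₀, dif_neg h]; exact ⟨le_rfl, hab.le⟩
  intro s hs τ g hg
  have hs1 : 2 * K₀ / (r * Real.sqrt (lam / 2)) ≤ s := by
    refine le_trans ?_ hs; rw [hs₀, add_assoc]; exact le_add_of_nonneg_right (by positivity)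
  have hs2 : 104 * Λ * K₀ ^ 4 / (lam * η) ≤ s := by
    refine le_trans ?_ hs; rw [hs₀]
    have : 0 ≤ 2 * K₀ / (r * Real.sqrt (lam / 2)) := by positivity
    have : 0 ≤ 8 / (lam * r * η) := by positivity
    linarith
  have hs3 : 8 / (lam * r * η) ≤ s := by
    refine le_trans ?_ hs; rw [hs₀]; exact le_add_of_nonneg_left (by positivity)
  have hs0 : 0 < s := lt_of_lt_of_le (by positivity) hs3
  by_cases h : P τ
  · obtain ⟨⟨h1, h2⟩, h3⟩ := hu₀ τ h
    simp only [ρ, if_pos h]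
    exact caseA hl hη hr hΛ hK₀0 hs0 hσ hσc hσh hσM hσL hK₀2 hs1 hs2 h1 h2 h3 hg
  · simp only [ρ, if_neg h, zero_div, Complex.ofReal_zero, zero_mul, sub_zero]
    exact caseB hl hη hr hr4 hs0 hσ hσc hσh hσB hs3 h hg

end Crest.Agent.R75.Prof
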